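import Crest.Agent.R215.Defs

/-! Row 215: density of the standard Gaussian, Cameron-Martin formula (helper5). -/

set_option autoImplicit false
open MeasureTheory ProbabilityTheory
open scoped RealInnerProductSpace ENNReal

namespace Crest.Agent.R215.CM

/-- the density of the standard Gaussian with respect to Lebesgue measure -/
noncomputable def dens (n : ℕ) (x : Eu n) : ℝ :=
  (2 * Real.pi) ^ (-(n : ℝ) / 2) * Real.exp (-‖x‖ ^ 2 / 2)

lemma dens_pos (n : ℕ) (x : Eu n) : 0 < dens n x := by
  unfold dens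
  have : (0 : ℝ) < 2 * Real.pi := by positivity
  positivity

lemma dens_continuous (n : ℕ) : Continuous (dens n) := by
  unfold dens
  fun_prop

lemma dens_integrable (n : ℕ) : Integrable (dens n) := by
  have h := GaussianFourier.integrable_cexp_neg_mul_sq_norm_add (V := Eu n) (b := 1 / 2)
    (by norm_num) 0 0
  have h2 := h.re
  unfold dens
  refine Integrable.const_mul ?_ _
  refine h2.congr (Filter.Eventually.of_forall fun x => ?_)
  simp only [zero_mul, add_zero, RCLike.re_to_complex]
  rw [show (-(1 / 2 : ℂ) * (‖x‖ : ℂ) ^ 2) = ((-‖x‖ ^ 2 / 2 : ℝ) : ℂ) by push_cast; ring]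
  rw [← Complex.ofReal_exp, Complex.ofReal_re]

theorem gam_eq (n : ℕ) :
    gam n = (volume : Measure (Eu n)).withDensity (fun x => ENNReal.ofReal (dens n x)) := by
  have hfin : IsFiniteMeasure
      ((volume : Measure (Eu n)).withDensity (fun x => ENNReal.ofReal (dens n x))) :=
    isFiniteMeasure_withDensity_ofReal (dens_integrable n).2
  apply Measure.ext_of_charFun
  ext t
  rw [charFun_stdGaussian, charFun_apply,
    integral_withDensity_eq_integral_toReal_smul
      ((dens_continuous n).measurable.ennreal_ofReal)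
      (Filter.Eventually.of_forall fun x => ENNReal.ofReal_lt_top)]
  have e : ∀ x : Eu n, (ENNReal.ofReal (dens n x)).toReal • Complex.exp (inner ℝ x t * Complex.I)
      = ((2 * Real.pi : ℝ) : ℂ) ^ (-(n : ℂ) / 2) *
        Complex.exp (-(1 / 2 : ℂ) * (‖x‖ : ℂ) ^ 2 + Complex.I * (inner ℝ t x : ℝ)) := by
    intro x
    rw [ENNReal.toReal_ofReal (dens_pos n x).le, Complex.exp_add]
    unfold dens
    rw [Complex.real_smul]
    push_cast
    rw [Complex.ofReal_cpow (by positivity)]
    push_cast
    rw [real_inner_comm t x]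
    rw [mul_assoc]
    congr 2
    · congr 1
      ring
    · congr 1
      ring
  simp_rw [e]
  rw [integral_const_mul, GaussianFourier.integral_cexp_neg_mul_sq_norm_add (by norm_num)]
  rw [finrank_euclideanSpace_fin]
  have h2 : ((Real.pi : ℂ) / (1 / 2 : ℂ)) = ((2 * Real.pi : ℝ) : ℂ) := by push_cast; ring
  rw [h2, ← mul_assoc, ← Complex.cpow_add]
  · rw [show (-(n : ℂ) / 2 + (n : ℂ) / 2) = 0 by ring, Complex.cpow_zero, one_mul]
    congr 1
    rw [Complex.I_sq]
    ring
  · norm_cast
    positivity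

theorem lintegral_gam (n : ℕ) (f : Eu n → ℝ≥0∞) (hf : Measurable f) :
    ∫⁻ x, f x ∂gam n = ∫⁻ x, ENNReal.ofReal (dens n x) * f x := by
  rw [gam_eq, lintegral_withDensity_eq_lintegral_mul _
    ((dens_continuous n).measurable.ennreal_ofReal) hf]
  rfl

/-- Cameron-Martin -/
theorem lintegral_shift (n : ℕ) (f : Eu n → ℝ≥0∞) (hf : Measurable f) (v : Eu n) :
    ∫⁻ x, f (x + v) ∂gam n =
      ∫⁻ x, ENNReal.ofReal (Real.exp (inner ℝ x v - ‖v‖ ^ 2 / 2)) * f x ∂gam n := by
  rw [lintegral_gam n _ (by fun_prop), lintegral_gam n _ (by fun_prop)]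
  rw [← lintegral_add_right_eq_self
    (fun x => ENNReal.ofReal (dens n x) * (ENNReal.ofReal (Real.exp (inner ℝ x v - ‖v‖ ^ 2 / 2)) * f x)) v]
  refine lintegral_congr fun x => ?_
  rw [← mul_assoc]
  congr 1
  rw [← ENNReal.ofReal_mul (dens_pos n _).le]
  congr 1
  unfold dens
  rw [mul_assoc, ← Real.exp_add]
  congr 2
  rw [inner_add_left, real_inner_self_eq_norm_sq]
  rw [@norm_add_sq_real]
  ring

end Crest.Agent.R215.CM
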