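import Mathlib

/-! Row 215 (S0334, the propeller inequality in every dimension): shared definitions. -/

set_option autoImplicit false
open MeasureTheory ProbabilityTheory
open scoped RealInnerProductSpace

namespace Crest.Agent.R215

/-- Euclidean space of dimension `n`. -/
abbrev Eu (n : ℕ) := EuclideanSpace ℝ (Fin n)

/-- The standard Gaussian measure on `Eu n`. -/
noncomputable abbrev gam (n : ℕ) : Measure (Eu n) := stdGaussian (Eu n)

/-- `F z = E max_i ⟪x, z i⟫`, expectation of the maximum of the Gaussian vector `(⟪x, z i⟫)_i`. -/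
noncomputable def F {n : ℕ} {ι : Type} (z : ι → Eu n) : ℝ :=
  ∫ x, (⨆ i, inner ℝ x (z i)) ∂gam n

/-- `V z = ∑ i, ‖z i - mean‖ ^ 2`. -/
noncomputable def V {n : ℕ} {ι : Type} [Fintype ι] (z : ι → Eu n) : ℝ :=
  ∑ i, ‖z i‖ ^ 2 - ‖∑ i, z i‖ ^ 2 / Fintype.card ι

/-- The bound for all families of `k` points in all dimensions. -/
def Claim (k : ℕ) : Prop :=
  ∀ (n : ℕ) (z : Fin k → Eu n), F z ≤ 3 / √(8 * Real.pi) * √(V z)

/-- The (closed) cell of the index `i`: where `⟪x, z i⟫` is the largest. -/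
def cell {n k : ℕ} (z : Fin k → Eu n) (i : Fin k) : Set (Eu n) :=
  {x | ∀ j, inner ℝ x (z j) ≤ inner ℝ x (z i)}

/-- `Dl z i x = ⟪x, z i⟫ - max_{j ≠ i} ⟪x, z j⟫`. -/
noncomputable def Dl {n k : ℕ} (z : Fin (k + 1) → Eu n) (i : Fin (k + 1)) (x : Eu n) : ℝ :=
  inner ℝ x (z i) - ⨆ j : Fin k, inner ℝ x (z (i.succAbove j))

/-- A (rescaled) maximiser of `F / √V` among `n + 1` points of `Eu n`, with too large a value. -/
structure Extremal {n : ℕ} (z : Fin (n + 1) → Eu n) : Prop where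
  sum_zero : ∑ i, z i = 0
  big : 9 / (8 * Real.pi) < ∑ i, ‖z i‖ ^ 2
  F_eq : F z = ∑ i, ‖z i‖ ^ 2
  max : ∀ w : Fin (n + 1) → Eu n, F w ≤ √(∑ i, ‖z i‖ ^ 2) * √(V w)
  cell_eq : ∀ i, z i = ∫ x in cell z i, x ∂gam n
  neg : ∀ i j, i ≠ j → inner ℝ (z i) (z j) < 0

end Crest.Agent.R215
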