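import Crest.Agent.R215.Defs

/-! Row 215: the density of `gam n` with respect to Lebesgue measure. -/

set_option autoImplicit false
open MeasureTheory ProbabilityTheory
open scoped RealInnerProductSpace

namespace Crest.Agent.R215

/-- The Gaussian density. -/
noncomputable def dens (n : ℕ) (x : Eu n) : ℝ :=
  (2 * Real.pi) ^ (-((n : ℝ) / 2)) * Real.exp (-(1 / 2) * ‖x‖ ^ 2)

theorem dens_pos (n : ℕ) (x : Eu n) : 0 < dens n x := by
  unfold dens; positivity

theorem dens_continuous (n : ℕ) : Continuous (dens n) := by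
  unfold dens; fun_prop

theorem integrable_exp_neg_sq (n : ℕ) {b : ℝ} (hb : 0 < b) :
    Integrable (fun x : Eu n => Real.exp (-b * ‖x‖ ^ 2)) := by
  have h := (GaussianFourier.integrable_cexp_neg_mul_sq_norm_add (V := Eu n) (b := (b : ℂ))
    (by simpa using hb) 0 0).re
  refine h.congr (Filter.Eventually.of_forall fun x => ?_)
  simp only [zero_mul, add_zero]
  rw [show (-(b : ℂ) * (‖x‖ : ℂ) ^ 2) = ((-b * ‖x‖ ^ 2 : ℝ) : ℂ) by push_cast; ring]
  rw [← Complex.ofReal_exp]
  rfl

theorem dens_integrable (n : ℕ) : Integrable (dens n) := by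
  unfold dens
  exact (integrable_exp_neg_sq n (by norm_num : (0 : ℝ) < 1 / 2)).const_mul _

theorem gam_eq (n : ℕ) :
    gam n = (volume : Measure (Eu n)).withDensity (fun x => ENNReal.ofReal (dens n x)) := by
  have : IsFiniteMeasure ((volume : Measure (Eu n)).withDensity
      (fun x => ENNReal.ofReal (dens n x))) := by
    exact isFiniteMeasure_withDensity_ofReal (dens_integrable n).2
  apply Measure.ext_of_charFun
  ext t
  rw [charFun_stdGaussian, charFun_apply]
  rw [integral_withDensity_eq_integral_toReal_smul₀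
    (by exact (dens_continuous n).measurable.ennreal_ofReal.aemeasurable)
    (Filter.Eventually.of_forall fun x => ENNReal.ofReal_lt_top)]
  have h1 : ∀ x : Eu n, (ENNReal.ofReal (dens n x)).toReal • Complex.exp ((inner ℝ x t : ℝ) * Complex.I)
      = (((2 * Real.pi) ^ (-((n : ℝ) / 2)) : ℝ) : ℂ) *
        Complex.exp (-((1 / 2 : ℝ) : ℂ) * (‖x‖ : ℂ) ^ 2 + Complex.I * ((inner ℝ t x : ℝ) : ℂ)) := by
    intro x
    rw [ENNReal.toReal_ofReal (dens_pos n x).le, Complex.exp_add, Complex.real_smul, dens,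
      real_inner_comm x t]
    push_cast
    ring_nf
  simp_rw [h1]
  rw [integral_const_mul, GaussianFourier.integral_cexp_neg_mul_sq_norm_add (V := Eu n)
    (b := ((1 / 2 : ℝ) : ℂ)) (by norm_num) Complex.I t]
  have h2 : ((Real.pi : ℂ) / ((1 / 2 : ℝ) : ℂ)) ^ ((Module.finrank ℝ (Eu n) : ℂ) / 2)
      = (((2 * Real.pi) ^ ((n : ℝ) / 2) : ℝ) : ℂ) := by
    rw [Complex.ofReal_cpow (by positivity)]
    simp only [finrank_euclideanSpace, Fintype.card_fin]
    push_cast
    congr 1
    ring
  rw [h2, ← mul_assoc, ← Complex.ofReal_mul, ← Real.rpow_add (by positivity)]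
  simp only [neg_add_cancel, Real.rpow_zero, Complex.ofReal_one, one_mul, Complex.I_sq]
  push_cast
  congr 1
  ring

end Crest.Agent.R215
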