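import Crest.Agent.R215.Defs

/-! Row 215: the density of the standard Gaussian measure, and the independence of the norm and the
direction (helper13). -/

set_option autoImplicit false
open MeasureTheory ProbabilityTheory Set Metric
open scoped RealInnerProductSpace ENNReal

namespace Crest.Agent.R215.Density

/-- the density as a function of the norm -/
noncomputable def dens (n : ℕ) (r : ℝ) : ℝ :=
  (2 * Real.pi) ^ (-(n : ℝ) / 2) * Real.exp (-(r ^ 2) / 2)

lemma dens_pos (n : ℕ) (r : ℝ) : 0 < dens n r := by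
  unfold dens; positivity

lemma dens_measurable (n : ℕ) : Measurable (dens n) := by
  unfold dens; fun_prop

lemma dens_continuous (n : ℕ) : Continuous (dens n) := by
  unfold dens; fun_prop

lemma integrable_dens (n : ℕ) : Integrable (fun x : Eu n => dens n ‖x‖) := by
  have h := GaussianFourier.integrable_cexp_neg_mul_sq_norm_add (V := Eu n) (b := (1 / 2 : ℂ))
    (by norm_num) 0 0
  have h2 := h.norm
  unfold dens
  refine Integrable.const_mul ?_ _
  refine h2.congr (Filter.Eventually.of_forall fun x => ?_)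
  simp only [zero_mul, add_zero, Complex.norm_exp]
  congr 1
  have : (-(1 / 2 : ℂ) * (‖x‖ : ℂ) ^ 2) = ((-(‖x‖ ^ 2) / 2 : ℝ) : ℂ) := by
    push_cast; ring
  rw [this, Complex.ofReal_re]

theorem gam_eq_withDensity (n : ℕ) :
    gam n = (volume : Measure (Eu n)).withDensity (fun x => ENNReal.ofReal (dens n ‖x‖)) := by
  have hfin : IsFiniteMeasure ((volume : Measure (Eu n)).withDensity
      (fun x => ENNReal.ofReal (dens n ‖x‖))) :=
    isFiniteMeasure_withDensity_ofReal (integrable_dens n).2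
  apply Measure.ext_of_charFun
  ext t
  rw [charFun_stdGaussian, charFun_apply, integral_withDensity_eq_integral_toReal_smul
    (by have := dens_measurable n; fun_prop) (Filter.Eventually.of_forall fun x => by simp)]
  have h := GaussianFourier.integral_cexp_neg_mul_sq_norm_add (V := Eu n) (b := (1 / 2 : ℂ))
    (by norm_num) Complex.I t
  have h3 : ∀ x : Eu n, (ENNReal.ofReal (dens n ‖x‖)).toReal •
      Complex.exp ((inner ℝ x t : ℝ) * Complex.I) =
      (((2 * Real.pi) ^ (-(n : ℝ) / 2) : ℝ) : ℂ) *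
        Complex.exp (-(1 / 2 : ℂ) * ‖x‖ ^ 2 + Complex.I * (inner ℝ t x : ℝ)) := by
    intro x
    rw [ENNReal.toReal_ofReal (dens_pos n _).le, dens, Complex.real_smul, Complex.exp_add,
      real_inner_comm]
    push_cast
    rw [mul_assoc]
    congr 2
    · congr 1; ring
    · congr 1; ring
  simp_rw [h3]
  rw [integral_const_mul, h]
  rw [finrank_euclideanSpace_fin]
  have h4 : ((Real.pi : ℂ) / (1 / 2)) ^ ((n : ℂ) / 2) = (((2 * Real.pi) ^ ((n : ℝ) / 2) : ℝ) : ℂ) := by
    rw [Complex.ofReal_cpow (by positivity)]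
    push_cast
    congr 1; ring
  rw [h4, ← mul_assoc, ← Complex.ofReal_mul, ← Real.rpow_add (by positivity)]
  have : -(n : ℝ) / 2 + n / 2 = 0 := by ring
  rw [this, Real.rpow_zero]
  simp only [Complex.ofReal_one, one_mul, Complex.I_sq]
  congr 1
  ring

/-- polar coordinates on cones -/
theorem lintegral_cone {n : ℕ} (hn : 1 ≤ n) (A : Set (Eu n)) (hA : MeasurableSet A)
    (hcone : ∀ x ∈ A, ∀ t : ℝ, 0 < t → t • x ∈ A) (h : ℝ → ℝ≥0∞) (hh : Measurable h) :
    ∫⁻ x in A, h ‖x‖ = (volume : Measure (Eu n)).toSphere {ω | (ω : Eu n) ∈ A} *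
      ∫⁻ r, h (r : ℝ) ∂(Measure.volumeIoiPow (n - 1)) := by
  have : Nonempty (Fin n) := ⟨⟨0, hn⟩⟩
  have hfin : Module.finrank ℝ (Eu n) = n := finrank_euclideanSpace_fin
  have hmeas : Measurable (fun x : Eu n => A.indicator (fun x => h ‖x‖) x) :=
    (hh.comp measurable_norm).indicator hA
  rw [← lintegral_indicator hA]
  have h1 : ∫⁻ x, A.indicator (fun x => h ‖x‖) x =
      ∫⁻ x in ({0}ᶜ : Set (Eu n)), A.indicator (fun x => h ‖x‖) x := by
    rw [restrict_compl_singleton]
  rw [h1, ← lintegral_subtype_comap (measurableSet_singleton _).compl]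
  have h2 := ((volume : Measure (Eu n)).measurePreserving_homeomorphUnitSphereProd).symm
    (e := (homeomorphUnitSphereProd (Eu n)).toMeasurableEquiv)
  have h3 := h2.lintegral_comp_emb (MeasurableEquiv.measurableEmbedding _)
    (fun x : ({0}ᶜ : Set (Eu n)) => A.indicator (fun x => h ‖x‖) (x : Eu n))
  rw [← h3, hfin]
  have h4 : ∀ p : sphere (0 : Eu n) 1 × Ioi (0 : ℝ),
      A.indicator (fun x => h ‖x‖) (((homeomorphUnitSphereProd (Eu n)).toMeasurableEquiv.symm p :
        ({0}ᶜ : Set (Eu n))) : Eu n) =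
      ({ω : sphere (0 : Eu n) 1 | (ω : Eu n) ∈ A}.indicator (fun _ => (1 : ℝ≥0∞)) p.1) * h p.2 := by
    intro p
    have hp : (((homeomorphUnitSphereProd (Eu n)).toMeasurableEquiv.symm p :
        ({0}ᶜ : Set (Eu n))) : Eu n) = (p.2 : ℝ) • (p.1 : Eu n) := by
      simp [Homeomorph.toMeasurableEquiv_symm_coe]
    rw [hp]
    have hpos : (0 : ℝ) < p.2 := p.2.2
    have hn1 : ‖(p.1 : Eu n)‖ = 1 := by simp
    have hmem : (p.2 : ℝ) • (p.1 : Eu n) ∈ A ↔ (p.1 : Eu n) ∈ A := by
      constructor
      · intro hx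
        have := hcone _ hx (p.2 : ℝ)⁻¹ (inv_pos.mpr hpos)
        rwa [smul_smul, inv_mul_cancel₀ hpos.ne', one_smul] at this
      · intro hx
        exact hcone _ hx _ hpos
    by_cases hx : (p.1 : Eu n) ∈ A
    · rw [indicator_of_mem (hmem.mpr hx), indicator_of_mem (by exact hx), norm_smul, hn1, mul_one,
        Real.norm_of_nonneg hpos.le, one_mul]
    · rw [indicator_of_notMem (fun h => hx (hmem.mp h)), indicator_of_notMem (by exact hx), zero_mul]
  simp_rw [h4]
  have hms : MeasurableSet {ω : sphere (0 : Eu n) 1 | (ω : Eu n) ∈ A} :=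
    measurable_subtype_coe hA
  rw [lintegral_prod_mul (f := fun ω => {ω : sphere (0 : Eu n) 1 | (ω : Eu n) ∈ A}.indicator
      (fun _ => (1 : ℝ≥0∞)) ω) (g := fun r : Ioi (0 : ℝ) => h r)
    ((measurable_const.indicator hms).aemeasurable)
    ((hh.comp measurable_subtype_coe).aemeasurable)]
  congr 1
  rw [lintegral_indicator hms]
  simp

/-- the norm and the direction are independent -/
theorem lintegral_cone_gam {n : ℕ} (hn : 1 ≤ n) (A : Set (Eu n)) (hA : MeasurableSet A)
    (hcone : ∀ x ∈ A, ∀ t : ℝ, 0 < t → t • x ∈ A) (h : ℝ → ℝ≥0∞) (hh : Measurable h) :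
    ∫⁻ x in A, h ‖x‖ ∂gam n = gam n A * ∫⁻ x, h ‖x‖ ∂gam n := by
  have hd : Measurable (fun r => ENNReal.ofReal (dens n r)) := (dens_measurable n).ennreal_ofReal
  have key : ∀ (B : Set (Eu n)) (g : ℝ → ℝ≥0∞), MeasurableSet B → Measurable g →
      (∀ x ∈ B, ∀ t : ℝ, 0 < t → t • x ∈ B) →
      ∫⁻ x in B, g ‖x‖ ∂gam n = (volume : Measure (Eu n)).toSphere {ω | (ω : Eu n) ∈ B} *
      ∫⁻ r, ENNReal.ofReal (dens n (r : ℝ)) * g (r : ℝ) ∂(Measure.volumeIoiPow (n - 1)) := by
    intro B g hB hg hc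
    rw [gam_eq_withDensity, setLIntegral_withDensity_eq_setLIntegral_mul _
      (by exact hd.comp measurable_norm) (by exact hg.comp measurable_norm) hB]
    exact lintegral_cone hn B hB hc (fun r => ENNReal.ofReal (dens n r) * g r) (hd.mul hg)
  have e1 := key A h hA hh hcone
  have e2 := key Set.univ h MeasurableSet.univ hh (by simp)
  have e3 := key A (fun _ => 1) hA measurable_const hcone
  have e4 := key Set.univ (fun _ => 1) MeasurableSet.univ measurable_const (by simp)
  simp only [mul_one, lintegral_const, Measure.restrict_apply, MeasurableSet.univ, univ_inter,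
    one_mul, measure_univ, Measure.restrict_univ] at e1 e2 e3 e4
  rw [e1, e2, e3]
  rw [show ∀ a b c d : ℝ≥0∞, a * b * (c * d) = a * d * (c * b) by intros; ring, ← e4, mul_one]

end Crest.Agent.R215.Density
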