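import Crest.Agent.R215.Defs

/-! Row 215 skeleton: exact statements of all pieces (each piece is proved in its own file). -/

set_option autoImplicit false
open MeasureTheory ProbabilityTheory
open scoped RealInnerProductSpace

namespace Crest.Agent.R215.Skel

/-! ### T0: API for `F`, `V`, `Dl` (helper17) -/

theorem F_integrable {n k : ℕ} (z : Fin k → Eu n) :
    Integrable (fun x => ⨆ i, inner ℝ x (z i)) (gam n) := sorry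

/-- removing a point -/
theorem F_remove {n k : ℕ} (hk : 1 ≤ k) (z : Fin (k + 1) → Eu n) (i : Fin (k + 1)) :
    F z = F (fun j => z (i.succAbove j)) + ∫ x, max (Dl z i x) 0 ∂gam n := sorry

/-- moving a point -/
theorem F_move {n k : ℕ} (hk : 1 ≤ k) (z : Fin (k + 1) → Eu n) (i : Fin (k + 1)) (v : Eu n) :
    F (Function.update z i (z i + v)) =
      F (fun j => z (i.succAbove j)) + ∫ x, max (Dl z i x + inner ℝ x v) 0 ∂gam n := sorry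

theorem V_remove {n k : ℕ} (hk : 1 ≤ k) (z : Fin (k + 1) → Eu n) (h0 : ∑ i, z i = 0)
    (i : Fin (k + 1)) :
    V (fun j => z (i.succAbove j)) = ∑ j, ‖z j‖ ^ 2 - (k + 1) / k * ‖z i‖ ^ 2 := sorry

theorem V_move {n k : ℕ} (z : Fin (k + 1) → Eu n) (h0 : ∑ i, z i = 0)
    (i : Fin (k + 1)) (v : Eu n) :
    V (Function.update z i (z i + v)) =
      ∑ j, ‖z j‖ ^ 2 + 2 * inner ℝ (z i) v + k / (k + 1) * ‖v‖ ^ 2 := sorry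

theorem Dl_continuous {n k : ℕ} (hk : 1 ≤ k) (z : Fin (k + 1) → Eu n) (i : Fin (k + 1)) :
    Continuous (Dl z i) := sorry

theorem Dl_concave {n k : ℕ} (hk : 1 ≤ k) (z : Fin (k + 1) → Eu n) (i : Fin (k + 1)) :
    ConcaveOn ℝ Set.univ (Dl z i) := sorry

theorem Dl_hom {n k : ℕ} (hk : 1 ≤ k) (z : Fin (k + 1) → Eu n) (i : Fin (k + 1)) (x : Eu n)
    (t : ℝ) (ht : 0 ≤ t) : Dl z i (t • x) = t * Dl z i x := sorry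

theorem Dl_shift {n k : ℕ} (hk : 1 ≤ k) (z : Fin (k + 1) → Eu n) (i : Fin (k + 1)) (y : Eu n)
    (hy : ∀ j, j ≠ i → inner ℝ y (z i - z j) = 1) (x : Eu n) (t : ℝ) :
    Dl z i (x + t • y) = Dl z i x + t := sorry

theorem exists_dual (n : ℕ) (hn : 1 ≤ n) (z : Fin (n + 1) → Eu n) (hz : Extremal z)
    (i : Fin (n + 1)) :
    ∃ y : Eu n, y ≠ 0 ∧ (∀ j, j ≠ i → inner ℝ y (z i - z j) = 1) ∧
      inner ℝ (z i) y = n / ((n : ℝ) + 1) := sorry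

/-- open and closed cells agree a.e. -/
theorem cell_ae (n : ℕ) (hn : 1 ≤ n) (z : Fin (n + 1) → Eu n) (hz : Extremal z)
    (i : Fin (n + 1)) : {x | 0 < Dl z i x} =ᵐ[gam n] cell z i := sorry

theorem sum_cell (n : ℕ) (hn : 1 ≤ n) (z : Fin (n + 1) → Eu n) (hz : Extremal z) :
    ∑ i, (gam n).real (cell z i) = 1 := sorry

/-! ### T1: at most three points -/

theorem claim_le_three (k : ℕ) (hk : k ≤ 3) : Claim k := sorry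

/-! ### T2: the maximiser -/

theorem exists_extremal (n : ℕ) (hn : 1 ≤ n) (hC : Claim n)
    (hnot : ∃ z : Fin (n + 1) → Eu n, 3 / √(8 * Real.pi) * √(V z) < F z) :
    ∃ z : Fin (n + 1) → Eu n, Extremal z := sorry

/-! ### T3: dimension reduction -/

theorem claim_of_dim (n : ℕ)
    (h : ∀ z : Fin (n + 1) → Eu n, F z ≤ 3 / √(8 * Real.pi) * √(V z)) :
    Claim (n + 1) := sorry

/-! ### T4: partitions -/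

theorem partition_bound (k : ℕ) (hC : Claim k) (n : ℕ) (B : Fin k → Set (Eu n))
    (hB : ∀ i, MeasurableSet (B i)) (hdisj : Pairwise fun i j => Disjoint (B i) (B j))
    (hcov : ⋃ i, B i = Set.univ) :
    ∑ i, ‖∫ x in B i, x ∂gam n‖ ^ 2 ≤ 9 / (8 * Real.pi) := sorry

universe u v

theorem final_of_claim (hC : ∀ k, Claim k)
    (E : Type u) [NormedAddCommGroup E] [InnerProductSpace ℝ E] [FiniteDimensional ℝ E]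
    [MeasurableSpace E] [BorelSpace E]
    (ι : Type v) [Fintype ι] (A : ι → Set E)
    (hA : ∀ i, MeasurableSet (A i))
    (hdisj : Pairwise fun i j => Disjoint (A i) (A j))
    (hcov : ⋃ i, A i = Set.univ) :
    ∑ i, ‖∫ x in A i, x ∂stdGaussian E‖ ^ 2 ≤ 9 / (8 * Real.pi) := sorry

/-! ### T5: bathtub bounds -/

theorem cone_bound (n : ℕ) (hn : 3 ≤ n) (A : Set (Eu n)) (hA : MeasurableSet A)
    (hcone : ∀ x ∈ A, ∀ t : ℝ, 0 < t → t • x ∈ A) (e : Eu n) (he : ‖e‖ = 1)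
    (hμ : (gam n).real A ≤ 1 / 2) :
    ∫ x in A, inner ℝ x e ∂gam n ≤
      1 / √(2 * Real.pi) *
        (1 - Real.pi * (∫ x, ‖x‖ ∂gam n) ^ 2 / (n - 1) * (1 / 2 - (gam n).real A) ^ 2) := sorry

theorem norm_integral_sq :
    (∫ x, ‖x‖ ∂gam 3) ^ 2 = 8 / Real.pi ∧ (∫ x, ‖x‖ ∂gam 4) ^ 2 = 9 * Real.pi / 8 ∧
    (∫ x, ‖x‖ ∂gam 5) ^ 2 = 128 / (9 * Real.pi) ∧
    (∫ x, ‖x‖ ∂gam 6) ^ 2 = 225 * Real.pi / 128 ∧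
    (∫ x, ‖x‖ ∂gam 7) ^ 2 = 512 / (25 * Real.pi) := sorry

theorem half_space_bound (n : ℕ) (A : Set (Eu n)) (hA : MeasurableSet A)
    (e : Eu n) (he : ‖e‖ = 1) :
    ∫ x in A, inner ℝ x e ∂gam n ≤
      1 / √(2 * Real.pi) * (1 - Real.pi * (1 / 2 - (gam n).real A) ^ 2) := sorry

/-! ### T6: Prekopa-Leindler bounds for the gain -/

theorem gain_le (n : ℕ) (Δ : Eu n → ℝ) (y : Eu n) (hcont : Continuous Δ)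
    (hconc : ConcaveOn ℝ Set.univ Δ) (hsh : ∀ x (t : ℝ), Δ (x + t • y) = Δ x + t) :
    (∫ x in {x | 0 < Δ x}, inner ℝ x y ∂gam n) * ∫ x, max (Δ x) 0 ∂gam n ≤
      ((gam n).real {x | 0 < Δ x}) ^ 2 := sorry

theorem gain_le_three (Δ : Eu 3 → ℝ) (y : Eu 3) (hcont : Continuous Δ)
    (hconc : ConcaveOn ℝ Set.univ Δ)
    (hhom : ∀ x (t : ℝ), 0 ≤ t → Δ (t • x) = t * Δ x)
    (hsh : ∀ x (t : ℝ), Δ (x + t • y) = Δ x + t) :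
    (∫ x in {x | 0 < Δ x}, inner ℝ x y ∂gam 3) * ∫ x, max (Δ x) 0 ∂gam 3 ≤
      11 / 12 * ((gam 3).real {x | 0 < Δ x}) ^ 2 := sorry

/-! ### T7: the boundary measure -/

theorem exists_boundary (n : ℕ) (Δ : Eu n → ℝ) (y : Eu n) (hcont : Continuous Δ)
    (hhom : ∀ x (t : ℝ), 0 ≤ t → Δ (t • x) = t * Δ x)
    (hsh : ∀ x (t : ℝ), Δ (x + t • y) = Δ x + t) :
    ∃ ν : Measure (Eu n), IsFiniteMeasure ν ∧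
      ν.real Set.univ = ∫ x in {x | 0 < Δ x}, inner ℝ x y ∂gam n ∧
      (∀ᵐ x ∂ν, Δ x = 0) ∧
      Integrable (fun x => ‖x‖ ^ 2) ν ∧
      ((n : ℝ) - 1) * ν.real Set.univ ≤ ∫ x, ‖x‖ ^ 2 ∂ν ∧
      ∀ (v : Eu n) (K : ℝ),
        (∀ s : ℝ, 0 < s → ∫ x, max (s * |inner ℝ x v| - |Δ x|) 0 ∂gam n ≤ K * s ^ 2) →
        ∫ x, (inner ℝ x v) ^ 2 ∂ν ≤ K := sorry

/-! ### T8: the second order condition (C3) -/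

theorem c3 (n : ℕ) (hn : 2 ≤ n) (z : Fin (n + 1) → Eu n) (hz : Extremal z) :
    ∃ a b, a ≠ b ∧ ∀ i, ∑ j, ‖z j‖ ^ 2 - ‖z a‖ ^ 2 - ‖z b‖ ^ 2 ≤
      ((n : ℝ) + 1) * n * ‖z i‖ ^ 2 := sorry

/-! ### T9: the final optimisation, pure real inequalities -/

theorem opt4 (u μ : Fin 4 → ℝ) (hu0 : ∀ i, 0 ≤ u i) (hu1 : ∀ i, u i ≤ 1)
    (hμ0 : ∀ i, 0 ≤ μ i) (hμ : ∑ i, μ i = 1)
    (h1 : ∀ i, μ i ≤ 1 / 2 → u i ≤ 1 - 4 * (1 / 2 - μ i) ^ 2)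
    (h2 : ∀ i, u i ^ 2 ≤ 11 * Real.pi / 3 * μ i ^ 2)
    (h3 : ∃ a b, a ≠ b ∧ ∀ i, ∑ j, u j ^ 2 - u a ^ 2 - u b ^ 2 ≤ 12 * u i ^ 2) :
    ∑ i, u i ^ 2 ≤ 9 / 4 := sorry

theorem opt5 (u μ : Fin 5 → ℝ) (hu0 : ∀ i, 0 ≤ u i) (hu1 : ∀ i, u i ≤ 1)
    (hμ0 : ∀ i, 0 ≤ μ i) (hμ : ∑ i, μ i = 1)
    (h1 : ∀ i, μ i ≤ 1 / 2 → u i ≤ 1 - 3 * Real.pi ^ 2 / 8 * (1 / 2 - μ i) ^ 2)
    (h2 : ∀ i, u i ^ 2 ≤ 4 * Real.pi * μ i ^ 2)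
    (h3 : ∃ a b, a ≠ b ∧ ∀ i, ∑ j, u j ^ 2 - u a ^ 2 - u b ^ 2 ≤ 20 * u i ^ 2) :
    ∑ i, u i ^ 2 ≤ 9 / 4 := sorry

theorem opt6 (u μ : Fin 6 → ℝ) (hu0 : ∀ i, 0 ≤ u i) (hu1 : ∀ i, u i ≤ 1)
    (hμ0 : ∀ i, 0 ≤ μ i) (hμ : ∑ i, μ i = 1)
    (h1 : ∀ i, μ i ≤ 1 / 2 → u i ≤ 1 - 32 / 9 * (1 / 2 - μ i) ^ 2)
    (h2 : ∀ i, u i ^ 2 ≤ 4 * Real.pi * μ i ^ 2)
    (h3 : ∃ a b, a ≠ b ∧ ∀ i, ∑ j, u j ^ 2 - u a ^ 2 - u b ^ 2 ≤ 30 * u i ^ 2) :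
    ∑ i, u i ^ 2 ≤ 9 / 4 := sorry

theorem opt7 (u μ : Fin 7 → ℝ) (hu0 : ∀ i, 0 ≤ u i) (hu1 : ∀ i, u i ≤ 1)
    (hμ0 : ∀ i, 0 ≤ μ i) (hμ : ∑ i, μ i = 1)
    (h1 : ∀ i, μ i ≤ 1 / 2 → u i ≤ 1 - 45 * Real.pi ^ 2 / 128 * (1 / 2 - μ i) ^ 2)
    (h2 : ∀ i, u i ^ 2 ≤ 4 * Real.pi * μ i ^ 2)
    (h3 : ∃ a b, a ≠ b ∧ ∀ i, ∑ j, u j ^ 2 - u a ^ 2 - u b ^ 2 ≤ 42 * u i ^ 2) :
    ∑ i, u i ^ 2 ≤ 9 / 4 := sorry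

theorem opt8 (u μ : Fin 8 → ℝ) (hu0 : ∀ i, 0 ≤ u i) (hu1 : ∀ i, u i ≤ 1)
    (hμ0 : ∀ i, 0 ≤ μ i) (hμ : ∑ i, μ i = 1)
    (h1 : ∀ i, μ i ≤ 1 / 2 → u i ≤ 1 - 256 / 75 * (1 / 2 - μ i) ^ 2)
    (h2 : ∀ i, u i ^ 2 ≤ 4 * Real.pi * μ i ^ 2)
    (h3 : ∃ a b, a ≠ b ∧ ∀ i, ∑ j, u j ^ 2 - u a ^ 2 - u b ^ 2 ≤ 56 * u i ^ 2) :
    ∑ i, u i ^ 2 ≤ 9 / 4 := sorry

theorem opt9 (k : ℕ) (hk : 9 ≤ k) (u μ : Fin k → ℝ) (hu0 : ∀ i, 0 ≤ u i) (hu1 : ∀ i, u i ≤ 1)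
    (hμ0 : ∀ i, 0 ≤ μ i) (hμ : ∑ i, μ i = 1)
    (h1 : ∀ i, μ i ≤ 1 / 2 → u i ≤ 1 - Real.pi * (1 / 2 - μ i) ^ 2)
    (h2 : ∀ i, u i ^ 2 ≤ 4 * Real.pi * μ i ^ 2)
    (h3 : ∃ a b, a ≠ b ∧ ∀ i, ∑ j, u j ^ 2 - u a ^ 2 - u b ^ 2 ≤ (k : ℝ) * (k - 1) * u i ^ 2) :
    ∑ i, u i ^ 2 ≤ 9 / 4 := sorry

end Crest.Agent.R215.Skel
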