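import Crest.Agent.R215.Defs

/-! Row 215, T0: API for `F`, `V`, `Dl`, `cell`. -/

set_option autoImplicit false
open MeasureTheory ProbabilityTheory
open scoped RealInnerProductSpace

namespace Crest.Agent.R215.T0

variable {n k : ℕ}

/-! ### Gaussian integrals of linear forms -/

lemma integrable_id_gam (n : ℕ) : Integrable (fun x : Eu n => x) (gam n) :=
  IsGaussian.integrable_id

lemma integrable_norm_gam (n : ℕ) : Integrable (fun x : Eu n => ‖x‖) (gam n) :=
  (integrable_id_gam n).norm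

lemma integrable_inner (v : Eu n) : Integrable (fun x : Eu n => (inner ℝ x v : ℝ)) (gam n) := by
  refine Integrable.mono' ((integrable_norm_gam n).mul_const ‖v‖) ?_ ?_
  · exact (by fun_prop : Continuous fun x : Eu n => (inner ℝ x v : ℝ)).aestronglyMeasurable
  · exact Filter.Eventually.of_forall fun x => norm_inner_le_norm x v

lemma integral_inner_gam (v : Eu n) : ∫ x, (inner ℝ x v : ℝ) ∂gam n = 0 := by
  have h := integral_inner (𝕜 := ℝ) (integrable_id_gam n) v
  rw [integral_id_stdGaussian] at h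
  simp only [inner_zero_right] at h
  rw [← h]
  exact integral_congr_ae (Filter.Eventually.of_forall fun x => real_inner_comm _ _)

lemma setIntegral_inner (A : Set (Eu n)) (v : Eu n) :
    ∫ x in A, (inner ℝ x v : ℝ) ∂gam n = inner ℝ (∫ x in A, x ∂gam n) v := by
  have h := integral_inner (𝕜 := ℝ) ((integrable_id_gam n).integrableOn (s := A)).integrable v
  rw [real_inner_comm, ← h]
  exact integral_congr_ae (Filter.Eventually.of_forall fun x => real_inner_comm _ _)

/-! ### suprema over `Fin k` -/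

lemma bdd {ι : Type} [Finite ι] (f : ι → ℝ) : BddAbove (Set.range f) := Finite.bddAbove_range f

lemma le_sup {ι : Type} [Finite ι] (f : ι → ℝ) (i : ι) : f i ≤ ⨆ j, f j := le_ciSup (bdd f) i

lemma exists_sup {ι : Type} [Finite ι] [Nonempty ι] (f : ι → ℝ) : ∃ i, ⨆ j, f j = f i := by
  obtain ⟨i, hi⟩ := exists_eq_ciSup_of_finite (f := f)
  exact ⟨i, hi.symm⟩

/-- splitting off one index -/
lemma sup_split (hk : 1 ≤ k) (f : Fin (k + 1) → ℝ) (i : Fin (k + 1)) :
    ⨆ j, f j = max (f i) (⨆ j : Fin k, f (i.succAbove j)) := by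
  have : Nonempty (Fin k) := ⟨⟨0, hk⟩⟩
  apply le_antisymm
  · refine ciSup_le fun j => ?_
    rcases Fin.eq_self_or_eq_succAbove i j with h | ⟨l, h⟩
    · rw [h]; exact le_max_left _ _
    · rw [h]; exact le_max_of_le_right (le_sup (fun j : Fin k => f (i.succAbove j)) l)
  · exact max_le (le_sup f i) (ciSup_le fun j => le_sup f _)

lemma measurable_sup {ι : Type} [Finite ι] (z : ι → Eu n) :
    Measurable (fun x : Eu n => ⨆ i, (inner ℝ x (z i) : ℝ)) := by
  have : Countable ι := inferInstance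
  exact Measurable.iSup fun i => (by fun_prop : Continuous fun x : Eu n => (inner ℝ x (z i) : ℝ)).measurable

lemma abs_sup_le {ι : Type} [Fintype ι] (f : ι → ℝ) : |⨆ i, f i| ≤ ∑ i, |f i| := by
  rcases isEmpty_or_nonempty ι with h | h
  · simp
  · obtain ⟨i, hi⟩ := exists_sup f
    rw [hi]
    exact Finset.single_le_sum (f := fun i => |f i|) (fun i _ => abs_nonneg _) (Finset.mem_univ i)

lemma F_integrable' {ι : Type} [Fintype ι] (z : ι → Eu n) :
    Integrable (fun x => ⨆ i, (inner ℝ x (z i) : ℝ)) (gam n) := by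
  refine Integrable.mono' (g := fun x => ∑ i, |(inner ℝ x (z i) : ℝ)|)
    (integrable_finsetSum _ fun i _ => (integrable_inner (z i)).abs) (measurable_sup z).aestronglyMeasurable ?_
  exact Filter.Eventually.of_forall fun x => abs_sup_le _

theorem F_integrable (z : Fin k → Eu n) :
    Integrable (fun x => ⨆ i, inner ℝ x (z i)) (gam n) := F_integrable' z

lemma Dl_measurable (z : Fin (k + 1) → Eu n) (i : Fin (k + 1)) : Measurable (Dl z i) := by
  unfold Dl
  exact ((by fun_prop : Continuous fun x : Eu n => (inner ℝ x (z i) : ℝ)).measurable).sub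
    (measurable_sup _)

lemma Dl_integrable (z : Fin (k + 1) → Eu n) (i : Fin (k + 1)) : Integrable (Dl z i) (gam n) :=
  (integrable_inner _).sub (F_integrable' _)

lemma sup_eq_Dl (hk : 1 ≤ k) (z : Fin (k + 1) → Eu n) (i : Fin (k + 1)) (x : Eu n) :
    (⨆ j, (inner ℝ x (z j) : ℝ)) =
      (⨆ j : Fin k, (inner ℝ x (z (i.succAbove j)) : ℝ)) + max (Dl z i x) 0 := by
  rw [sup_split hk (fun j => (inner ℝ x (z j) : ℝ)) i]
  unfold Dl
  rcases le_total (inner ℝ x (z i) : ℝ) (⨆ j : Fin k, (inner ℝ x (z (i.succAbove j)) : ℝ)) with h | h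
  · rw [max_eq_right h, max_eq_right (by linarith)]; ring
  · rw [max_eq_left h, max_eq_left (by linarith)]; ring

/-- removing a point -/
theorem F_remove (hk : 1 ≤ k) (z : Fin (k + 1) → Eu n) (i : Fin (k + 1)) :
    F z = F (fun j => z (i.succAbove j)) + ∫ x, max (Dl z i x) 0 ∂gam n := by
  unfold F
  rw [← integral_add (F_integrable' _) (Dl_integrable z i).pos_part]
  exact integral_congr_ae (Filter.Eventually.of_forall fun x => sup_eq_Dl hk z i x)

lemma Dl_update (z : Fin (k + 1) → Eu n) (i : Fin (k + 1)) (w : Eu n) (x : Eu n) :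
    Dl (Function.update z i w) i x = inner ℝ x w - ⨆ j : Fin k, inner ℝ x (z (i.succAbove j)) := by
  unfold Dl
  simp [Fin.succAbove_ne]

/-- moving a point -/
theorem F_move (hk : 1 ≤ k) (z : Fin (k + 1) → Eu n) (i : Fin (k + 1)) (v : Eu n) :
    F (Function.update z i (z i + v)) =
      F (fun j => z (i.succAbove j)) + ∫ x, max (Dl z i x + inner ℝ x v) 0 ∂gam n := by
  rw [F_remove hk _ i]
  congr 1
  · congr 1
    funext j
    simp [Fin.succAbove_ne]
  · refine integral_congr_ae (Filter.Eventually.of_forall fun x => ?_)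
    simp only
    rw [Dl_update, inner_add_right]
    unfold Dl
    congr 1
    ring

theorem V_remove (hk : 1 ≤ k) (z : Fin (k + 1) → Eu n) (h0 : ∑ i, z i = 0)
    (i : Fin (k + 1)) :
    V (fun j => z (i.succAbove j)) = ∑ j, ‖z j‖ ^ 2 - (k + 1) / k * ‖z i‖ ^ 2 := by
  unfold V
  have h1 : ∑ j : Fin k, ‖z (i.succAbove j)‖ ^ 2 = ∑ j, ‖z j‖ ^ 2 - ‖z i‖ ^ 2 := by
    rw [Fin.sum_univ_succAbove _ i]; ring
  have h2 : ∑ j : Fin k, z (i.succAbove j) = - z i := by
    rw [Fin.sum_univ_succAbove _ i] at h0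
    rw [eq_neg_iff_add_eq_zero, add_comm]; exact h0
  rw [h1, h2, norm_neg]
  have hk' : (k : ℝ) ≠ 0 := by positivity
  simp only [Fintype.card_fin]
  field_simp
  ring

theorem V_move (z : Fin (k + 1) → Eu n) (h0 : ∑ i, z i = 0)
    (i : Fin (k + 1)) (v : Eu n) :
    V (Function.update z i (z i + v)) =
      ∑ j, ‖z j‖ ^ 2 + 2 * inner ℝ (z i) v + k / (k + 1) * ‖v‖ ^ 2 := by
  unfold V
  have h1 : ∑ j, Function.update z i (z i + v) j = v := by
    rw [Fin.sum_univ_succAbove _ i]
    simp only [Function.update_self]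
    have : ∀ j : Fin k, Function.update z i (z i + v) (i.succAbove j) = z (i.succAbove j) := by
      intro j; simp [Fin.succAbove_ne]
    simp only [this]
    rw [Fin.sum_univ_succAbove _ i] at h0
    rw [add_right_comm, h0, zero_add]
  have h2 : ∑ j, ‖Function.update z i (z i + v) j‖ ^ 2 = ∑ j, ‖z j‖ ^ 2 - ‖z i‖ ^ 2 + ‖z i + v‖ ^ 2 := by
    rw [Fin.sum_univ_succAbove _ i, Fin.sum_univ_succAbove (fun j => ‖z j‖ ^ 2) i]
    simp only [Function.update_self]
    have : ∀ j : Fin k, Function.update z i (z i + v) (i.succAbove j) = z (i.succAbove j) := by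
      intro j; simp [Fin.succAbove_ne]
    simp only [this]
    ring
  rw [h1, h2, norm_add_sq_real]
  simp only [Fintype.card_fin]
  push_cast
  field_simp
  ring

theorem Dl_continuous (hk : 1 ≤ k) (z : Fin (k + 1) → Eu n) (i : Fin (k + 1)) :
    Continuous (Dl z i) := by
  have : Nonempty (Fin k) := ⟨⟨0, hk⟩⟩
  have : Dl z i = fun x => inner ℝ x (z i) -
      (Finset.univ.sup' Finset.univ_nonempty fun j : Fin k => (inner ℝ x (z (i.succAbove j)) : ℝ)) := by
    funext x
    unfold Dl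
    rw [Finset.sup'_univ_eq_ciSup]
  rw [this]
  refine Continuous.sub (by fun_prop) ?_
  exact Continuous.finset_sup'_apply _ fun j _ => by fun_prop

theorem Dl_concave (hk : 1 ≤ k) (z : Fin (k + 1) → Eu n) (i : Fin (k + 1)) :
    ConcaveOn ℝ Set.univ (Dl z i) := by
  have : Nonempty (Fin k) := ⟨⟨0, hk⟩⟩
  refine ⟨convex_univ, fun x _ y _ a b ha hb hab => ?_⟩
  unfold Dl
  simp only [smul_eq_mul]
  have h : (⨆ j : Fin k, (inner ℝ (a • x + b • y) (z (i.succAbove j)) : ℝ)) ≤
      a * (⨆ j : Fin k, (inner ℝ x (z (i.succAbove j)) : ℝ)) +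
      b * (⨆ j : Fin k, (inner ℝ y (z (i.succAbove j)) : ℝ)) := by
    refine ciSup_le fun j => ?_
    rw [inner_add_left, real_inner_smul_left, real_inner_smul_left]
    exact add_le_add
      (mul_le_mul_of_nonneg_left (le_sup (fun j : Fin k => (inner ℝ x (z (i.succAbove j)) : ℝ)) j) ha)
      (mul_le_mul_of_nonneg_left (le_sup (fun j : Fin k => (inner ℝ y (z (i.succAbove j)) : ℝ)) j) hb)
  rw [inner_add_left, real_inner_smul_left, real_inner_smul_left]
  linarith

theorem Dl_hom (_hk : 1 ≤ k) (z : Fin (k + 1) → Eu n) (i : Fin (k + 1)) (x : Eu n)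
    (t : ℝ) (ht : 0 ≤ t) : Dl z i (t • x) = t * Dl z i x := by
  unfold Dl
  rw [mul_sub, real_inner_smul_left, Real.mul_iSup_of_nonneg ht]
  simp only [real_inner_smul_left]

theorem Dl_shift (hk : 1 ≤ k) (z : Fin (k + 1) → Eu n) (i : Fin (k + 1)) (y : Eu n)
    (hy : ∀ j, j ≠ i → inner ℝ y (z i - z j) = 1) (x : Eu n) (t : ℝ) :
    Dl z i (x + t • y) = Dl z i x + t := by
  have : Nonempty (Fin k) := ⟨⟨0, hk⟩⟩
  unfold Dl
  have h : ∀ j : Fin k, (inner ℝ (x + t • y) (z (i.succAbove j)) : ℝ) =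
      inner ℝ x (z (i.succAbove j)) + t * (inner ℝ y (z i) - 1) := by
    intro j
    have := hy (i.succAbove j) (Fin.succAbove_ne i j)
    rw [inner_sub_right] at this
    rw [inner_add_left, real_inner_smul_left]
    have h2 : (inner ℝ y (z (i.succAbove j)) : ℝ) = inner ℝ y (z i) - 1 := by linarith
    rw [h2]
  simp only [h]
  rw [← ciSup_add (bdd _)]
  rw [inner_add_left, real_inner_smul_left]
  ring


/-! ### linear independence and dual vectors -/

lemma sum_sq_identity (z : Fin (n + 1) → Eu n) (h0 : ∑ i, z i = 0) (c : Fin (n + 1) → ℝ) :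
    ‖∑ i, c i • z i‖ ^ 2 = ∑ a, ∑ b, (-(1 / 2) * ((c a - c b) ^ 2 * inner ℝ (z a) (z b))) := by
  have e1 : ‖∑ i, c i • z i‖ ^ 2 = ∑ a, ∑ b, c a * c b * inner ℝ (z a) (z b) := by
    rw [← real_inner_self_eq_norm_sq, sum_inner]
    refine Finset.sum_congr rfl fun a _ => ?_
    rw [inner_sum]
    refine Finset.sum_congr rfl fun b _ => ?_
    rw [real_inner_smul_left, real_inner_smul_right]; ring
  have e2 : ∑ a, ∑ b, c a ^ 2 * (inner ℝ (z a) (z b) : ℝ) = 0 := by
    refine Finset.sum_eq_zero fun a _ => ?_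
    rw [← Finset.mul_sum, ← inner_sum, h0, inner_zero_right, mul_zero]
  have e3 : ∑ a, ∑ b, c b ^ 2 * (inner ℝ (z a) (z b) : ℝ) = 0 := by
    rw [Finset.sum_comm]
    refine Finset.sum_eq_zero fun b _ => ?_
    rw [← Finset.mul_sum, ← sum_inner, h0, inner_zero_left, mul_zero]
  have e4 : ∑ a, ∑ b, (-(1 / 2) * ((c a - c b) ^ 2 * (inner ℝ (z a) (z b) : ℝ))) =
      ∑ a, ∑ b, c a * c b * inner ℝ (z a) (z b) - (1 / 2) * ∑ a, ∑ b, c a ^ 2 * (inner ℝ (z a) (z b) : ℝ)
      - (1 / 2) * ∑ a, ∑ b, c b ^ 2 * (inner ℝ (z a) (z b) : ℝ) := by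
    simp only [Finset.mul_sum, ← Finset.sum_sub_distrib]
    refine Finset.sum_congr rfl fun a _ => Finset.sum_congr rfl fun b _ => ?_
    ring
  rw [e4, e2, e3, e1]; ring

lemma eq_of_sum_smul_eq_zero (z : Fin (n + 1) → Eu n) (hz : Extremal z) (c : Fin (n + 1) → ℝ)
    (h : ∑ i, c i • z i = 0) : ∀ a b, c a = c b := by
  have h1 := sum_sq_identity z hz.sum_zero c
  rw [h, norm_zero] at h1
  have hnn : ∀ a b, 0 ≤ (-(1 / 2) * ((c a - c b) ^ 2 * (inner ℝ (z a) (z b) : ℝ))) := by
    intro a b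
    by_cases hab : a = b
    · subst hab; simp
    · have := hz.neg a b hab
      nlinarith [sq_nonneg (c a - c b)]
  have h2 : ∀ a b, (-(1 / 2) * ((c a - c b) ^ 2 * (inner ℝ (z a) (z b) : ℝ))) = 0 := by
    intro a b
    have h3 := (Finset.sum_eq_zero_iff_of_nonneg (s := Finset.univ)
      (f := fun a => ∑ b, (-(1 / 2) * ((c a - c b) ^ 2 * (inner ℝ (z a) (z b) : ℝ))))
      (fun a _ => Finset.sum_nonneg fun b _ => hnn a b)).1 (by rw [← h1]; norm_num) a (Finset.mem_univ a)
    exact (Finset.sum_eq_zero_iff_of_nonneg (fun b _ => hnn a b)).1 h3 b (Finset.mem_univ b)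
  intro a b
  by_cases hab : a = b
  · rw [hab]
  · have h4 := h2 a b
    have h5 := hz.neg a b hab
    have h6 : (c a - c b) ^ 2 = 0 := by
      rcases mul_eq_zero.1 (by linarith : (c a - c b) ^ 2 * (inner ℝ (z a) (z b) : ℝ) = 0) with h | h
      · exact h
      · exact absurd h h5.ne
    have := pow_eq_zero_iff (two_ne_zero) |>.1 h6
    linarith

lemma linearIndependent_succAbove (z : Fin (n + 1) → Eu n) (hz : Extremal z) (i : Fin (n + 1)) :
    LinearIndependent ℝ (fun j : Fin n => z (i.succAbove j)) := by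
  rw [Fintype.linearIndependent_iff]
  intro g hg j
  let c : Fin (n + 1) → ℝ := i.insertNth 0 g
  have hc : ∑ l, c l • z l = 0 := by
    rw [Fin.sum_univ_succAbove _ i]
    simp [c, hg]
  have h := eq_of_sum_smul_eq_zero z hz c hc (i.succAbove j) i
  simpa [c] using h

lemma eq_zero_of_inner (z : Fin (n + 1) → Eu n) (hz : Extremal z) (x : Eu n)
    (h : ∀ i, (inner ℝ x (z i) : ℝ) = 0) : x = 0 := by
  have hspan := (linearIndependent_succAbove z hz 0).span_eq_top_of_card_eq_finrank' (by simp)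
  have h2 : ∀ y ∈ Submodule.span ℝ (Set.range fun j : Fin n => z ((0 : Fin (n + 1)).succAbove j)),
      (inner ℝ x y : ℝ) = 0 := by
    intro y hy
    induction hy using Submodule.span_induction with
    | mem y hy => obtain ⟨j, rfl⟩ := hy; exact h _
    | zero => exact inner_zero_right _
    | add a b _ _ ha hb => rw [inner_add_right, ha, hb, add_zero]
    | smul t a _ ha => rw [real_inner_smul_right, ha, mul_zero]
  have h3 := h2 x (by rw [hspan]; trivial)
  exact inner_self_eq_zero.1 h3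

theorem exists_dual (n : ℕ) (hn : 1 ≤ n) (z : Fin (n + 1) → Eu n) (hz : Extremal z)
    (i : Fin (n + 1)) :
    ∃ y : Eu n, y ≠ 0 ∧ (∀ j, j ≠ i → inner ℝ y (z i - z j) = 1) ∧
      inner ℝ (z i) y = n / ((n : ℝ) + 1) := by
  let T : Eu n →ₗ[ℝ] (Fin n → ℝ) :=
    LinearMap.pi fun j => (innerₛₗ ℝ (z i - z (i.succAbove j)) : Eu n →ₗ[ℝ] ℝ)
  have hT : ∀ x j, T x j = inner ℝ x (z i - z (i.succAbove j)) := by
    intro x j
    simp only [T, LinearMap.pi_apply, innerₛₗ_apply_apply]
    exact real_inner_comm _ _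
  have hinj : Function.Injective T := by
    rw [← LinearMap.ker_eq_bot, LinearMap.ker_eq_bot']
    intro x hx
    have h1 : ∀ j : Fin n, (inner ℝ x (z (i.succAbove j)) : ℝ) = inner ℝ x (z i) := by
      intro j
      have := hT x j
      rw [hx, inner_sub_right] at this
      simp only [Pi.zero_apply] at this
      linarith
    have h2 : (inner ℝ x (z i) : ℝ) = 0 := by
      have h3 : (inner ℝ x (∑ j, z j) : ℝ) = 0 := by rw [hz.sum_zero, inner_zero_right]
      rw [inner_sum, Fin.sum_univ_succAbove _ i] at h3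
      simp only [h1, Finset.sum_const, Finset.card_univ, Fintype.card_fin, nsmul_eq_mul] at h3
      have h4 : ((n : ℝ) + 1) * (inner ℝ x (z i) : ℝ) = 0 := by linarith
      rcases mul_eq_zero.1 h4 with h | h
      · exfalso; have : (0 : ℝ) ≤ n := Nat.cast_nonneg n; linarith
      · exact h
    refine eq_zero_of_inner z hz x fun j => ?_
    rcases Fin.eq_self_or_eq_succAbove i j with h | ⟨l, h⟩
    · rw [h, h2]
    · rw [h, h1, h2]
  have hsurj : Function.Surjective T :=
    (LinearMap.injective_iff_surjective_of_finrank_eq_finrank (by simp)).1 hinj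
  obtain ⟨y, hy⟩ := hsurj fun _ => 1
  have hy1 : ∀ j, j ≠ i → (inner ℝ y (z i - z j) : ℝ) = 1 := by
    intro j hj
    obtain ⟨l, rfl⟩ := Fin.exists_succAbove_eq hj
    rw [← hT, hy]
  refine ⟨y, ?_, hy1, ?_⟩
  · rintro rfl
    have := hy1 (i.succAbove ⟨0, hn⟩) (Fin.succAbove_ne _ _)
    simp at this
  · have h3 : (inner ℝ y (∑ j, z j) : ℝ) = 0 := by rw [hz.sum_zero, inner_zero_right]
    rw [inner_sum, Fin.sum_univ_succAbove _ i] at h3
    have h4 : ∀ j : Fin n, (inner ℝ y (z (i.succAbove j)) : ℝ) = inner ℝ y (z i) - 1 := by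
      intro j
      have := hy1 (i.succAbove j) (Fin.succAbove_ne _ _)
      rw [inner_sub_right] at this
      linarith
    simp only [h4, Finset.sum_const, Finset.card_univ, Fintype.card_fin, nsmul_eq_mul] at h3
    rw [real_inner_comm]
    have hn' : (0 : ℝ) ≤ n := Nat.cast_nonneg n
    field_simp
    linarith

/-! ### hyperplanes are null; cells -/

lemma hyperplane_null (v : Eu n) (hv : v ≠ 0) :
    gam n {x | (inner ℝ x v : ℝ) = 0} = 0 := by
  have hmap : (gam n).map (innerSL ℝ v) = gaussianReal ((gam n)[innerSL ℝ v]) (Var[innerSL ℝ v; gam n]).toNNReal :=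
    IsGaussian.map_eq_gaussianReal _
  rw [variance_dual_stdGaussian, integral_strongDual_stdGaussian] at hmap
  have hvar : (‖innerSL ℝ v‖ ^ 2).toNNReal ≠ 0 := by
    simp [hv]
  have hna : NullSingletonClass (gaussianReal 0 (‖innerSL ℝ v‖ ^ 2).toNNReal) :=
    nullSingletonClass_gaussianReal hvar
  have h1 : (gam n).map (innerSL ℝ v) {0} = 0 := by rw [hmap]; exact measure_singleton 0
  rw [Measure.map_apply (by fun_prop) (measurableSet_singleton _)] at h1
  convert h1 using 2
  ext x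
  simp [real_inner_comm]

lemma cell_eq_nonneg (hk : 1 ≤ k) (z : Fin (k + 1) → Eu n) (i : Fin (k + 1)) :
    cell z i = {x | 0 ≤ Dl z i x} := by
  have : Nonempty (Fin k) := ⟨⟨0, hk⟩⟩
  ext x
  simp only [cell, Set.mem_ofPred_eq, Dl, sub_nonneg]
  constructor
  · intro h
    exact ciSup_le fun j => h _
  · intro h j
    rcases Fin.eq_self_or_eq_succAbove i j with h' | ⟨l, h'⟩
    · rw [h']
    · rw [h']
      exact (le_sup (fun j : Fin k => (inner ℝ x (z (i.succAbove j)) : ℝ)) l).trans h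

lemma measurableSet_cell {k : ℕ} (z : Fin k → Eu n) (i : Fin k) : MeasurableSet (cell z i) := by
  have : cell z i = ⋂ j, {x | (inner ℝ x (z j) : ℝ) ≤ inner ℝ x (z i)} := by
    ext x; simp [cell]
  rw [this]
  exact MeasurableSet.iInter fun j => measurableSet_le
    (by fun_prop : Continuous fun x : Eu n => (inner ℝ x (z j) : ℝ)).measurable
    (by fun_prop : Continuous fun x : Eu n => (inner ℝ x (z i) : ℝ)).measurable

lemma Extremal.injective {z : Fin (n + 1) → Eu n} (hz : Extremal z) {i j : Fin (n + 1)}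
    (hij : i ≠ j) : z i - z j ≠ 0 := by
  intro h
  have h1 : z i = z j := sub_eq_zero.1 h
  have h2 := hz.neg i j hij
  rw [h1] at h2
  exact absurd h2 (not_lt.2 real_inner_self_nonneg)

/-- open and closed cells agree a.e. -/
theorem cell_ae (n : ℕ) (hn : 1 ≤ n) (z : Fin (n + 1) → Eu n) (hz : Extremal z)
    (i : Fin (n + 1)) : {x | 0 < Dl z i x} =ᵐ[gam n] cell z i := by
  have : Nonempty (Fin n) := ⟨⟨0, hn⟩⟩
  rw [cell_eq_nonneg hn]
  have hnull : gam n (⋃ j : Fin n, {x | (inner ℝ x (z i - z (i.succAbove j)) : ℝ) = 0}) = 0 := by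
    rw [measure_iUnion_null_iff]
    intro j
    exact hyperplane_null _ (Extremal.injective hz (Fin.succAbove_ne i j).symm)
  have hae : ∀ᵐ x ∂gam n, x ∉ ⋃ j : Fin n, {x | (inner ℝ x (z i - z (i.succAbove j)) : ℝ) = 0} :=
    measure_eq_zero_iff_ae_notMem.1 hnull
  filter_upwards [hae] with x hx
  apply propext
  change (0 < Dl z i x) ↔ (0 ≤ Dl z i x)
  refine ⟨le_of_lt, fun h => lt_of_le_of_ne h fun h0 => hx ?_⟩
  obtain ⟨j, hj⟩ := exists_sup (fun j : Fin n => (inner ℝ x (z (i.succAbove j)) : ℝ))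
  rw [Set.mem_iUnion]
  refine ⟨j, ?_⟩
  simp only [Set.mem_ofPred_eq]
  rw [inner_sub_right, ← hj]
  exact h0.symm

theorem sum_cell (n : ℕ) (_hn : 1 ≤ n) (z : Fin (n + 1) → Eu n) (hz : Extremal z) :
    ∑ i, (gam n).real (cell z i) = 1 := by
  have hcov : ⋃ i, cell z i = Set.univ := by
    ext x
    simp only [Set.mem_iUnion, Set.mem_univ, iff_true]
    obtain ⟨i, hi⟩ := exists_sup (fun i => (inner ℝ x (z i) : ℝ))
    exact ⟨i, fun j => (le_sup (fun i => (inner ℝ x (z i) : ℝ)) j).trans hi.le⟩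
  have hdis : Pairwise (Function.onFun (AEDisjoint (gam n)) (cell z)) := by
    intro i j hij
    refine measure_mono_null ?_ (hyperplane_null _ (Extremal.injective hz hij))
    rintro x ⟨h1, h2⟩
    simp only [Set.mem_ofPred_eq]
    rw [inner_sub_right]
    linarith [h1 j, h2 i]
  have h := measure_iUnion₀ hdis (fun i => (measurableSet_cell z i).nullMeasurableSet)
  rw [hcov, measure_univ, tsum_fintype] at h
  have h2 := congrArg ENNReal.toReal h
  rw [ENNReal.toReal_one, ENNReal.toReal_sum (fun i _ => measure_ne_top _ _)] at h2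
  exact h2.symm

end Crest.Agent.R215.T0
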