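import Crest.Agent.R215.Defs

/-! Row 215, piece T1: at most three points. -/

set_option autoImplicit false
open MeasureTheory ProbabilityTheory
open scoped RealInnerProductSpace

namespace Crest.Agent.R215.T1

theorem integral_abs_gaussian : ∫ t, |t| ∂(gaussianReal 0 1) = √(2 / Real.pi) := by
  rw [integral_gaussianReal_eq_integral_smul (by norm_num)]
  have h1 : ∀ t : ℝ, gaussianPDFReal 0 1 t • |t| =
      (fun s : ℝ => (√(2 * Real.pi))⁻¹ * (s * Real.exp (-(1/2) * s ^ 2))) |t| := by
    intro t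
    simp only [gaussianPDFReal, smul_eq_mul, sq_abs]
    simp
    ring_nf
  simp_rw [h1]
  rw [integral_comp_abs (f := fun s : ℝ => (√(2 * Real.pi))⁻¹ * (s * Real.exp (-(1/2) * s ^ 2)))]
  rw [integral_const_mul]
  have h2 : ∫ x in Set.Ioi (0:ℝ), x * Real.exp (-(1/2) * x ^ 2) = 1 := by
    have := integral_rpow_mul_exp_neg_mul_rpow (p := 2) (q := 1) (b := 1/2) (by norm_num)
      (by norm_num) (by norm_num)
    simp only [Real.rpow_one, Real.rpow_two] at this
    rw [this]
    norm_num
  rw [h2, Real.sqrt_div (by norm_num), Real.sqrt_mul (by norm_num)]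
  have hp : 0 < √Real.pi := Real.sqrt_pos.mpr Real.pi_pos
  have h3 : √(2:ℝ) * √2 = 2 := Real.mul_self_sqrt (by norm_num)
  have h4 : 0 < √(2:ℝ) := by positivity
  field_simp
  linarith

theorem integral_inner {n : ℕ} (v : Eu n) : ∫ x, inner ℝ x v ∂gam n = 0 := by
  have h := integral_strongDual_stdGaussian (E := Eu n) (innerSL ℝ v)
  simp only [innerSL_apply_apply] at h
  simpa [real_inner_comm] using h

theorem integral_abs_inner {n : ℕ} (v : Eu n) :
    ∫ x, |inner ℝ x v| ∂gam n = √(2 / Real.pi) * ‖v‖ := by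
  have hL : (gam n).map (innerSL ℝ v) = gaussianReal 0 ((‖v‖ ^ 2).toNNReal) := by
    rw [IsGaussian.map_eq_gaussianReal, variance_dual_stdGaussian, integral_strongDual_stdGaussian]
    simp
  have h1 : ∫ x, |inner ℝ x v| ∂gam n = ∫ t, |t| ∂((gam n).map (innerSL ℝ v)) := by
    rw [integral_map (by fun_prop) (by fun_prop)]
    refine integral_congr_ae (Filter.Eventually.of_forall fun x => ?_)
    simp [real_inner_comm]
  have h2 : gaussianReal 0 ((‖v‖ ^ 2).toNNReal) = (gaussianReal 0 1).map (fun t => ‖v‖ * t) := by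
    rw [gaussianReal_map_const_mul]
    congr 1
    · simp
    · ext
      simp
  rw [h1, hL, h2, integral_map (by fun_prop) (by fun_prop)]
  simp_rw [abs_mul, abs_norm]
  rw [integral_const_mul, integral_abs_gaussian, mul_comm]

theorem integrable_inner {n : ℕ} (v : Eu n) : Integrable (fun x => inner ℝ x v) (gam n) := by
  have h : Integrable (fun x : Eu n => x) (gam n) := IsGaussian.integrable_id
  exact h.inner_const v

theorem integral_neg_gam {n : ℕ} (f : Eu n → ℝ) : ∫ x, f (-x) ∂gam n = ∫ x, f x ∂gam n := by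
  have h := stdGaussian_map (E := Eu n) (LinearIsometryEquiv.neg ℝ)
  have h2 : ∫ x, f x ∂gam n =
      ∫ x, f x ∂((gam n).map (LinearIsometryEquiv.neg ℝ : Eu n ≃ₗᵢ[ℝ] Eu n)) := by
    rw [gam, h]
  rw [h2]
  have := integral_map_equiv (μ := gam n)
    (LinearIsometryEquiv.neg ℝ : Eu n ≃ₗᵢ[ℝ] Eu n).toHomeomorph.toMeasurableEquiv f
  simpa using this.symm

theorem iSup_fin_two (f : Fin 2 → ℝ) : ⨆ i, f i = max (f 0) (f 1) := by
  have hb : BddAbove (Set.range f) := (Set.finite_range f).bddAbove
  refine le_antisymm (ciSup_le fun i => ?_) (max_le (le_ciSup hb 0) (le_ciSup hb 1))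
  fin_cases i <;> simp

theorem iSup_fin_three (f : Fin 3 → ℝ) : ⨆ i, f i = max (f 0) (max (f 1) (f 2)) := by
  have hb : BddAbove (Set.range f) := (Set.finite_range f).bddAbove
  refine le_antisymm (ciSup_le fun i => ?_)
    (max_le (le_ciSup hb 0) (max_le (le_ciSup hb 1) (le_ciSup hb 2)))
  fin_cases i <;> simp

theorem max3_symm (a b c : ℝ) :
    max a (max b c) + max (-a) (max (-b) (-c)) = (|a - b| + |b - c| + |a - c|) / 2 := by
  rcases le_total a b with h1 | h1 <;> rcases le_total b c with h2 | h2 <;>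
    rcases le_total a c with h3 | h3 <;>
    simp only [max_def, abs_of_nonneg, abs_of_nonpos, sub_nonneg, sub_nonpos, h1, h2, h3] <;>
    split_ifs <;> linarith

theorem claim_zero : Claim 0 := by
  intro n z
  have : F z = 0 := by simp [F]
  rw [this]
  positivity

theorem claim_one : Claim 1 := by
  intro n z
  have : F z = 0 := by simp [F, integral_inner]
  rw [this]
  positivity

theorem claim_two : Claim 2 := by
  intro n z
  have hF : F z = √(2 / Real.pi) * ‖z 0 - z 1‖ / 2 := by
    unfold F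
    simp_rw [iSup_fin_two]
    have h1 : ∀ x : Eu n, max (inner ℝ x (z 0)) (inner ℝ x (z 1)) =
        (inner ℝ x (z 0) + inner ℝ x (z 1) + |inner ℝ x (z 0 - z 1)|) / 2 := by
      intro x
      rw [inner_sub_right]
      rcases le_total (inner ℝ x (z 0)) (inner ℝ x (z 1)) with h | h
      · rw [max_eq_right h, abs_of_nonpos (by linarith)]; ring
      · rw [max_eq_left h, abs_of_nonneg (by linarith)]; ring
    simp_rw [h1]
    rw [integral_div]
    have e := integral_add (f := fun x => inner ℝ x (z 0) + inner ℝ x (z 1))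
      (g := fun x => |inner ℝ x (z 0 - z 1)|)
      ((integrable_inner (n := n) (z 0)).add (integrable_inner (z 1)))
      (integrable_inner _).abs
    rw [e, integral_add (integrable_inner _) (integrable_inner _),
      integral_inner, integral_inner, integral_abs_inner]
    ring
  have hV : V z = ‖z 0 - z 1‖ ^ 2 / 2 := by
    unfold V
    simp only [Fin.sum_univ_two, Fintype.card_fin]
    rw [norm_add_sq_real, norm_sub_sq_real]
    push_cast
    ring
  rw [hF, hV, Real.sqrt_div (by positivity) 2, Real.sqrt_sq (norm_nonneg _),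
    Real.sqrt_div (by norm_num), Real.sqrt_mul (by norm_num)]
  have hp : 0 < √Real.pi := Real.sqrt_pos.mpr Real.pi_pos
  have h3 : √(2:ℝ) * √2 = 2 := Real.mul_self_sqrt (by norm_num)
  have h4 : 0 < √(2:ℝ) := by positivity
  have h8 : √(8:ℝ) = 2 * √2 := by
    rw [show (8:ℝ) = 2 ^ 2 * 2 by norm_num, Real.sqrt_mul (by norm_num), Real.sqrt_sq (by norm_num)]
  have h5 : √(2:ℝ) ≤ 3 / 2 := by
    rw [Real.sqrt_le_left (by norm_num)]; norm_num
  rw [h8]
  have hd := norm_nonneg (z 0 - z 1)
  have e1 : 3 / (2 * √2 * √Real.pi) * (‖z 0 - z 1‖ / √2) = (3 / 4) * (‖z 0 - z 1‖ / √Real.pi) := by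
    have : 2 * √2 * √Real.pi * √2 = 4 * √Real.pi := by
      calc _ = 2 * (√2 * √2) * √Real.pi := by ring
        _ = _ := by rw [h3]; ring
    rw [div_mul_div_comm, this]
    ring
  have e2 : √2 / √Real.pi * ‖z 0 - z 1‖ / 2 = (√2 / 2) * (‖z 0 - z 1‖ / √Real.pi) := by ring
  rw [e1, e2]
  have : 0 ≤ ‖z 0 - z 1‖ / √Real.pi := by positivity
  nlinarith

theorem claim_three : Claim 3 := by
  intro n z
  have hint : ∀ v : Fin 3 → Eu n, Integrable (fun x => ⨆ i, inner ℝ x (v i)) (gam n) := by
    intro v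
    simp_rw [iSup_fin_three]
    exact (integrable_inner _).sup ((integrable_inner _).sup (integrable_inner _))
  have hF : F z = √(2 / Real.pi) * (‖z 0 - z 1‖ + ‖z 1 - z 2‖ + ‖z 0 - z 2‖) / 4 := by
    have h2 : F z + F z = √(2 / Real.pi) * (‖z 0 - z 1‖ + ‖z 1 - z 2‖ + ‖z 0 - z 2‖) / 2 := by
      have h3 : F z = ∫ x, (⨆ i, inner ℝ x (-z i)) ∂gam n := by
        rw [F, ← integral_neg_gam]
        simp
      nth_rw 2 [h3]
      rw [F, ← integral_add (hint _) (hint (fun i => - z i))]
      have h1 : ∀ x : Eu n, (⨆ i, inner ℝ x (z i)) + (⨆ i, inner ℝ x (-z i)) =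
          (|inner ℝ x (z 0 - z 1)| + |inner ℝ x (z 1 - z 2)| + |inner ℝ x (z 0 - z 2)|) / 2 := by
        intro x
        rw [iSup_fin_three, iSup_fin_three]
        simp only [inner_neg_right, inner_sub_right]
        exact max3_symm _ _ _
      simp_rw [h1]
      rw [integral_div]
      have e := integral_add
        (f := fun x => |inner ℝ x (z 0 - z 1)| + |inner ℝ x (z 1 - z 2)|)
        (g := fun x => |inner ℝ x (z 0 - z 2)|)
        ((integrable_inner (n := n) (z 0 - z 1)).abs.add (integrable_inner (z 1 - z 2)).abs)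
        (integrable_inner _).abs
      rw [e, integral_add (integrable_inner _).abs (integrable_inner _).abs,
        integral_abs_inner, integral_abs_inner, integral_abs_inner]
      ring
    linarith
  have hV : V z = (‖z 0 - z 1‖ ^ 2 + ‖z 1 - z 2‖ ^ 2 + ‖z 0 - z 2‖ ^ 2) / 3 := by
    unfold V
    simp only [Fin.sum_univ_three, Fintype.card_fin]
    rw [norm_add_sq_real, norm_add_sq_real, norm_sub_sq_real, norm_sub_sq_real, norm_sub_sq_real,
      inner_add_left]
    push_cast
    ring
  rw [hF, hV]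
  set a := ‖z 0 - z 1‖
  set b := ‖z 1 - z 2‖
  set c := ‖z 0 - z 2‖
  have hp : 0 < √Real.pi := Real.sqrt_pos.mpr Real.pi_pos
  have h3 : √(2:ℝ) * √2 = 2 := Real.mul_self_sqrt (by norm_num)
  have h4 : 0 < √(2:ℝ) := by positivity
  have h8 : √(8:ℝ) = 2 * √2 := by
    rw [show (8:ℝ) = 2 ^ 2 * 2 by norm_num, Real.sqrt_mul (by norm_num), Real.sqrt_sq (by norm_num)]
  have key : (a + b + c) / 3 ≤ √((a ^ 2 + b ^ 2 + c ^ 2) / 3) := by
    apply Real.le_sqrt_of_sq_le
    nlinarith [sq_nonneg (a - b), sq_nonneg (b - c), sq_nonneg (a - c)]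
  rw [Real.sqrt_mul (by norm_num) Real.pi, Real.sqrt_div (by norm_num) Real.pi, h8]
  have e1 : √2 / √Real.pi * (a + b + c) / 4 =
      3 / (2 * √2 * √Real.pi) * ((a + b + c) / 3) := by
    have : 3 / (2 * √2 * √Real.pi) = 3 * √2 / (4 * √Real.pi) := by
      rw [div_eq_div_iff (by positivity) (by positivity)]
      calc 3 * (4 * √Real.pi) = 3 * (2 * 2) * √Real.pi := by ring
        _ = 3 * (2 * (√2 * √2)) * √Real.pi := by rw [h3]
        _ = _ := by ring
    rw [this]
    field_simp
  rw [e1]
  exact mul_le_mul_of_nonneg_left key (by positivity)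

theorem claim_le_three (k : ℕ) (hk : k ≤ 3) : Claim k := by
  interval_cases k
  · exact claim_zero
  · exact claim_one
  · exact claim_two
  · exact claim_three

end Crest.Agent.R215.T1
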