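import Crest.Agent.R215.Defs

/-! Row 215, piece T2: existence of an extremal family. -/

set_option autoImplicit false
open MeasureTheory ProbabilityTheory
open scoped RealInnerProductSpace

namespace Crest.Agent.R215.T2

variable {n : ℕ}

theorem int_id : Integrable (fun x : Eu n => x) (gam n) := IsGaussian.integrable_id

theorem int_inner (v : Eu n) : Integrable (fun x : Eu n => inner ℝ x v) (gam n) :=
  int_id.inner_const v

theorem integral_inner_zero (v : Eu n) : ∫ x, inner ℝ x v ∂gam n = 0 := by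
  have h := integral_inner (𝕜 := ℝ) (int_id (n := n)) v
  rw [integral_id_stdGaussian] at h
  simp only [inner_zero_right] at h
  rw [← h]
  exact integral_congr_ae (Filter.Eventually.of_forall fun x => real_inner_comm _ _)

theorem le_sup {k : ℕ} (z : Fin k → Eu n) (x : Eu n) (i : Fin k) :
    inner ℝ x (z i) ≤ ⨆ i, inner ℝ x (z i) :=
  le_ciSup (f := fun i => inner ℝ x (z i)) (Set.finite_range _).bddAbove i

theorem sup_le {k : ℕ} (z : Fin (k + 1) → Eu n) (x : Eu n) (c : ℝ)
    (h : ∀ i, inner ℝ x (z i) ≤ c) : (⨆ i, inner ℝ x (z i)) ≤ c := ciSup_le h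

theorem meas_sup {k : ℕ} (z : Fin k → Eu n) :
    Measurable (fun x : Eu n => ⨆ i, inner ℝ x (z i)) :=
  Measurable.iSup fun i => (continuous_id.inner continuous_const).measurable

theorem abs_sup_le {k : ℕ} (z : Fin k → Eu n) (x : Eu n) :
    |⨆ i, inner ℝ x (z i)| ≤ ∑ i, |inner ℝ x (z i)| := by
  rcases k with _ | k
  · simp
  · rw [abs_le]
    constructor
    · have h1 := le_sup z x 0
      have h2 : |inner ℝ x (z 0)| ≤ ∑ i, |inner ℝ x (z i)| :=
        Finset.single_le_sum (f := fun i => |inner ℝ x (z i)|) (fun i _ => abs_nonneg _)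
          (Finset.mem_univ 0)
      have h3 := neg_abs_le (inner ℝ x (z 0))
      linarith
    · apply sup_le
      intro i
      exact (le_abs_self _).trans
        (Finset.single_le_sum (f := fun i => |inner ℝ x (z i)|) (fun i _ => abs_nonneg _)
          (Finset.mem_univ i))

theorem int_sup {k : ℕ} (z : Fin k → Eu n) :
    Integrable (fun x : Eu n => ⨆ i, inner ℝ x (z i)) (gam n) := by
  refine Integrable.mono' (g := fun x => ∑ i, |inner ℝ x (z i)|) ?_
    (meas_sup z).aestronglyMeasurable ?_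
  · exact integrable_finsetSum _ fun i _ => (int_inner (z i)).abs
  · exact Filter.Eventually.of_forall fun x => abs_sup_le z x

/-- `E ‖x‖` -/
noncomputable def e1 (n : ℕ) : ℝ := ∫ x, ‖x‖ ∂gam n

theorem e1_nonneg : 0 ≤ e1 n := integral_nonneg fun _ => norm_nonneg _

theorem F_sub_le {k : ℕ} (z w : Fin (k + 1) → Eu n) :
    F z - F w ≤ e1 n * ‖z - w‖ := by
  unfold F e1
  rw [← integral_sub (int_sup z) (int_sup w), ← integral_mul_const]
  refine integral_mono ((int_sup z).sub (int_sup w)) (int_id.norm.mul_const _) ?_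
  intro x
  simp only
  rw [sub_le_iff_le_add]
  apply sup_le
  intro i
  have h1 := le_sup w x i
  have h2 : inner ℝ x (z i) = inner ℝ x ((z - w) i) + inner ℝ x (w i) := by
    rw [Pi.sub_apply, inner_sub_right]; ring
  have h3 : inner ℝ x ((z - w) i) ≤ ‖x‖ * ‖z - w‖ :=
    (real_inner_le_norm _ _).trans
      (mul_le_mul_of_nonneg_left (norm_le_pi_norm (z - w) i) (norm_nonneg _))
  linarith

theorem F_continuous {k : ℕ} : Continuous (fun z : Fin (k + 1) → Eu n => F z) := by
  have : LipschitzWith (Real.toNNReal (e1 n)) (fun z : Fin (k + 1) → Eu n => F z) := by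
    refine LipschitzWith.of_dist_le_mul fun z w => ?_
    rw [Real.coe_toNNReal _ e1_nonneg, Real.dist_eq, dist_eq_norm]
    have h1 := F_sub_le z w
    have h2 := F_sub_le w z
    rw [norm_sub_rev] at h2
    rw [abs_le]
    constructor <;> linarith
  exact this.continuous

theorem F_smul {k : ℕ} (z : Fin (k + 1) → Eu n) (c : ℝ) (hc : 0 ≤ c) :
    F (fun i => c • z i) = c * F z := by
  unfold F
  rw [← integral_const_mul]
  refine integral_congr_ae (Filter.Eventually.of_forall fun x => ?_)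
  simp only [inner_smul_right]
  rw [Real.mul_iSup_of_nonneg hc]

theorem F_sub_const {k : ℕ} (z : Fin (k + 1) → Eu n) (v : Eu n) :
    F (fun i => z i - v) = F z := by
  have h : ∀ x : Eu n, (⨆ i, inner ℝ x (z i - v)) = (⨆ i, inner ℝ x (z i)) - inner ℝ x v := by
    intro x
    apply le_antisymm
    · apply sup_le
      intro i
      rw [inner_sub_right]
      have := le_sup z x i
      linarith
    · rw [sub_le_iff_le_add]
      apply sup_le
      intro i
      have := le_sup (fun i => z i - v) x i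
      simp only [inner_sub_right] at this ⊢
      linarith
  unfold F
  simp only [h]
  rw [integral_sub (int_sup z) (int_inner v), integral_inner_zero, sub_zero]

theorem V_center {k : ℕ} (z : Fin (k + 1) → Eu n) :
    V z = ∑ i, ‖z i - ((k : ℝ) + 1)⁻¹ • ∑ j, z j‖ ^ 2 := by
  unfold V
  set S := ∑ j, z j with hS
  have hk : (k : ℝ) + 1 ≠ 0 := by positivity
  simp only [norm_sub_sq_real]
  rw [Finset.sum_add_distrib, Finset.sum_sub_distrib, ← Finset.mul_sum, ← sum_inner, ← hS,
    inner_smul_right, norm_smul, real_inner_self_eq_norm_sq]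
  simp only [Finset.sum_const, Finset.card_univ, Fintype.card_fin, nsmul_eq_mul]
  push_cast
  rw [mul_pow, norm_inv, Real.norm_of_nonneg (by positivity : (0:ℝ) ≤ (k:ℝ) + 1)]
  field_simp
  ring

theorem V_of_sum_zero {k : ℕ} (z : Fin k → Eu n) (h0 : ∑ i, z i = 0) :
    V z = ∑ i, ‖z i‖ ^ 2 := by
  unfold V
  rw [h0]; simp

theorem V_le {k : ℕ} (z : Fin k → Eu n) : V z ≤ ∑ i, ‖z i‖ ^ 2 := by
  unfold V
  have : 0 ≤ ‖∑ i, z i‖ ^ 2 / (Fintype.card (Fin k) : ℝ) := by positivity
  linarith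

/-! ### partitions -/

/-- the cells with ties broken by the index -/
def Bc {k : ℕ} (z : Fin k → Eu n) (i : Fin k) : Set (Eu n) :=
  {x | (∀ j, inner ℝ x (z j) ≤ inner ℝ x (z i)) ∧ ∀ j < i, inner ℝ x (z j) < inner ℝ x (z i)}

theorem Bc_meas {k : ℕ} (z : Fin k → Eu n) (i : Fin k) : MeasurableSet (Bc z i) := by
  unfold Bc
  have hm : ∀ j, Measurable (fun x : Eu n => inner ℝ x (z j)) := fun j =>
    (continuous_id.inner continuous_const).measurable
  refine MeasurableSet.inter ?_ ?_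
  · have : {x : Eu n | ∀ j, inner ℝ x (z j) ≤ inner ℝ x (z i)} =
        ⋂ j, {x : Eu n | inner ℝ x (z j) ≤ inner ℝ x (z i)} := by
      ext x; simp
    change MeasurableSet {x : Eu n | ∀ j, inner ℝ x (z j) ≤ inner ℝ x (z i)}
    rw [this]
    exact MeasurableSet.iInter fun j => measurableSet_le (hm j) (hm i)
  · have : {x : Eu n | ∀ j < i, inner ℝ x (z j) < inner ℝ x (z i)} =
        ⋂ j, ⋂ _ : j < i, {x : Eu n | inner ℝ x (z j) < inner ℝ x (z i)} := by
      ext x; simp
    change MeasurableSet {x : Eu n | ∀ j < i, inner ℝ x (z j) < inner ℝ x (z i)}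
    rw [this]
    exact MeasurableSet.iInter fun j => MeasurableSet.iInter fun _ =>
      measurableSet_lt (hm j) (hm i)

theorem Bc_disj {k : ℕ} (z : Fin k → Eu n) : Pairwise fun i j => Disjoint (Bc z i) (Bc z j) := by
  intro i j hij
  rw [Set.disjoint_left]
  intro x hi hj
  rcases lt_or_gt_of_ne hij with h | h
  · exact absurd (hj.2 i h) (not_lt.2 (hi.1 j))
  · exact absurd (hi.2 j h) (not_lt.2 (hj.1 i))

theorem Bc_cover {k : ℕ} (z : Fin (k + 1) → Eu n) : ⋃ i, Bc z i = Set.univ := by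
  rw [Set.eq_univ_iff_forall]
  intro x
  rw [Set.mem_iUnion]
  classical
  let s : Finset (Fin (k + 1)) :=
    Finset.univ.filter fun i => ∀ j, inner ℝ x (z j) ≤ inner ℝ x (z i)
  have hs : s.Nonempty := by
    obtain ⟨i, -, hi⟩ := Finset.exists_max_image Finset.univ (fun i => inner ℝ x (z i))
      ⟨0, Finset.mem_univ 0⟩
    exact ⟨i, by simp only [s, Finset.mem_filter, Finset.mem_univ, true_and]
                 exact fun j => hi j (Finset.mem_univ j)⟩
  have hmem := Finset.min'_mem s hs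
  have h1 : ∀ j, inner ℝ x (z j) ≤ inner ℝ x (z (s.min' hs)) := by
    have := hmem
    simp only [s, Finset.mem_filter, Finset.mem_univ, true_and] at this
    exact this
  refine ⟨s.min' hs, h1, fun j hj => ?_⟩
  refine lt_of_le_of_ne (h1 j) fun heq => ?_
  have hjs : j ∈ s := by
    simp only [s, Finset.mem_filter, Finset.mem_univ, true_and]
    intro l
    rw [heq]
    exact h1 l
  exact absurd (Finset.min'_le s j hjs) (not_le.2 hj)

theorem sup_eq_of_mem {k : ℕ} (z : Fin (k + 1) → Eu n) (i : Fin (k + 1)) (x : Eu n)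
    (hx : x ∈ Bc z i) : (⨆ j, inner ℝ x (z j)) = inner ℝ x (z i) :=
  le_antisymm (sup_le z x _ hx.1) (le_sup z x i)

/-- splitting an integral over a finite measurable partition -/
theorem integral_split {k : ℕ} (B : Fin k → Set (Eu n)) (hB : ∀ i, MeasurableSet (B i))
    (hd : Pairwise fun i j => Disjoint (B i) (B j)) (hc : ⋃ i, B i = Set.univ)
    {G : Type} [NormedAddCommGroup G] [NormedSpace ℝ G]
    (f : Eu n → G) (hf : Integrable f (gam n)) :
    ∫ x, f x ∂gam n = ∑ i, ∫ x in B i, f x ∂gam n := by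
  have h := integral_biUnion_finset (μ := gam n) (f := f) (Finset.univ : Finset (Fin k)) (s := B)
    (fun i _ => hB i) (fun i _ j _ hij => hd hij) (fun i _ => hf.integrableOn)
  rw [← h]
  simp only [Finset.mem_univ, Set.iUnion_true]
  rw [hc, Measure.restrict_univ]

theorem inner_m (B : Set (Eu n)) (v : Eu n) :
    inner ℝ (∫ x in B, x ∂gam n) v = ∫ x in B, inner ℝ x v ∂gam n := by
  have h := integral_inner (𝕜 := ℝ) (int_id (n := n)).integrableOn (μ := (gam n).restrict B) v
  rw [real_inner_comm, ← h]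
  exact integral_congr_ae (Filter.Eventually.of_forall fun x => real_inner_comm _ _)

theorem part_le {k l : ℕ} (B : Fin k → Set (Eu n)) (hB : ∀ i, MeasurableSet (B i))
    (hd : Pairwise fun i j => Disjoint (B i) (B j)) (hc : ⋃ i, B i = Set.univ)
    (τ : Fin k → Fin l) (w : Fin l → Eu n) :
    ∑ i, inner ℝ (∫ x in B i, x ∂gam n) (w (τ i)) ≤ F w := by
  unfold F
  rw [integral_split B hB hd hc _ (int_sup w)]
  refine Finset.sum_le_sum fun i _ => ?_
  rw [inner_m]
  refine integral_mono (int_inner _).integrableOn (int_sup w).integrableOn ?_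
  intro x
  exact le_sup w x (τ i)

theorem sum_m_zero {k : ℕ} (B : Fin k → Set (Eu n)) (hB : ∀ i, MeasurableSet (B i))
    (hd : Pairwise fun i j => Disjoint (B i) (B j)) (hc : ⋃ i, B i = Set.univ) :
    ∑ i, ∫ x in B i, x ∂gam n = 0 := by
  rw [← integral_split B hB hd hc _ int_id]
  exact integral_id_stdGaussian

theorem F_eq_Bc {k : ℕ} (z : Fin (k + 1) → Eu n) :
    F z = ∑ i, inner ℝ (∫ x in Bc z i, x ∂gam n) (z i) := by
  unfold F
  rw [integral_split (Bc z) (Bc_meas z) (Bc_disj z) (Bc_cover z) _ (int_sup z)]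
  refine Finset.sum_congr rfl fun i _ => ?_
  rw [inner_m]
  exact setIntegral_congr_fun (Bc_meas z i) fun x hx => sup_eq_of_mem z i x hx

/-- hyperplanes are null -/
theorem hyper_null (v : Eu n) (hv : v ≠ 0) : gam n {x | inner ℝ x v = 0} = 0 := by
  have hmap := IsGaussian.map_eq_gaussianReal (μ := gam n) (innerSL ℝ v)
  rw [variance_dual_stdGaussian] at hmap
  have hpos : (0 : ℝ) < ‖innerSL ℝ v‖ ^ 2 := by
    rw [innerSL_apply_norm]
    positivity
  have hne : (‖innerSL ℝ v‖ ^ 2).toNNReal ≠ 0 := by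
    rw [Ne, Real.toNNReal_eq_zero]; linarith
  have h0 : (gam n).map (innerSL ℝ v) {0} = 0 := by
    rw [hmap]
    have := nullSingletonClass_gaussianReal (μ := ∫ x, (innerSL ℝ v) x ∂gam n) hne
    exact measure_singleton 0
  rw [Measure.map_apply (innerSL ℝ v).continuous.measurable (measurableSet_singleton 0)] at h0
  convert h0 using 2
  ext x
  simp [real_inner_comm]

/-- the constant `3 / √(8π)` -/
noncomputable def cc : ℝ := 3 / √(8 * Real.pi)

theorem cc_pos : 0 < cc := by unfold cc; positivity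

theorem cc_sq : cc ^ 2 = 9 / (8 * Real.pi) := by
  unfold cc
  rw [div_pow, Real.sq_sqrt (by positivity)]
  norm_num

/-- the centred family -/
noncomputable def ctr {k : ℕ} (w : Fin (k + 1) → Eu n) : Fin (k + 1) → Eu n :=
  fun i => w i - ((k : ℝ) + 1)⁻¹ • ∑ j, w j

theorem ctr_sum {k : ℕ} (w : Fin (k + 1) → Eu n) : ∑ i, ctr w i = 0 := by
  unfold ctr
  rw [Finset.sum_sub_distrib]
  simp only [Finset.sum_const, Finset.card_univ, Fintype.card_fin]
  rw [← Nat.cast_smul_eq_nsmul ℝ, smul_smul]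
  push_cast
  rw [mul_inv_cancel₀ (by positivity), one_smul, sub_self]

theorem F_ctr {k : ℕ} (w : Fin (k + 1) → Eu n) : F (ctr w) = F w := F_sub_const w _

theorem V_ctr {k : ℕ} (w : Fin (k + 1) → Eu n) : V w = ∑ i, ‖ctr w i‖ ^ 2 := V_center w

theorem F_of_V_zero {k : ℕ} (w : Fin (k + 1) → Eu n) (h : V w = 0) : F w = 0 := by
  rw [V_ctr, Finset.sum_eq_zero_iff_of_nonneg (fun i _ => sq_nonneg _)] at h
  have h0 : ∀ i, ctr w i = 0 := fun i => by
    have := h i (Finset.mem_univ i)
    simpa using this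
  rw [← F_ctr, F]
  simp [h0]

theorem V_nonneg {k : ℕ} (w : Fin (k + 1) → Eu n) : 0 ≤ V w := by
  rw [V_ctr]; exact Finset.sum_nonneg fun i _ => sq_nonneg _

/-- the compact set of normalised families -/
def KK (n k : ℕ) : Set (Fin (k + 1) → Eu n) := {w | ∑ i, w i = 0 ∧ ∑ i, ‖w i‖ ^ 2 = 1}

theorem KK_compact (n k : ℕ) : IsCompact (KK n k) := by
  refine Metric.isCompact_of_isClosed_isBounded ?_ ?_
  · unfold KK
    refine IsClosed.inter ?_ ?_
    · exact isClosed_eq (by fun_prop) continuous_const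
    · exact isClosed_eq (by fun_prop) continuous_const
  · refine (Metric.isBounded_closedBall (x := (0 : Fin (k + 1) → Eu n)) (r := 1)).subset ?_
    intro w hw
    rw [mem_closedBall_zero_iff, pi_norm_le_iff_of_nonneg zero_le_one]
    intro i
    have h1 : ‖w i‖ ^ 2 ≤ 1 := by
      rw [← hw.2]
      exact Finset.single_le_sum (f := fun i => ‖w i‖ ^ 2) (fun i _ => sq_nonneg _)
        (Finset.mem_univ i)
    nlinarith [norm_nonneg (w i)]

theorem norm_mem_KK {k : ℕ} (w : Fin (k + 1) → Eu n) (h : 0 < V w) :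
    (fun i => (√(V w))⁻¹ • ctr w i) ∈ KK n k := by
  constructor
  · rw [← Finset.smul_sum, ctr_sum, smul_zero]
  · simp only [norm_smul, mul_pow, ← Finset.mul_sum, ← V_ctr]
    rw [norm_inv, Real.norm_of_nonneg (Real.sqrt_nonneg _), inv_pow, Real.sq_sqrt h.le,
      inv_mul_cancel₀ h.ne']

theorem F_normalised {k : ℕ} (w : Fin (k + 1) → Eu n) :
    F (fun i => (√(V w))⁻¹ • ctr w i) = (√(V w))⁻¹ * F w := by
  rw [F_smul _ _ (by positivity), F_ctr]

theorem merge_bound (hC : Claim n) (B : Fin (n + 1) → Set (Eu n))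
    (hB : ∀ i, MeasurableSet (B i))
    (hd : Pairwise fun i j => Disjoint (B i) (B j)) (hc : ⋃ i, B i = Set.univ)
    (i j : Fin (n + 1)) (hij : i ≠ j) :
    ∑ l, ‖∫ x in B l, x ∂gam n‖ ^ 2 +
      2 * inner ℝ (∫ x in B i, x ∂gam n) (∫ x in B j, x ∂gam n) ≤ 9 / (8 * Real.pi) := by
  classical
  set m : Fin (n + 1) → Eu n := fun l => ∫ x in B l, x ∂gam n with hm
  obtain ⟨j', rfl⟩ := Fin.exists_succAbove_eq hij.symm
  set w : Fin n → Eu n := fun l => m (i.succAbove l) + if l = j' then m i else 0 with hw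
  set τ : Fin (n + 1) → Fin n := i.insertNth j' id with hτ
  have h1 := part_le B hB hd hc τ w
  have hsum : ∑ l, ‖m l‖ ^ 2 + 2 * inner ℝ (m i) (m (i.succAbove j')) = ∑ l, ‖w l‖ ^ 2 := by
    rw [Fin.sum_univ_succAbove _ i]
    have : ∀ l, ‖w l‖ ^ 2 = ‖m (i.succAbove l)‖ ^ 2 +
        if l = j' then (2 * inner ℝ (m i) (m (i.succAbove j')) + ‖m i‖ ^ 2) else 0 := by
      intro l
      rw [hw]
      dsimp only
      split_ifs with h
      · subst h
        rw [norm_add_sq_real, real_inner_comm]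
        ring
      · simp
    simp only [this]
    rw [Finset.sum_add_distrib, Finset.sum_ite_eq' Finset.univ j']
    simp only [Finset.mem_univ, if_true]
    ring
  have h2 : ∑ l, inner ℝ (m l) (w (τ l)) = ∑ l, ‖w l‖ ^ 2 := by
    rw [Fin.sum_univ_succAbove _ i]
    have e1 : τ i = j' := by rw [hτ, Fin.insertNth_apply_same]
    have e2 : ∀ l, τ (i.succAbove l) = l := fun l => by
      rw [hτ, Fin.insertNth_apply_succAbove]; rfl
    simp only [e1, e2]
    have : ∀ l, ‖w l‖ ^ 2 = inner ℝ (m (i.succAbove l)) (w l) +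
        if l = j' then inner ℝ (m i) (w j') else 0 := by
      intro l
      rw [← real_inner_self_eq_norm_sq]
      conv_lhs => rw [hw]
      dsimp only
      rw [inner_add_left]
      split_ifs with h
      · subst h
        simp [hw]
      · simp [hw, h]
    simp only [this]
    rw [Finset.sum_add_distrib, Finset.sum_ite_eq' Finset.univ j']
    simp only [Finset.mem_univ, if_true]
    ring
  have h3 := hC n w
  have h4 : √(V w) ≤ √(∑ l, ‖w l‖ ^ 2) := Real.sqrt_le_sqrt (V_le w)
  change _ ≤ cc * _ at h3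
  have h5 : ∑ l, ‖w l‖ ^ 2 ≤ cc * √(∑ l, ‖w l‖ ^ 2) := by
    have h5a : ∑ l, ‖w l‖ ^ 2 ≤ F w := h2 ▸ h1
    exact (h5a.trans h3).trans (mul_le_mul_of_nonneg_left h4 cc_pos.le)
  have h6 : (0 : ℝ) ≤ ∑ l, ‖w l‖ ^ 2 := Finset.sum_nonneg fun l _ => sq_nonneg _
  change ∑ l, ‖m l‖ ^ 2 + 2 * inner ℝ (m i) (m (i.succAbove j')) ≤ _
  rw [hsum, ← cc_sq]
  set S := ∑ l, ‖w l‖ ^ 2
  have h7 : √S * √S = S := Real.mul_self_sqrt h6
  have h8 : √S ≤ cc := by
    by_contra hcon
    push Not at hcon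
    have : 0 < √S := lt_trans cc_pos hcon
    nlinarith
  nlinarith [Real.sqrt_nonneg S, cc_pos]

theorem exists_extremal (n : ℕ) (hn : 1 ≤ n) (hC : Claim n)
    (hnot : ∃ z : Fin (n + 1) → Eu n, 3 / √(8 * Real.pi) * √(V z) < F z) :
    ∃ z : Fin (n + 1) → Eu n, Extremal z := by
  obtain ⟨w₀, hw₀⟩ := hnot
  change cc * _ < _ at hw₀
  have hV₀ : 0 < V w₀ := by
    rcases (V_nonneg w₀).lt_or_eq with h | h
    · exact h
    · rw [F_of_V_zero w₀ h.symm, ← h] at hw₀
      simp at hw₀
  have hne : (KK n n).Nonempty := ⟨_, norm_mem_KK w₀ hV₀⟩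
  obtain ⟨zs, hzs, hmax⟩ := (KK_compact n n).exists_isMaxOn hne F_continuous.continuousOn
  set Λ := F zs with hΛ
  have hsV₀ : 0 < √(V w₀) := Real.sqrt_pos.2 hV₀
  have hΛc : cc < Λ := by
    have h1 := hmax (norm_mem_KK w₀ hV₀)
    simp only [Set.mem_ofPred_eq] at h1
    rw [F_normalised] at h1
    refine lt_of_lt_of_le ?_ h1
    rw [inv_mul_eq_div, lt_div_iff₀ hsV₀]
    exact hw₀
  have hΛ0 : 0 < Λ := cc_pos.trans hΛc
  set z : Fin (n + 1) → Eu n := fun i => Λ • zs i with hz
  have hz0 : ∑ i, z i = 0 := by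
    rw [hz, ← Finset.smul_sum, hzs.1, smul_zero]
  have hM : ∑ i, ‖z i‖ ^ 2 = Λ ^ 2 := by
    simp only [hz, norm_smul, mul_pow, ← Finset.mul_sum, hzs.2, Real.norm_of_nonneg hΛ0.le,
      mul_one]
  have hF : F z = Λ ^ 2 := by
    rw [hz, F_smul zs Λ hΛ0.le, ← hΛ]; ring
  have hmx : ∀ w : Fin (n + 1) → Eu n, F w ≤ Λ * √(V w) := by
    intro w
    rcases (V_nonneg w).lt_or_eq with h | h
    · have h1 := hmax (norm_mem_KK w h)
      simp only [Set.mem_ofPred_eq] at h1
      rw [F_normalised, inv_mul_eq_div, div_le_iff₀ (Real.sqrt_pos.2 h)] at h1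
      exact h1
    · rw [F_of_V_zero w h.symm, ← h]
      simp
  have hbig : 9 / (8 * Real.pi) < Λ ^ 2 := by
    rw [← cc_sq]
    exact pow_lt_pow_left₀ hΛc cc_pos.le (by norm_num)
  -- the partition
  set m : Fin (n + 1) → Eu n := fun l => ∫ x in Bc z l, x ∂gam n with hm
  have hm0 : ∑ i, m i = 0 := sum_m_zero (Bc z) (Bc_meas z) (Bc_disj z) (Bc_cover z)
  have hFm : ∑ i, ‖m i‖ ^ 2 ≤ F m := by
    have := part_le (Bc z) (Bc_meas z) (Bc_disj z) (Bc_cover z) id m
    refine le_trans (le_of_eq ?_) this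
    refine Finset.sum_congr rfl fun i _ => ?_
    rw [id, ← real_inner_self_eq_norm_sq]
  have hFz : Λ ^ 2 = ∑ i, inner ℝ (m i) (z i) := by
    rw [← hF]; exact F_eq_Bc z
  have hM' : ∑ i, ‖m i‖ ^ 2 ≤ Λ ^ 2 := by
    have h1 := hFm.trans (hmx m)
    rw [V_of_sum_zero m hm0] at h1
    have h6 : (0 : ℝ) ≤ ∑ l, ‖m l‖ ^ 2 := Finset.sum_nonneg fun l _ => sq_nonneg _
    set S := ∑ l, ‖m l‖ ^ 2
    have h7 : √S * √S = S := Real.mul_self_sqrt h6
    have h8 : √S ≤ Λ := by
      by_contra hcon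
      push Not at hcon
      have : 0 < √S := lt_trans hΛ0 hcon
      nlinarith
    nlinarith [Real.sqrt_nonneg S]
  have hmz : ∀ i, m i = z i := by
    have h1 : ∑ i, ‖m i - z i‖ ^ 2 ≤ 0 := by
      simp only [norm_sub_sq_real]
      rw [Finset.sum_add_distrib, Finset.sum_sub_distrib, ← Finset.mul_sum, ← hFz, hM]
      linarith
    have h2 := (Finset.sum_eq_zero_iff_of_nonneg (fun i _ => sq_nonneg ‖m i - z i‖)).1
      (le_antisymm h1 (Finset.sum_nonneg fun i _ => sq_nonneg _))
    intro i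
    have h3 := h2 i (Finset.mem_univ i)
    rw [sq_eq_zero_iff, norm_eq_zero, sub_eq_zero] at h3
    exact h3
  have hneg : ∀ i j, i ≠ j → inner ℝ (z i) (z j) < 0 := by
    intro i j hij
    have h1 := merge_bound hC (Bc z) (Bc_meas z) (Bc_disj z) (Bc_cover z) i j hij
    change ∑ l, ‖m l‖ ^ 2 + 2 * inner ℝ (m i) (m j) ≤ _ at h1
    simp only [hmz] at h1
    rw [hM] at h1
    linarith
  refine ⟨z, hz0, by rw [hM]; exact hbig, by rw [hM, hF], ?_, ?_, hneg⟩
  · intro w
    rw [hM, Real.sqrt_sq hΛ0.le]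
    exact hmx w
  · intro i
    rw [← hmz i]
    refine setIntegral_congr_set ?_
    rw [ae_eq_set]
    constructor
    · have : Bc z i \ cell z i = ∅ := by
        ext x
        simp only [Set.mem_sdiff, Set.mem_empty_iff_false, iff_false, not_and, not_not]
        exact fun h => h.1
      rw [this]; simp
    · refine measure_mono_null (t := ⋃ j : {j // j ≠ i}, {x | inner ℝ x (z i - z j) = 0}) ?_ ?_
      · intro x hx
        have h1 : ∀ j, inner ℝ x (z j) ≤ inner ℝ x (z i) := hx.1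
        have h2 : ¬ ∀ j < i, inner ℝ x (z j) < inner ℝ x (z i) := fun h => hx.2 ⟨h1, h⟩
        push Not at h2
        obtain ⟨j, hj, hj2⟩ := h2
        rw [Set.mem_iUnion]
        refine ⟨⟨j, hj.ne⟩, ?_⟩
        change inner ℝ x (z i - z j) = 0
        rw [inner_sub_right]
        linarith [h1 j]
      · rw [measure_iUnion_null_iff]
        rintro ⟨j, hj⟩
        apply hyper_null
        intro h0
        rw [sub_eq_zero] at h0
        have := hneg i j (Ne.symm hj)
        rw [h0, real_inner_self_eq_norm_sq] at this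
        linarith [sq_nonneg ‖z j‖]

end Crest.Agent.R215.T2
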