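import Crest.Agent.R215.Defs
import Crest.Agent.R215.T0

/-! Row 215, T3: dimension reduction. `F z` and `V z` depend only on the Gram matrix of `z`. -/

set_option autoImplicit false
open MeasureTheory ProbabilityTheory
open scoped RealInnerProductSpace

namespace Crest.Agent.R215.T3

variable {n m k : ℕ}

/-- the vector of linear forms -/
noncomputable def L (z : Fin k → Eu n) (x : Eu n) : Eu k :=
  WithLp.toLp 2 (fun i => (inner ℝ x (z i) : ℝ))

lemma L_continuous (z : Fin k → Eu n) : Continuous (L z) := by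
  unfold L
  fun_prop

lemma inner_L (z : Fin k → Eu n) (x : Eu n) (t : Eu k) :
    (inner ℝ (L z x) t : ℝ) = inner ℝ x (∑ i, t i • z i) := by
  rw [inner_sum]
  simp only [PiLp.inner_apply, L, inner_smul_right, RCLike.inner_apply, conj_trivial]

lemma charFun_L (z : Fin k → Eu n) (t : Eu k) :
    charFun ((gam n).map (L z)) t = charFun (gam n) (∑ i, t i • z i) := by
  rw [charFun_apply, charFun_apply, integral_map (L_continuous z).aemeasurable]
  · simp_rw [inner_L]
  · exact (by fun_prop : Continuous fun x : Eu k =>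
      Complex.exp (((inner ℝ x t : ℝ) : ℂ) * Complex.I)).aestronglyMeasurable

lemma norm_sum_sq (z : Fin k → Eu n) (t : Fin k → ℝ) :
    ‖∑ i, t i • z i‖ ^ 2 = ∑ i, ∑ j, t i * t j * inner ℝ (z i) (z j) := by
  rw [← real_inner_self_eq_norm_sq, sum_inner]
  refine Finset.sum_congr rfl fun i _ => ?_
  rw [inner_sum]
  refine Finset.sum_congr rfl fun j _ => ?_
  rw [inner_smul_left, inner_smul_right]
  simp only [conj_trivial]
  ring

lemma map_L_eq (z : Fin k → Eu n) (w : Fin k → Eu m)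
    (h : ∀ i j, (inner ℝ (z i) (z j) : ℝ) = inner ℝ (w i) (w j)) :
    (gam n).map (L z) = (gam m).map (L w) := by
  have : IsFiniteMeasure ((gam n).map (L z)) := inferInstance
  have : IsFiniteMeasure ((gam m).map (L w)) := inferInstance
  apply Measure.ext_of_charFun
  funext t
  rw [charFun_L, charFun_L, charFun_stdGaussian, charFun_stdGaussian]
  have : ‖∑ i, t i • z i‖ ^ 2 = ‖∑ i, t i • w i‖ ^ 2 := by
    rw [norm_sum_sq, norm_sum_sq]
    simp_rw [h]
  norm_cast
  rw [this]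

lemma F_eq (z : Fin k → Eu n) : F z = ∫ y, (⨆ i, y i) ∂((gam n).map (L z)) := by
  rw [integral_map (L_continuous z).aemeasurable]
  · rfl
  · apply Measurable.aestronglyMeasurable
    exact Measurable.iSup fun i => by fun_prop

lemma F_gram (z : Fin k → Eu n) (w : Fin k → Eu m)
    (h : ∀ i j, (inner ℝ (z i) (z j) : ℝ) = inner ℝ (w i) (w j)) : F z = F w := by
  rw [F_eq, F_eq, map_L_eq z w h]

lemma V_gram (z : Fin k → Eu n) (w : Fin k → Eu m)
    (h : ∀ i j, (inner ℝ (z i) (z j) : ℝ) = inner ℝ (w i) (w j)) : V z = V w := by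
  unfold V
  have h1 : ‖∑ i, z i‖ ^ 2 = ‖∑ i, w i‖ ^ 2 := by
    have e1 := norm_sum_sq z (fun _ => 1)
    have e2 := norm_sum_sq w (fun _ => 1)
    simp only [one_smul, one_mul] at e1 e2
    rw [e1, e2]
    simp_rw [h]
  have h2 : ∀ i, ‖z i‖ ^ 2 = ‖w i‖ ^ 2 := fun i => by
    rw [← real_inner_self_eq_norm_sq, ← real_inner_self_eq_norm_sq, h]
  rw [h1]
  simp_rw [h2]

lemma F_sub (hk : 1 ≤ k) (z : Fin k → Eu n) (c : Eu n) : F (fun i => z i - c) = F z := by
  have : Nonempty (Fin k) := ⟨⟨0, hk⟩⟩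
  unfold F
  have h1 : ∀ x : Eu n, (⨆ i, (inner ℝ x (z i - c) : ℝ)) = (⨆ i, (inner ℝ x (z i) : ℝ)) - inner ℝ x c := by
    intro x
    simp_rw [inner_sub_right]
    apply le_antisymm
    · refine ciSup_le fun i => ?_
      have := T0.le_sup (fun i => (inner ℝ x (z i) : ℝ)) i
      linarith
    · rw [sub_le_iff_le_add]
      refine ciSup_le fun i => ?_
      have := T0.le_sup (fun i => (inner ℝ x (z i) : ℝ) - inner ℝ x c) i
      linarith
  simp_rw [h1]
  rw [integral_sub (T0.F_integrable z) (T0.integrable_inner c), T0.integral_inner_gam, sub_zero]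

lemma V_sub (hk : 1 ≤ k) (z : Fin k → Eu n) (c : Eu n) : V (fun i => z i - c) = V z := by
  unfold V
  have hk' : (k : ℝ) ≠ 0 := by positivity
  have h1 : ∑ i, (z i - c) = ∑ i, z i - (k : ℝ) • c := by
    rw [Finset.sum_sub_distrib]
    simp [Nat.cast_smul_eq_nsmul]
  have h2 : ∀ i, ‖z i - c‖ ^ 2 = ‖z i‖ ^ 2 - 2 * inner ℝ (z i) c + ‖c‖ ^ 2 := fun i =>
    norm_sub_sq_real _ _
  have h3 : ‖∑ i, z i - (k : ℝ) • c‖ ^ 2 = ‖∑ i, z i‖ ^ 2 - 2 * (k * inner ℝ (∑ i, z i) c) +
      k ^ 2 * ‖c‖ ^ 2 := by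
    rw [norm_sub_sq_real, inner_smul_right, norm_smul, mul_pow]
    simp
  rw [h1, h3]
  simp_rw [h2]
  rw [Finset.sum_add_distrib, Finset.sum_sub_distrib, ← Finset.mul_sum, ← sum_inner]
  simp only [Finset.sum_const, Finset.card_univ, Fintype.card_fin, nsmul_eq_mul]
  field_simp
  ring

/-- a family with linear span of dimension at most `n` has a copy in `Eu n` -/
lemma exists_copy (z : Fin k → Eu m) (S : Submodule ℝ (Eu m)) (hS : ∀ i, z i ∈ S)
    (hr : Module.finrank ℝ S ≤ n) :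
    ∃ w : Fin k → Eu n, ∀ i j, (inner ℝ (z i) (z j) : ℝ) = inner ℝ (w i) (w j) := by
  let b := stdOrthonormalBasis ℝ S
  let e : Fin (Module.finrank ℝ S) → Eu n := fun j => EuclideanSpace.basisFun (Fin n) ℝ (Fin.castLE hr j)
  have he : Orthonormal ℝ e :=
    (EuclideanSpace.basisFun (Fin n) ℝ).orthonormal.comp (Fin.castLE hr) (Fin.castLE_injective hr)
  refine ⟨fun i => ∑ j, (inner ℝ (b j) (⟨z i, hS i⟩ : S) : ℝ) • e j, fun i j => ?_⟩
  rw [he.inner_sum]
  simp only [conj_trivial]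
  have h := b.sum_inner_mul_inner ⟨z i, hS i⟩ ⟨z j, hS j⟩
  have h' : (inner ℝ (⟨z i, hS i⟩ : S) (⟨z j, hS j⟩ : S) : ℝ) = inner ℝ (z i) (z j) := rfl
  rw [← h', ← h]
  refine Finset.sum_congr rfl fun l _ => ?_
  rw [real_inner_comm (b l) ⟨z i, hS i⟩]

theorem claim_of_dim (n : ℕ)
    (h : ∀ z : Fin (n + 1) → Eu n, F z ≤ 3 / √(8 * Real.pi) * √(V z)) :
    Claim (n + 1) := by
  intro d z
  let c : Eu d := z (Fin.last n)
  let z' : Fin (n + 1) → Eu d := fun i => z i - c
  have hF : F z = F z' := (F_sub (by omega) z c).symm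
  have hV : V z = V z' := (V_sub (by omega) z c).symm
  let u : Fin n → Eu d := fun j => z' (Fin.castSucc j)
  let S : Submodule ℝ (Eu d) := Submodule.span ℝ (Set.range u)
  have hS : ∀ i, z' i ∈ S := by
    intro i
    refine Fin.lastCases ?_ (fun j => ?_) i
    · have : z' (Fin.last n) = 0 := by simp [z', c]
      rw [this]
      exact S.zero_mem
    · exact Submodule.subset_span ⟨j, rfl⟩
  have hr : Module.finrank ℝ S ≤ n := by
    have := finrank_range_le_card (R := ℝ) u
    simpa [Set.finrank] using this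
  obtain ⟨w, hw⟩ := exists_copy z' S hS hr
  rw [hF, hV, F_gram z' w hw, V_gram z' w hw]
  exact h w

end Crest.Agent.R215.T3
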