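import Crest.Agent.R215.Defs
import Crest.Agent.R215.T0

/-! Row 215, T4: partitions; the final reduction. -/

set_option autoImplicit false
open MeasureTheory ProbabilityTheory
open scoped RealInnerProductSpace

namespace Crest.Agent.R215.T4

theorem partition_bound (k : ℕ) (hC : Claim k) (n : ℕ) (B : Fin k → Set (Eu n))
    (hB : ∀ i, MeasurableSet (B i)) (hdisj : Pairwise fun i j => Disjoint (B i) (B j))
    (hcov : ⋃ i, B i = Set.univ) :
    ∑ i, ‖∫ x in B i, x ∂gam n‖ ^ 2 ≤ 9 / (8 * Real.pi) := by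
  set z : Fin k → Eu n := fun i => ∫ x in B i, x ∂gam n with hz
  have hzi : ∀ i, ∫ x in B i, x ∂gam n = z i := fun i => rfl
  simp only [hzi]
  set M := ∑ i, ‖z i‖ ^ 2 with hM
  have hM0 : 0 ≤ M := Finset.sum_nonneg fun i _ => sq_nonneg _
  have hsum : ∑ i, z i = 0 := by
    have h := integral_iUnion_fintype (μ := gam n) (f := fun x : Eu n => x) hB hdisj
      (fun i => (T0.integrable_id_gam n).integrableOn)
    rw [hcov, Measure.restrict_univ, integral_id_stdGaussian] at h
    exact h.symm
  have hV : V z = M := by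
    simp [V, hsum, hM]
  have h1 : M ≤ F z := by
    calc M = ∑ i, ∫ x in B i, (inner ℝ x (z i) : ℝ) ∂gam n := by
          refine Finset.sum_congr rfl fun i _ => ?_
          rw [T0.setIntegral_inner, hzi, real_inner_self_eq_norm_sq]
      _ ≤ ∑ i, ∫ x in B i, (⨆ j, (inner ℝ x (z j) : ℝ)) ∂gam n := by
          refine Finset.sum_le_sum fun i _ => setIntegral_mono (T0.integrable_inner _).integrableOn
            (T0.F_integrable z).integrableOn fun x => ?_
          exact T0.le_sup (fun j => (inner ℝ x (z j) : ℝ)) i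
      _ = F z := by
          have h := integral_iUnion_fintype (μ := gam n)
            (f := fun x : Eu n => (⨆ j, (inner ℝ x (z j) : ℝ))) hB hdisj
            (fun i => (T0.F_integrable z).integrableOn)
          rw [hcov, Measure.restrict_univ] at h
          exact h.symm
  have h2 := hC n z
  rw [hV] at h2
  have h3 : M ≤ 3 / √(8 * Real.pi) * √M := h1.trans h2
  have hpi : (0 : ℝ) < 8 * Real.pi := by positivity
  have hs : √(8 * Real.pi) ^ 2 = 8 * Real.pi := Real.sq_sqrt hpi.le
  have hsM : √M ^ 2 = M := Real.sq_sqrt hM0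
  have h4 : √M ≤ 3 / √(8 * Real.pi) := by
    by_contra hlt
    push Not at hlt
    have hpos : 0 < √M := lt_of_le_of_lt (by positivity) hlt
    nlinarith
  calc M = √M ^ 2 := hsM.symm
    _ ≤ (3 / √(8 * Real.pi)) ^ 2 := by
        exact pow_le_pow_left₀ (Real.sqrt_nonneg _) h4 2
    _ = 9 / (8 * Real.pi) := by rw [div_pow, hs]; norm_num

universe u v

theorem final_of_claim (hC : ∀ k, Claim k)
    (E : Type u) [NormedAddCommGroup E] [InnerProductSpace ℝ E] [FiniteDimensional ℝ E]
    [MeasurableSpace E] [BorelSpace E]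
    (ι : Type v) [Fintype ι] (A : ι → Set E)
    (hA : ∀ i, MeasurableSet (A i))
    (hdisj : Pairwise fun i j => Disjoint (A i) (A j))
    (hcov : ⋃ i, A i = Set.univ) :
    ∑ i, ‖∫ x in A i, x ∂stdGaussian E‖ ^ 2 ≤ 9 / (8 * Real.pi) := by
  set n := Module.finrank ℝ E
  let f : E ≃ₗᵢ[ℝ] Eu n := (stdOrthonormalBasis ℝ E).repr
  let e : ι ≃ Fin (Fintype.card ι) := Fintype.equivFin ι
  let B : Fin (Fintype.card ι) → Set (Eu n) := fun i => f.symm ⁻¹' (A (e.symm i))
  have hB : ∀ i, MeasurableSet (B i) := fun i =>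
    (f.symm.continuous.measurable) (hA _)
  have hBd : Pairwise fun i j => Disjoint (B i) (B j) := by
    intro i j hij
    exact Disjoint.preimage _ (hdisj (fun h => hij (e.symm.injective h)))
  have hBc : ⋃ i, B i = Set.univ := by
    rw [Set.eq_univ_iff_forall]
    intro x
    have : f.symm x ∈ ⋃ i, A i := by rw [hcov]; trivial
    obtain ⟨i, hi⟩ := Set.mem_iUnion.1 this
    refine Set.mem_iUnion.2 ⟨e i, ?_⟩
    simpa [B] using hi
  have h := partition_bound (Fintype.card ι) (hC _) n B hB hBd hBc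
  have hint : ∀ i, ∫ x in B i, x ∂gam n = f (∫ x in A (e.symm i), x ∂stdGaussian E) := by
    intro i
    have hmap : (stdGaussian E).map f = gam n := stdGaussian_map f
    rw [← hmap, setIntegral_map (hB i) (by fun_prop) (by fun_prop)]
    have hpre : (f : E → Eu n) ⁻¹' (B i) = A (e.symm i) := by
      ext x
      simp [B]
    rw [hpre]
    exact (f.toContinuousLinearEquiv : E ≃L[ℝ] Eu n).integral_comp_comm _
  calc ∑ i, ‖∫ x in A i, x ∂stdGaussian E‖ ^ 2
      = ∑ i, ‖∫ x in A (e.symm i), x ∂stdGaussian E‖ ^ 2 :=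
        (Equiv.sum_comp e.symm (fun i => ‖∫ x in A i, x ∂stdGaussian E‖ ^ 2)).symm
    _ = ∑ i, ‖∫ x in B i, x ∂gam n‖ ^ 2 := by
        refine Finset.sum_congr rfl fun i _ => ?_
        rw [hint, f.norm_map]
    _ ≤ 9 / (8 * Real.pi) := h

end Crest.Agent.R215.T4
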