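import Crest.Agent.R215.Density

/-! Row 215, piece T5a: `cone_bound` (helper13). -/

set_option autoImplicit false
open MeasureTheory ProbabilityTheory Set Metric
open scoped RealInnerProductSpace ENNReal

namespace Crest.Agent.R215.T5a

open Crest.Agent.R215.Density

lemma integrable_norm (n : ℕ) : Integrable (fun x => ‖x‖) (gam n) :=
  (IsGaussian.integrable_id (μ := gam n)).norm

lemma integrable_inner (n : ℕ) (e : Eu n) : Integrable (fun x => inner ℝ x e) (gam n) :=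
  (IsGaussian.integrable_id (μ := gam n)).inner_const e

lemma integrable_norm_sq (n : ℕ) : Integrable (fun x => ‖x‖ ^ 2) (gam n) := by
  have h := (IsGaussian.memLp_two_id (μ := gam n))
  exact h.integrable_norm_pow (by norm_num)

/-- (i) -/
lemma setIntegral_norm_cone {n : ℕ} (hn : 1 ≤ n) (A : Set (Eu n)) (hA : MeasurableSet A)
    (hcone : ∀ x ∈ A, ∀ t : ℝ, 0 < t → t • x ∈ A) :
    ∫ x in A, ‖x‖ ∂gam n = (gam n).real A * ∫ x, ‖x‖ ∂gam n := by
  rw [integral_eq_lintegral_of_nonneg_ae (Filter.Eventually.of_forall fun x => norm_nonneg x)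
    (by fun_prop), integral_eq_lintegral_of_nonneg_ae
    (Filter.Eventually.of_forall fun x => norm_nonneg x) (by fun_prop)]
  rw [lintegral_cone_gam hn A hA hcone (fun r => ENNReal.ofReal r) (by fun_prop),
    ENNReal.toReal_mul]
  rfl

/-- law of `⟪x, e⟫` -/
lemma map_inner (n : ℕ) (e : Eu n) (he : ‖e‖ = 1) :
    (gam n).map (fun x => inner ℝ x e) = gaussianReal 0 1 := by
  apply Measure.ext_of_charFun
  ext t
  rw [charFun_apply, integral_map (by fun_prop) (by fun_prop), charFun_gaussianReal]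
  have := charFun_stdGaussian (E := Eu n) (t • e)
  rw [charFun_apply] at this
  have h1 : ∀ x : Eu n, (inner ℝ (inner ℝ x e : ℝ) t : ℝ) = inner ℝ x (t • e) := by
    intro x
    rw [inner_smul_right]
    simp
  simp_rw [h1]
  rw [this, norm_smul, he, mul_one, Real.norm_eq_abs, ← Complex.ofReal_pow, sq_abs]
  push_cast
  congr 1
  simp
  ring

lemma integral_abs_gaussian : ∫ t, |t| ∂gaussianReal 0 1 = 2 / √(2 * Real.pi) := by
  rw [integral_gaussianReal_eq_integral_smul (by norm_num)]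
  have h1 : ∀ t : ℝ, gaussianPDFReal 0 1 t • |t| =
      (√(2 * Real.pi))⁻¹ * (|t| * Real.exp (- |t| ^ 2 / 2)) := by
    intro t
    rw [gaussianPDFReal, sq_abs]
    simp
    ring
  simp_rw [h1]
  rw [integral_const_mul, integral_comp_abs (f := fun t => t * Real.exp (-t ^ 2 / 2))]
  have h2 : ∫ t in Ioi (0 : ℝ), t * Real.exp (-t ^ 2 / 2) = 1 := by
    have := integral_rpow_mul_exp_neg_mul_rpow (p := 2) (q := 1) (b := 1 / 2) (by norm_num)
      (by norm_num) (by norm_num)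
    norm_num at this
    rw [← this]
    congr 1
    ext t
    congr 2
    ring
  rw [h2]
  ring

lemma integral_abs_inner (n : ℕ) (e : Eu n) (he : ‖e‖ = 1) :
    ∫ x, |inner ℝ x e| ∂gam n = 2 / √(2 * Real.pi) := by
  rw [← integral_abs_gaussian, ← map_inner n e he, integral_map (by fun_prop) (by fun_prop)]


/-- `E ‖y‖² = k` -/
lemma integral_norm_sq (k : ℕ) : ∫ y, ‖y‖ ^ 2 ∂gam k = k := by
  rw [show gam k = (Measure.pi (fun _ : Fin k => gaussianReal 0 1)).map (WithLp.toLp 2) from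
    (map_pi_eq_stdGaussian (ι := Fin k)).symm, integral_map (by fun_prop) (by fun_prop)]
  simp_rw [EuclideanSpace.real_norm_sq_eq]
  have hint : ∀ i : Fin k, Integrable (fun x : Fin k → ℝ => (x i) ^ 2)
      (Measure.pi (fun _ : Fin k => gaussianReal 0 1)) := by
    intro i
    have h1 : Integrable (fun t : ℝ => t ^ 2) (gaussianReal 0 1) := by
      have := (memLp_id_gaussianReal (μ := 0) (v := 1) 2).integrable_sq
      simpa using this
    exact (integrable_comp_eval (μ := fun _ : Fin k => gaussianReal 0 1) (i := i) h1)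
  rw [integral_finsetSum _ (fun i _ => hint i)]
  have h2 : ∀ i : Fin k, ∫ x : Fin k → ℝ, (x i) ^ 2 ∂(Measure.pi (fun _ => gaussianReal 0 1)) = 1 := by
    intro i
    rw [integral_comp_eval (μ := fun _ : Fin k => gaussianReal 0 1) (i := i)
      (f := fun t : ℝ => t ^ 2) (by fun_prop)]
    have := variance_fun_id_gaussianReal (μ := 0) (v := 1)
    rw [variance_eq_integral (by fun_prop)] at this
    simpa using this
  simp [h2]

/-- `E [‖y‖² exp (-a ‖y‖²)] = k w ^ (k + 2)` with `w = 1 / √(1 + 2 a)`. -/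
lemma integral_norm_sq_exp (k : ℕ) (a w : ℝ) (hw : 0 < w) (haw : 1 / 2 + a = 1 / (2 * w ^ 2)) :
    ∫ y, ‖y‖ ^ 2 * Real.exp (-a * ‖y‖ ^ 2) ∂gam k = k * w ^ (k + 2) := by
  rw [← integral_norm_sq k, gam_eq_withDensity, integral_withDensity_eq_integral_toReal_smul
    (by have := dens_measurable k; fun_prop) (Filter.Eventually.of_forall fun x => by simp),
    integral_withDensity_eq_integral_toReal_smul
    (by have := dens_measurable k; fun_prop) (Filter.Eventually.of_forall fun x => by simp)]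
  have h1 : ∀ y : Eu k, (ENNReal.ofReal (dens k ‖y‖)).toReal • (‖y‖ ^ 2 * Real.exp (-a * ‖y‖ ^ 2)) =
      w ^ 2 * ((ENNReal.ofReal (dens k ‖w⁻¹ • y‖)).toReal • (‖w⁻¹ • y‖ ^ 2)) := by
    intro y
    rw [ENNReal.toReal_ofReal (dens_pos k _).le, ENNReal.toReal_ofReal (dens_pos k _).le, dens,
      dens, norm_smul, Real.norm_of_nonneg (inv_pos.mpr hw).le, smul_eq_mul, smul_eq_mul]
    have h2 : Real.exp (-‖y‖ ^ 2 / 2) * Real.exp (-a * ‖y‖ ^ 2) =
        Real.exp (-(w⁻¹ * ‖y‖) ^ 2 / 2) := by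
      rw [← Real.exp_add]
      congr 1
      have h3 : (w⁻¹ * ‖y‖) ^ 2 / 2 = ‖y‖ ^ 2 * (1 / (2 * w ^ 2)) := by
        field_simp
      have h3' : -(w⁻¹ * ‖y‖) ^ 2 / 2 = -((w⁻¹ * ‖y‖) ^ 2 / 2) := by ring
      rw [h3', h3, ← haw]
      ring
    have h4 : w ^ 2 * (w⁻¹ * ‖y‖) ^ 2 = ‖y‖ ^ 2 := by
      field_simp
    calc _ = (2 * Real.pi) ^ (-(k : ℝ) / 2) * (Real.exp (-‖y‖ ^ 2 / 2) *
          Real.exp (-a * ‖y‖ ^ 2)) * ‖y‖ ^ 2 := by ring
      _ = _ := by rw [h2, ← h4]; ring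
  simp_rw [h1]
  rw [integral_const_mul, Measure.integral_comp_smul (μ := (volume : Measure (Eu k)))
    (f := fun y => (ENNReal.ofReal (dens k ‖y‖)).toReal • ‖y‖ ^ 2) (R := w⁻¹),
    finrank_euclideanSpace_fin, inv_pow, inv_inv, abs_of_pos (by positivity), smul_eq_mul]
  ring


/-- the substitution `t = √q s / √(1 - s²)` -/
lemma inner_lintegral (c q : ℝ) (hq : 0 < q) :
    ∫⁻ t, ENNReal.ofReal (c * √(t ^ 2 + q) - |t|) ∂gaussianReal 0 1 =
    ∫⁻ s in Ioo (-1 : ℝ) 1, ENNReal.ofReal ((c - |s|) * ((√(2 * Real.pi))⁻¹ *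
      ((√(1 - s ^ 2))⁻¹ ^ 4 * (q * Real.exp (-(s ^ 2 / (2 * (1 - s ^ 2))) * q))))) := by
  have hρ : 0 < √q := Real.sqrt_pos.mpr hq
  have hρ2 : √q ^ 2 = q := Real.sq_sqrt hq.le
  set ρ := √q with hρdef
  have hpos : ∀ s ∈ Ioo (-1 : ℝ) 1, 0 < 1 - s ^ 2 := by
    intro s hs
    nlinarith [hs.1, hs.2]
  have hf' : ∀ s ∈ Ioo (-1 : ℝ) 1, HasDerivWithinAt (fun s => ρ * (s / √(1 - s ^ 2)))
      (ρ * (√(1 - s ^ 2))⁻¹ ^ 3) (Ioo (-1 : ℝ) 1) s := by
    intro s hs
    have h0 := hpos s hs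
    have hw : 0 < √(1 - s ^ 2) := Real.sqrt_pos.mpr h0
    have hw2 : √(1 - s ^ 2) ^ 2 = 1 - s ^ 2 := Real.sq_sqrt h0.le
    have h1 : HasDerivAt (fun s : ℝ => 1 - s ^ 2) (-(2 * s)) s := by
      have := ((hasDerivAt_pow 2 s).const_sub 1)
      simpa using this
    have h2 := h1.sqrt h0.ne'
    have h3 := ((hasDerivAt_id s).div h2 hw.ne').const_mul ρ
    refine (h3.hasDerivWithinAt).congr_deriv ?_
    simp only [id]
    set w := √(1 - s ^ 2) with hwdef
    have e1 : 1 * w - s * (-(2 * s) / (2 * w)) = w⁻¹ := by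
      field_simp
      linarith
    rw [e1, hw2]
    have e2 : w⁻¹ / (1 - s ^ 2) = w⁻¹ ^ 3 := by
      rw [← hw2]; field_simp
    rw [e2]
  have hinj : InjOn (fun s => ρ * (s / √(1 - s ^ 2))) (Ioo (-1 : ℝ) 1) := by
    apply StrictMonoOn.injOn
    apply strictMonoOn_of_deriv_pos (convex_Ioo _ _)
    · exact fun s hs => (hf' s hs).continuousWithinAt
    · intro s hs
      rw [interior_Ioo] at hs
      have := (hf' s hs).hasDerivAt (Ioo_mem_nhds hs.1 hs.2)
      rw [this.deriv]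
      have hw : 0 < √(1 - s ^ 2) := Real.sqrt_pos.mpr (hpos s hs)
      positivity
  have himg : (fun s => ρ * (s / √(1 - s ^ 2))) '' (Ioo (-1 : ℝ) 1) = univ := by
    rw [eq_univ_iff_forall]
    intro t
    have h1 : 0 < √(t ^ 2 + q) := Real.sqrt_pos.mpr (by positivity)
    have h2 : √(t ^ 2 + q) ^ 2 = t ^ 2 + q := Real.sq_sqrt (by positivity)
    have h3 : |t| < √(t ^ 2 + q) := by
      rw [← Real.sqrt_sq_eq_abs]
      exact Real.sqrt_lt_sqrt (by positivity) (by linarith)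
    refine ⟨t / √(t ^ 2 + q), ?_, ?_⟩
    · rw [mem_Ioo, lt_div_iff₀ h1, div_lt_iff₀ h1]
      constructor
      · linarith [neg_abs_le t]
      · linarith [le_abs_self t]
    · have h4 : 1 - (t / √(t ^ 2 + q)) ^ 2 = (ρ / √(t ^ 2 + q)) ^ 2 := by
        rw [div_pow, div_pow, h2, hρ2]
        field_simp
        ring
      have h5 : √(1 - (t / √(t ^ 2 + q)) ^ 2) = ρ / √(t ^ 2 + q) := by
        rw [h4, Real.sqrt_sq (by positivity)]
      simp only [h5]
      field_simp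
  rw [gaussianReal_of_var_ne_zero _ (by norm_num), lintegral_withDensity_eq_lintegral_mul _
    (measurable_gaussianPDF 0 1) (by fun_prop)]
  rw [← setLIntegral_univ, ← himg, lintegral_image_eq_lintegral_abs_deriv_mul measurableSet_Ioo hf'
    hinj]
  refine setLIntegral_congr_fun measurableSet_Ioo fun s hs => ?_
  have h0 := hpos s hs
  have hw : 0 < √(1 - s ^ 2) := Real.sqrt_pos.mpr h0
  have hw2 : √(1 - s ^ 2) ^ 2 = 1 - s ^ 2 := Real.sq_sqrt h0.le
  set w := √(1 - s ^ 2) with hwdef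
  simp only [Pi.mul_apply, gaussianPDF, gaussianPDFReal]
  have e1 : (ρ * (s / w)) ^ 2 + q = (ρ / w) ^ 2 := by
    have : s ^ 2 = 1 - w ^ 2 := by linarith
    rw [mul_pow, div_pow, this, ← hρ2]
    field_simp
    ring
  have e2 : √((ρ * (s / w)) ^ 2 + q) = ρ / w := by
    rw [e1, Real.sqrt_sq (by positivity)]
  have e3 : |ρ * (s / w)| = ρ / w * |s| := by
    rw [abs_mul, abs_div, abs_of_pos hρ, abs_of_pos hw]
    ring
  rw [e2, e3, ← ENNReal.ofReal_mul (by positivity), ← ENNReal.ofReal_mul (by positivity)]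
  congr 1
  rw [abs_of_pos (by positivity)]
  have e4 : -(ρ * (s / w) - 0) ^ 2 / (2 * ((1 : NNReal) : ℝ)) = -(s ^ 2 / (2 * (1 - s ^ 2))) * q := by
    rw [← hw2, ← hρ2]
    push_cast
    field_simp
    ring
  rw [e4]
  have e5 : (√(2 * Real.pi * ((1 : NNReal) : ℝ)))⁻¹ = (√(2 * Real.pi))⁻¹ := by simp
  rw [e5]
  generalize Real.exp (-(s ^ 2 / (2 * (1 - s ^ 2))) * q) = E
  rw [← hρ2]
  ring

/-- the integral over `y`, for fixed `s` -/
lemma lintegral_y (k : ℕ) (hk : 2 ≤ k) (s : ℝ) (hs : s ∈ Ioo (-1 : ℝ) 1) :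
    (√(1 - s ^ 2))⁻¹ ^ 4 * ∫ y, ‖y‖ ^ 2 * Real.exp (-(s ^ 2 / (2 * (1 - s ^ 2))) * ‖y‖ ^ 2) ∂gam k
      ≤ k := by
  have h0 : 0 < 1 - s ^ 2 := by nlinarith [hs.1, hs.2]
  have hw : 0 < √(1 - s ^ 2) := Real.sqrt_pos.mpr h0
  have hw2 : √(1 - s ^ 2) ^ 2 = 1 - s ^ 2 := Real.sq_sqrt h0.le
  have hw1 : √(1 - s ^ 2) ≤ 1 := by
    rw [Real.sqrt_le_one]
    nlinarith
  set w := √(1 - s ^ 2) with hwdef
  rw [integral_norm_sq_exp k (s ^ 2 / (2 * (1 - s ^ 2))) w hw (by
    rw [← hw2]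
    have : s ^ 2 = 1 - w ^ 2 := by linarith
    rw [this]
    field_simp
    ring)]
  obtain ⟨j, rfl⟩ := Nat.exists_eq_add_of_le hk
  have h1 : w⁻¹ ^ 4 * (((2 + j : ℕ) : ℝ) * w ^ (2 + j + 2)) = ((2 + j : ℕ) : ℝ) * w ^ j := by
    rw [show 2 + j + 2 = 4 + j by ring, pow_add]
    field_simp
  rw [h1]
  have h2 : w ^ j ≤ 1 := pow_le_one₀ hw.le hw1
  have h3 : (0 : ℝ) ≤ ((2 + j : ℕ) : ℝ) := by positivity
  nlinarith

lemma integral_tent (c : ℝ) (hc : 0 ≤ c) :
    ∫⁻ s, ENNReal.ofReal (c - |s|) = ENNReal.ofReal (c ^ 2) := by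
  have h1 : ∀ s : ℝ, ENNReal.ofReal (c - |s|) =
      (Icc (-c) c).indicator (fun s => ENNReal.ofReal (c - |s|)) s := by
    intro s
    by_cases hs : s ∈ Icc (-c) c
    · rw [indicator_of_mem hs]
    · rw [indicator_of_notMem hs, ENNReal.ofReal_eq_zero]
      rw [mem_Icc, ← abs_le] at hs
      linarith [not_le.mp hs]
  rw [lintegral_congr h1, lintegral_indicator measurableSet_Icc,
    ← ofReal_integral_eq_lintegral_ofReal]
  · congr 1
    rw [integral_Icc_eq_integral_Ioc, ← intervalIntegral.integral_of_le (by linarith)]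
    rw [← intervalIntegral.integral_add_adjacent_intervals (b := 0)
      (Continuous.intervalIntegrable (by fun_prop) _ _)
      (Continuous.intervalIntegrable (by fun_prop) _ _)]
    have e1 : ∫ s in (-c)..0, (c - |s|) = ∫ s in (-c)..0, (c + s) := by
      apply intervalIntegral.integral_congr
      intro s hs
      rw [uIcc_of_le (by linarith)] at hs
      simp only [abs_of_nonpos hs.2]
      ring
    have e2 : ∫ s in (0 : ℝ)..c, (c - |s|) = ∫ s in (0 : ℝ)..c, (c - s) := by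
      apply intervalIntegral.integral_congr
      intro s hs
      rw [uIcc_of_le (by linarith)] at hs
      simp only [abs_of_nonneg hs.1]
    rw [e1, e2, intervalIntegral.integral_add (by simp) (by simp),
      intervalIntegral.integral_sub (by simp) (by simp), intervalIntegral.integral_const,
      intervalIntegral.integral_const, integral_id, integral_id, smul_eq_mul, smul_eq_mul]
    ring
  · exact (Continuous.integrableOn_Icc (by fun_prop))
  · filter_upwards [ae_restrict_mem measurableSet_Icc] with s hs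
    rw [mem_Icc, ← abs_le] at hs
    exact sub_nonneg.mpr hs

lemma exists_basis (k : ℕ) (e : Eu (k + 1)) (he : ‖e‖ = 1) :
    ∃ b : OrthonormalBasis (Fin (k + 1)) ℝ (Eu (k + 1)), b 0 = e := by
  have h : Orthonormal ℝ (({0} : Set (Fin (k + 1))).domRestrict (fun _ => e)) := by
    constructor
    · intro i
      simpa using he
    · intro i j hij
      exact absurd (Subsingleton.elim i j) hij
  obtain ⟨b, hb⟩ := h.exists_orthonormalBasis_extension_of_card_eq (by simp)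
  exact ⟨b, hb 0 rfl⟩

lemma lintegral_split (k : ℕ) (e : Eu (k + 1)) (he : ‖e‖ = 1) (c : ℝ) :
    ∫⁻ x, ENNReal.ofReal (c * ‖x‖ - |inner ℝ x e|) ∂gam (k + 1) =
      ∫⁻ y, ∫⁻ t, ENNReal.ofReal (c * √(t ^ 2 + ‖y‖ ^ 2) - |t|) ∂gaussianReal 0 1 ∂gam k := by
  obtain ⟨b, hb⟩ := exists_basis k e he
  have hm1 : Measurable (fun x : Fin (k + 1) → ℝ => ∑ i, x i • b i) := by fun_prop
  rw [show gam (k + 1) = (Measure.pi fun _ : Fin (k + 1) ↦ gaussianReal 0 1).map
    (fun x ↦ ∑ i, x i • b i) from stdGaussian_eq_map_pi_orthonormalBasis b,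
    lintegral_map (by fun_prop) hm1]
  have h1 : ∀ x : Fin (k + 1) → ℝ, ‖∑ i, x i • b i‖ = √(∑ i, x i ^ 2) := by
    intro x
    rw [eq_comm, Real.sqrt_eq_iff_mul_self_eq (by positivity) (norm_nonneg _)]
    rw [← sq, ← real_inner_self_eq_norm_sq, b.orthonormal.inner_sum]
    simp [sq]
  have h2 : ∀ x : Fin (k + 1) → ℝ, inner ℝ (∑ i, x i • b i) e = x 0 := by
    intro x
    rw [← hb]
    simp [sum_inner, inner_smul_left, orthonormal_iff_ite.mp b.orthonormal]
  simp_rw [h1, h2, Fin.sum_univ_succ]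
  have hmp := measurePreserving_piFinSuccAbove (fun _ : Fin (k + 1) => gaussianReal 0 1) 0
  have h3 := hmp.lintegral_comp (f := fun p : ℝ × (Fin k → ℝ) =>
    ENNReal.ofReal (c * √(p.1 ^ 2 + ∑ i, p.2 i ^ 2) - |p.1|)) (by fun_prop)
  have h4 : ∀ x : Fin (k + 1) → ℝ, ENNReal.ofReal (c * √(x 0 ^ 2 + ∑ i : Fin k, x i.succ ^ 2) - |x 0|) =
      ENNReal.ofReal (c * √((MeasurableEquiv.piFinSuccAbove (fun _ => ℝ) 0 x).1 ^ 2 +
        ∑ i, (MeasurableEquiv.piFinSuccAbove (fun _ => ℝ) 0 x).2 i ^ 2) -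
        |(MeasurableEquiv.piFinSuccAbove (fun _ => ℝ) 0 x).1|) := by
    intro x
    simp [MeasurableEquiv.piFinSuccAbove, Fin.tail]
  rw [lintegral_congr h4, h3, lintegral_prod_symm _ (by fun_prop)]
  rw [show gam k = (Measure.pi (fun _ : Fin k => gaussianReal 0 1)).map (WithLp.toLp 2) from
    (map_pi_eq_stdGaussian (ι := Fin k)).symm]
  rw [lintegral_map ?_ (by fun_prop)]
  · simp_rw [EuclideanSpace.real_norm_sq_eq]
  · exact Measurable.lintegral_prod_left' (f := fun p : ℝ × Eu k =>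
      ENNReal.ofReal (c * √(p.1 ^ 2 + ‖p.2‖ ^ 2) - |p.1|)) (by fun_prop)


/-- (iv) -/
lemma H_bound (k : ℕ) (hk : 2 ≤ k) (c : ℝ) (hc : 0 ≤ c) (e : Eu (k + 1)) (he : ‖e‖ = 1) :
    ∫⁻ x, ENNReal.ofReal (c * ‖x‖ - |inner ℝ x e|) ∂gam (k + 1) ≤
      ENNReal.ofReal (k * (√(2 * Real.pi))⁻¹ * c ^ 2) := by
  rw [lintegral_split k e he c]
  have hne : ∀ᵐ y ∂gam k, 0 < ‖y‖ ^ 2 := by
    have : Nonempty (Fin k) := ⟨⟨0, by omega⟩⟩
    have h1 : ∀ᵐ y ∂(volume : Measure (Eu k)), y ≠ 0 := by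
      have := measure_singleton (μ := (volume : Measure (Eu k))) 0
      exact measure_eq_zero_iff_ae_notMem.mp this
    have h2 : gam k ≪ volume := by
      rw [gam_eq_withDensity]; exact withDensity_absolutelyContinuous _ _
    filter_upwards [h2.ae_le h1] with y hy
    positivity
  have h1 : ∫⁻ y, ∫⁻ t, ENNReal.ofReal (c * √(t ^ 2 + ‖y‖ ^ 2) - |t|) ∂gaussianReal 0 1 ∂gam k =
      ∫⁻ y, (∫⁻ s in Ioo (-1 : ℝ) 1, ENNReal.ofReal ((c - |s|) * ((√(2 * Real.pi))⁻¹ *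
      ((√(1 - s ^ 2))⁻¹ ^ 4 * (‖y‖ ^ 2 * Real.exp (-(s ^ 2 / (2 * (1 - s ^ 2))) * ‖y‖ ^ 2))))))
      ∂gam k := by
    apply lintegral_congr_ae
    filter_upwards [hne] with y hy
    exact inner_lintegral c (‖y‖ ^ 2) hy
  rw [h1, lintegral_lintegral_swap (by fun_prop)]
  calc _ ≤ ∫⁻ s in Ioo (-1 : ℝ) 1, ENNReal.ofReal (k * (√(2 * Real.pi))⁻¹) *
        ENNReal.ofReal (c - |s|) := by
        apply setLIntegral_mono (by fun_prop)
        intro s hs
        by_cases hcs : 0 ≤ c - |s|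
        · have h2 : ∀ y : Eu k, ENNReal.ofReal ((c - |s|) * ((√(2 * Real.pi))⁻¹ *
            ((√(1 - s ^ 2))⁻¹ ^ 4 * (‖y‖ ^ 2 * Real.exp (-(s ^ 2 / (2 * (1 - s ^ 2))) * ‖y‖ ^ 2)))))
            = ENNReal.ofReal ((c - |s|) * (√(2 * Real.pi))⁻¹ * (√(1 - s ^ 2))⁻¹ ^ 4) *
              ENNReal.ofReal (‖y‖ ^ 2 * Real.exp (-(s ^ 2 / (2 * (1 - s ^ 2))) * ‖y‖ ^ 2)) := by
            intro y
            rw [← ENNReal.ofReal_mul (by positivity)]
            congr 1; ring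
          simp_rw [h2]
          rw [lintegral_const_mul _ (by fun_prop)]
          rw [← ofReal_integral_eq_lintegral_ofReal ?_ (Filter.Eventually.of_forall
            fun y => by positivity), ← ENNReal.ofReal_mul (by positivity),
            ← ENNReal.ofReal_mul (by positivity)]
          · apply ENNReal.ofReal_le_ofReal
            have h3 := lintegral_y k hk s hs
            calc _ = (c - |s|) * (√(2 * Real.pi))⁻¹ * ((√(1 - s ^ 2))⁻¹ ^ 4 *
                  ∫ y, ‖y‖ ^ 2 * Real.exp (-(s ^ 2 / (2 * (1 - s ^ 2))) * ‖y‖ ^ 2) ∂gam k) := by ring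
              _ ≤ (c - |s|) * (√(2 * Real.pi))⁻¹ * k := by
                apply mul_le_mul_of_nonneg_left h3 (by positivity)
              _ = _ := by ring
          · refine (integrable_norm_sq k).mono' (by fun_prop) (Filter.Eventually.of_forall
              fun y => ?_)
            have h0 : 0 < 1 - s ^ 2 := by nlinarith [hs.1, hs.2]
            rw [Real.norm_of_nonneg (by positivity)]
            have : Real.exp (-(s ^ 2 / (2 * (1 - s ^ 2))) * ‖y‖ ^ 2) ≤ 1 := by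
              rw [Real.exp_le_one_iff]
              have : 0 ≤ s ^ 2 / (2 * (1 - s ^ 2)) * ‖y‖ ^ 2 := by positivity
              linarith
            nlinarith [sq_nonneg ‖y‖]
        · have h2 : ∀ y : Eu k, ENNReal.ofReal ((c - |s|) * ((√(2 * Real.pi))⁻¹ *
            ((√(1 - s ^ 2))⁻¹ ^ 4 * (‖y‖ ^ 2 * Real.exp (-(s ^ 2 / (2 * (1 - s ^ 2))) * ‖y‖ ^ 2)))))
            = 0 := by
            intro y
            rw [ENNReal.ofReal_eq_zero]
            exact mul_nonpos_of_nonpos_of_nonneg (by linarith) (by positivity)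
          simp_rw [h2]
          simp
    _ ≤ ∫⁻ s, ENNReal.ofReal (k * (√(2 * Real.pi))⁻¹) * ENNReal.ofReal (c - |s|) :=
        setLIntegral_le_lintegral _ _
    _ = _ := by
        rw [lintegral_const_mul _ (by fun_prop), integral_tent c hc,
          ← ENNReal.ofReal_mul (by positivity)]

lemma H_bound' (k : ℕ) (hk : 2 ≤ k) (c : ℝ) (hc : 0 ≤ c) (e : Eu (k + 1)) (he : ‖e‖ = 1) :
    ∫ x, max (c * ‖x‖ - |inner ℝ x e|) 0 ∂gam (k + 1) ≤ k * (√(2 * Real.pi))⁻¹ * c ^ 2 := by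
  have h0 : 0 ≤ᵐ[gam (k + 1)] fun x => max (c * ‖x‖ - |inner ℝ x e|) 0 :=
    Filter.Eventually.of_forall fun x => le_max_right _ _
  rw [integral_eq_lintegral_of_nonneg_ae h0 (by fun_prop)]
  apply ENNReal.toReal_le_of_le_ofReal (by positivity)
  refine le_trans (le_of_eq ?_) (H_bound k hk c hc e he)
  congr 1
  ext x
  rw [ENNReal.ofReal_max]
  simp

lemma fin_aux (I J P N H a b c' : ℝ) (s1 : I = J + a) (s2 : J ≤ P) (s3 : N = P)
    (s4 : P + N = b + H) (s5 : H ≤ c') : I ≤ a + (b + c') / 2 := by linarith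

lemma pt (u r : ℝ) (hr : 0 ≤ r) :
    max (u - r) 0 + max (-u - r) 0 = |u| - r + max (r - |u|) 0 := by
  rcases abs_cases u with ⟨h, h'⟩ | ⟨h, h'⟩ <;> rw [h]
  · rw [max_eq_right (a := -u - r) (by linarith)]
    rcases le_total u r with h1 | h1
    · rw [max_eq_right (by linarith), max_eq_left (by linarith)]; ring
    · rw [max_eq_left (by linarith), max_eq_right (by linarith)]
  · rw [max_eq_right (a := u - r) (by linarith)]
    rcases le_total (-u) r with h1 | h1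
    · rw [max_eq_right (by linarith), max_eq_left (by linarith)]; ring
    · rw [max_eq_left (by linarith), max_eq_right (by linarith)]; ring

lemma key_bound (k : ℕ) (hk : 2 ≤ k) (A : Set (Eu (k + 1))) (hA : MeasurableSet A)
    (hcone : ∀ x ∈ A, ∀ t : ℝ, 0 < t → t • x ∈ A) (e : Eu (k + 1)) (he : ‖e‖ = 1)
    (c : ℝ) (hc : 0 ≤ c) :
    ∫ x in A, inner ℝ x e ∂gam (k + 1) ≤
      c * ((gam (k + 1)).real A * ∫ x, ‖x‖ ∂gam (k + 1)) +
      (2 / √(2 * Real.pi) - c * ∫ x, ‖x‖ ∂gam (k + 1) + k * (√(2 * Real.pi))⁻¹ * c ^ 2) / 2 := by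
  have i1 := integrable_inner (k + 1) e
  have i2 := integrable_norm (k + 1)
  have i3 : Integrable (fun x => max (inner ℝ x e - c * ‖x‖) 0) (gam (k + 1)) :=
    (i1.sub (i2.const_mul c)).pos_part
  have i4 : Integrable (fun x => max (-inner ℝ x e - c * ‖x‖) 0) (gam (k + 1)) :=
    (i1.neg.sub (i2.const_mul c)).pos_part
  have i5 : Integrable (fun x => max (c * ‖x‖ - |inner ℝ x e|) 0) (gam (k + 1)) :=
    ((i2.const_mul c).sub i1.abs).pos_part
  have s1 : ∫ x in A, inner ℝ x e ∂gam (k + 1) =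
      ∫ x in A, (inner ℝ x e - c * ‖x‖) ∂gam (k + 1) +
        c * ((gam (k + 1)).real A * ∫ x, ‖x‖ ∂gam (k + 1)) := by
    rw [integral_sub i1.integrableOn (i2.const_mul c).integrableOn, integral_const_mul,
      setIntegral_norm_cone (by omega) A hA hcone]
    ring
  have s2 : ∫ x in A, (inner ℝ x e - c * ‖x‖) ∂gam (k + 1) ≤
      ∫ x, max (inner ℝ x e - c * ‖x‖) 0 ∂gam (k + 1) := by
    calc _ ≤ ∫ x in A, max (inner ℝ x e - c * ‖x‖) 0 ∂gam (k + 1) := by
          apply integral_mono (i1.sub (i2.const_mul c)).integrableOn i3.integrableOn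
          intro x
          exact le_max_left _ _
      _ ≤ _ := setIntegral_le_integral i3 (Filter.Eventually.of_forall fun x => le_max_right _ _)
  have s3 : ∫ x, max (-inner ℝ x e - c * ‖x‖) 0 ∂gam (k + 1) =
      ∫ x, max (inner ℝ x e - c * ‖x‖) 0 ∂gam (k + 1) := by
    have h1 := stdGaussian_map (E := Eu (k + 1)) (F := Eu (k + 1)) (LinearIsometryEquiv.neg ℝ)
    have h2 : ∫ x, max (inner ℝ x e - c * ‖x‖) 0 ∂gam (k + 1) =
        ∫ x, max (inner ℝ x e - c * ‖x‖) 0 ∂((gam (k + 1)).map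
          (LinearIsometryEquiv.neg ℝ : Eu (k + 1) ≃ₗᵢ[ℝ] Eu (k + 1))) := by
      rw [h1]
    rw [h2, integral_map (by fun_prop) (by fun_prop)]
    simp
  have s4 : ∫ x, max (inner ℝ x e - c * ‖x‖) 0 ∂gam (k + 1) +
      ∫ x, max (-inner ℝ x e - c * ‖x‖) 0 ∂gam (k + 1) =
      2 / √(2 * Real.pi) - c * ∫ x, ‖x‖ ∂gam (k + 1) +
        ∫ x, max (c * ‖x‖ - |inner ℝ x e|) 0 ∂gam (k + 1) := by
    have i6 : Integrable (fun x => |inner ℝ x e| - c * ‖x‖) (gam (k + 1)) :=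
      i1.abs.sub (i2.const_mul c)
    have e1 : 2 / √(2 * Real.pi) - c * ∫ x, ‖x‖ ∂gam (k + 1) =
        ∫ x, (|inner ℝ x e| - c * ‖x‖) ∂gam (k + 1) := by
      rw [integral_sub i1.abs (i2.const_mul c), integral_abs_inner (k + 1) e he,
        integral_const_mul]
    rw [e1, ← integral_add i3 i4, ← integral_add i6 i5]
    congr 1
    ext x
    exact pt _ _ (by positivity)
  have s5 := H_bound' k hk c hc e he
  exact fin_aux _ _ _ _ _ _ _ _ s1 s2 s3 s4 s5

lemma final_algebra (E m φ k : ℝ) (hφ : 0 < φ) (hφ2 : φ ^ 2 = 2 * Real.pi) (hk : 0 < k) :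
    E * (1 / 2 - m) * φ / k * (m * E) + (2 / φ - E * (1 / 2 - m) * φ / k * E + k * φ⁻¹ *
      (E * (1 / 2 - m) * φ / k) ^ 2) / 2 =
    1 / φ * (1 - Real.pi * E ^ 2 / k * (1 / 2 - m) ^ 2) := by
  have hpi : Real.pi = φ ^ 2 / 2 := by rw [hφ2]; ring
  rw [hpi]
  field_simp
  ring

theorem cone_bound (n : ℕ) (hn : 3 ≤ n) (A : Set (Eu n)) (hA : MeasurableSet A)
    (hcone : ∀ x ∈ A, ∀ t : ℝ, 0 < t → t • x ∈ A) (e : Eu n) (he : ‖e‖ = 1)
    (hμ : (gam n).real A ≤ 1 / 2) :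
    ∫ x in A, inner ℝ x e ∂gam n ≤
      1 / √(2 * Real.pi) *
        (1 - Real.pi * (∫ x, ‖x‖ ∂gam n) ^ 2 / (n - 1) * (1 / 2 - (gam n).real A) ^ 2) := by
  obtain ⟨k, rfl⟩ : ∃ k, n = k + 1 := ⟨n - 1, by omega⟩
  have hk : 2 ≤ k := by omega
  have hE0 : 0 ≤ ∫ x, ‖x‖ ∂gam (k + 1) := integral_nonneg fun x => norm_nonneg x
  have hφ : 0 < √(2 * Real.pi) := by positivity
  have hφ2 : √(2 * Real.pi) ^ 2 = 2 * Real.pi := Real.sq_sqrt (by positivity)
  have hk0 : (0 : ℝ) < k := by positivity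
  have key := key_bound k hk A hA hcone e he
  have hc0 : 0 ≤ (∫ x, ‖x‖ ∂gam (k + 1)) * (1 / 2 - (gam (k + 1)).real A) *
      √(2 * Real.pi) / k := by
    exact div_nonneg (mul_nonneg (mul_nonneg hE0 (sub_nonneg.mpr hμ)) hφ.le) hk0.le
  refine (key _ hc0).trans (le_of_eq ?_)
  rw [final_algebra _ _ _ _ hφ hφ2 hk0]
  have hk1 : (((k + 1 : ℕ) : ℝ) - 1) = k := by push_cast; ring
  rw [hk1]

end Crest.Agent.R215.T5a
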