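import Crest.Agent.R215.Dens

/-! Row 215, piece T5b: the first absolute moment of the standard Gaussian in dimension 3..7. -/

set_option autoImplicit false
open MeasureTheory ProbabilityTheory
open scoped RealInnerProductSpace

namespace Crest.Agent.R215.T5b

theorem integral_norm_gam (n : ℕ) (hn : 1 ≤ n) :
    ∫ x, ‖x‖ ∂gam n =
      n / √2 * Real.Gamma (((n : ℝ) + 1) / 2) / Real.Gamma ((n : ℝ) / 2 + 1) := by
  have : NeZero n := ⟨by omega⟩
  have hne : Nonempty (Fin n) := ⟨⟨0, by omega⟩⟩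
  have hnt : Nontrivial (Eu n) :=
    Module.nontrivial_of_finrank_pos (R := ℝ) (by rw [finrank_euclideanSpace, Fintype.card_fin]; omega)
  rw [gam_eq, integral_withDensity_eq_integral_toReal_smul₀
    (by exact (dens_continuous n).measurable.ennreal_ofReal.aemeasurable)
    (Filter.Eventually.of_forall fun x => ENNReal.ofReal_lt_top)]
  have h1 : ∀ x : Eu n, (ENNReal.ofReal (dens n x)).toReal • ‖x‖ =
      (fun y : ℝ => (2 * Real.pi) ^ (-((n : ℝ) / 2)) * (Real.exp (-(1 / 2) * y ^ 2) * y)) ‖x‖ := by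
    intro x
    rw [ENNReal.toReal_ofReal (dens_pos n x).le, dens, smul_eq_mul]
    ring
  rw [integral_congr_ae (Filter.Eventually.of_forall h1),
    integral_fun_norm_addHaar (volume : Measure (Eu n))
      (fun y : ℝ => (2 * Real.pi) ^ (-((n : ℝ) / 2)) * (Real.exp (-(1 / 2) * y ^ 2) * y))]
  have h2 : ∀ y ∈ Set.Ioi (0 : ℝ), y ^ (Module.finrank ℝ (Eu n) - 1) •
      ((2 * Real.pi) ^ (-((n : ℝ) / 2)) * (Real.exp (-(1 / 2) * y ^ 2) * y)) =
      (2 * Real.pi) ^ (-((n : ℝ) / 2)) * (y ^ (n : ℝ) * Real.exp (-(1 / 2) * y ^ (2 : ℝ))) := by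
    intro y hy
    have hy' : (0 : ℝ) < y := hy
    rw [finrank_euclideanSpace, Fintype.card_fin, smul_eq_mul, Real.rpow_natCast]
    have : y ^ n = y ^ (n - 1) * y := by
      rw [← pow_succ]; congr 1; omega
    rw [this]
    norm_num
    ring
  rw [setIntegral_congr_fun measurableSet_Ioi h2, integral_const_mul,
    integral_rpow_mul_exp_neg_mul_rpow (by norm_num) (by have : (0 : ℝ) ≤ n := Nat.cast_nonneg n
                                                         linarith) (by norm_num)]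
  have h3 : (volume : Measure (Eu n)).real (Metric.ball 0 1) =
      √Real.pi ^ n / Real.Gamma ((n : ℝ) / 2 + 1) := by
    rw [Measure.real, EuclideanSpace.volume_ball]
    simp only [ENNReal.ofReal_one, one_pow, one_mul, Fintype.card_fin]
    rw [ENNReal.toReal_ofReal]
    have : 0 < Real.Gamma ((n : ℝ) / 2 + 1) := Real.Gamma_pos_of_pos (by positivity)
    positivity
  rw [h3, finrank_euclideanSpace, Fintype.card_fin]
  have h4 : (1 / 2 : ℝ) ^ (-((n : ℝ) + 1) / 2) = 2 ^ ((n : ℝ) / 2) * √2 := by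
    rw [one_div, Real.inv_rpow (by norm_num), ← Real.rpow_neg (by norm_num), Real.sqrt_eq_rpow,
      ← Real.rpow_add (by norm_num)]
    congr 1
    ring
  have h5 : (2 * Real.pi) ^ (-((n : ℝ) / 2)) = (2 ^ ((n : ℝ) / 2))⁻¹ * (√Real.pi ^ n)⁻¹ := by
    rw [Real.rpow_neg (by positivity), Real.mul_rpow (by norm_num) (by positivity), mul_inv]
    congr 2
    rw [Real.sqrt_eq_rpow, ← Real.rpow_natCast, ← Real.rpow_mul (by positivity)]
    congr 1
    ring
  rw [h4, h5]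
  have hs : (√2 : ℝ) ≠ 0 := by positivity
  have hp : (√Real.pi : ℝ) ^ n ≠ 0 := by positivity
  have h2n : (2 : ℝ) ^ ((n : ℝ) / 2) ≠ 0 := by positivity
  have hG : Real.Gamma ((n : ℝ) / 2 + 1) ≠ 0 := (Real.Gamma_pos_of_pos (by positivity)).ne'
  have hss : √2 * √2 = (2 : ℝ) := Real.mul_self_sqrt (by norm_num)
  simp only [nsmul_eq_mul, smul_eq_mul]
  field_simp
  rw [show (√2 : ℝ) ^ 2 = 2 by rw [sq]; exact hss]

theorem sq_norm (n : ℕ) (hn : 1 ≤ n) (a b : ℝ)
    (ha : Real.Gamma (((n : ℝ) + 1) / 2) = a) (hb : Real.Gamma ((n : ℝ) / 2 + 1) = b) :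
    (∫ x, ‖x‖ ∂gam n) ^ 2 = n ^ 2 / 2 * a ^ 2 / b ^ 2 := by
  rw [integral_norm_gam n hn, ha, hb, div_pow, mul_pow, div_pow, Real.sq_sqrt (by norm_num)]

theorem G2 : Real.Gamma 2 = 1 := by simp

theorem G3 : Real.Gamma 3 = 2 := by simp

theorem G4 : Real.Gamma 4 = 6 := by
  rw [Real.Gamma_ofNat_eq_factorial 3]
  norm_num [Nat.factorial]

theorem G32 : Real.Gamma (3 / 2) = √Real.pi / 2 := by
  rw [show (3 / 2 : ℝ) = 1 / 2 + 1 by norm_num, Real.Gamma_add_one (by norm_num),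
    Real.Gamma_one_half_eq]
  ring

theorem G52 : Real.Gamma (5 / 2) = 3 * √Real.pi / 4 := by
  rw [show (5 / 2 : ℝ) = 3 / 2 + 1 by norm_num, Real.Gamma_add_one (by norm_num), G32]
  ring

theorem G72 : Real.Gamma (7 / 2) = 15 * √Real.pi / 8 := by
  rw [show (7 / 2 : ℝ) = 5 / 2 + 1 by norm_num, Real.Gamma_add_one (by norm_num), G52]
  ring

theorem G92 : Real.Gamma (9 / 2) = 105 * √Real.pi / 16 := by
  rw [show (9 / 2 : ℝ) = 7 / 2 + 1 by norm_num, Real.Gamma_add_one (by norm_num), G72]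
  ring

theorem norm_integral_sq :
    (∫ x, ‖x‖ ∂gam 3) ^ 2 = 8 / Real.pi ∧ (∫ x, ‖x‖ ∂gam 4) ^ 2 = 9 * Real.pi / 8 ∧
    (∫ x, ‖x‖ ∂gam 5) ^ 2 = 128 / (9 * Real.pi) ∧
    (∫ x, ‖x‖ ∂gam 6) ^ 2 = 225 * Real.pi / 128 ∧
    (∫ x, ‖x‖ ∂gam 7) ^ 2 = 512 / (25 * Real.pi) := by
  have hpi : √Real.pi ^ 2 = Real.pi := Real.sq_sqrt Real.pi_pos.le
  have hp0 := Real.pi_pos
  refine ⟨?_, ?_, ?_, ?_, ?_⟩
  · rw [sq_norm 3 (by norm_num) 1 (3 * √Real.pi / 4) (by norm_num [G2])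
      (by rw [← G52]; norm_num)]
    rw [div_pow, mul_pow, hpi]
    field_simp
    norm_num
  · rw [sq_norm 4 (by norm_num) (3 * √Real.pi / 4) 2 (by rw [← G52]; norm_num)
      (by norm_num [G3])]
    rw [div_pow, mul_pow, hpi]
    field_simp
    norm_num
  · rw [sq_norm 5 (by norm_num) 2 (15 * √Real.pi / 8) (by norm_num [G3])
      (by rw [← G72]; norm_num)]
    rw [div_pow, mul_pow, hpi]
    field_simp
    norm_num
  · rw [sq_norm 6 (by norm_num) (15 * √Real.pi / 8) 6 (by rw [← G72]; norm_num)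
      (by norm_num [G4])]
    rw [div_pow, mul_pow, hpi]
    field_simp
    norm_num
  · rw [sq_norm 7 (by norm_num) 6 (105 * √Real.pi / 16) (by norm_num [G4])
      (by rw [← G92]; norm_num)]
    rw [div_pow, mul_pow, hpi]
    field_simp
    norm_num

end Crest.Agent.R215.T5b
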