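import Crest.Agent.R215.Defs

/-! Row 215, piece T5c: the half space bound. -/

set_option autoImplicit false
open MeasureTheory ProbabilityTheory
open scoped RealInnerProductSpace

namespace Crest.Agent.R215.T5c

lemma pdf_eq (u : ℝ) :
    gaussianPDFReal 0 1 u = (√(2 * Real.pi))⁻¹ * Real.exp (-(1 / 2) * u ^ 2) := by
  rw [gaussianPDFReal]
  simp only [NNReal.coe_one, mul_one, sub_zero]
  congr 2
  ring

lemma pdf_le (u : ℝ) : gaussianPDFReal 0 1 u ≤ (√(2 * Real.pi))⁻¹ := by
  rw [pdf_eq]
  have h : Real.exp (-(1 / 2) * u ^ 2) ≤ 1 := by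
    rw [Real.exp_le_one_iff]
    nlinarith [sq_nonneg u]
  have h0 : 0 ≤ (√(2 * Real.pi))⁻¹ := by positivity
  nlinarith

lemma int_id : Integrable (fun u : ℝ => u) (gaussianReal 0 1) :=
  IsGaussian.integrable_id

lemma int_pdf_mul {f : ℝ → ℝ} (hf : Integrable f (gaussianReal 0 1)) :
    Integrable (fun u => gaussianPDFReal 0 1 u * f u) := by
  rw [gaussianReal_of_var_ne_zero _ (by norm_num : (1 : NNReal) ≠ 0)] at hf
  rw [integrable_withDensity_iff_integrable_smul' (measurable_gaussianPDF 0 1)
    (Filter.Eventually.of_forall fun _ => gaussianPDF_lt_top)] at hf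
  refine hf.congr (Filter.Eventually.of_forall fun u => ?_)
  simp only [toReal_gaussianPDF, smul_eq_mul]

lemma E_posPart : ∫ u, max u 0 ∂gaussianReal 0 1 = (√(2 * Real.pi))⁻¹ := by
  rw [integral_gaussianReal_eq_integral_smul (by norm_num : (1 : NNReal) ≠ 0)]
  have h : ∀ u : ℝ, gaussianPDFReal 0 1 u • max u 0 =
      (Set.Ioi (0 : ℝ)).indicator (fun u => (√(2 * Real.pi))⁻¹ *
        (u ^ (1 : ℝ) * Real.exp (-(1 / 2) * u ^ (2 : ℝ)))) u := by
    intro u
    rw [pdf_eq]
    by_cases hu : u ∈ Set.Ioi (0 : ℝ)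
    · rw [Set.indicator_of_mem hu, max_eq_left (le_of_lt hu), Real.rpow_one, smul_eq_mul]
      norm_num
      ring
    · rw [Set.indicator_of_notMem hu, max_eq_right (not_lt.mp hu), smul_zero]
  rw [integral_congr_ae (Filter.Eventually.of_forall h), integral_indicator measurableSet_Ioi,
    integral_const_mul, integral_rpow_mul_exp_neg_mul_rpow (by norm_num) (by norm_num)
    (by norm_num)]
  norm_num

lemma P_pos : (gaussianReal 0 1).real (Set.Ioi (0 : ℝ)) = 1 / 2 := by
  have h0 : (gaussianReal 0 1).real (Set.Ioi (0 : ℝ)) =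
      ∫ u, (Set.Ioi (0 : ℝ)).indicator 1 u ∂gaussianReal 0 1 := by
    rw [integral_indicator_one measurableSet_Ioi]
  rw [h0, integral_gaussianReal_eq_integral_smul (by norm_num : (1 : NNReal) ≠ 0)]
  have h : ∀ u : ℝ, gaussianPDFReal 0 1 u • (Set.Ioi (0 : ℝ)).indicator (1 : ℝ → ℝ) u =
      (Set.Ioi (0 : ℝ)).indicator (fun u => (√(2 * Real.pi))⁻¹ *
        Real.exp (-(1 / 2) * u ^ 2)) u := by
    intro u
    rw [pdf_eq]
    by_cases hu : u ∈ Set.Ioi (0 : ℝ)
    · rw [Set.indicator_of_mem hu, Set.indicator_of_mem hu]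
      simp
    · rw [Set.indicator_of_notMem hu, Set.indicator_of_notMem hu, smul_zero]
  rw [integral_congr_ae (Filter.Eventually.of_forall h), integral_indicator measurableSet_Ioi,
    integral_const_mul, integral_gaussian_Ioi]
  rw [show Real.pi / (1 / 2) = 2 * Real.pi by ring]
  have : √(2 * Real.pi) ≠ 0 := by positivity
  field_simp

/-- the correction term -/
noncomputable def corr (a u : ℝ) : ℝ := (Set.uIcc 0 a).indicator (fun u => |u - a|) u

lemma corr_nonneg (a u : ℝ) : 0 ≤ corr a u := by
  unfold corr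
  exact Set.indicator_nonneg (fun _ _ => abs_nonneg _) _

lemma corr_integrable (a : ℝ) : Integrable (corr a) := by
  unfold corr
  rw [integrable_indicator_iff measurableSet_uIcc]
  exact (by fun_prop : Continuous fun u : ℝ => |u - a|).continuousOn.integrableOn_compact
    isCompact_uIcc

lemma corr_integral (a : ℝ) : ∫ u, corr a u = a ^ 2 / 2 := by
  unfold corr
  rw [integral_indicator measurableSet_uIcc]
  rcases le_total 0 a with h | h
  · rw [Set.uIcc_of_le h, integral_Icc_eq_integral_Ioc, ← intervalIntegral.integral_of_le h]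
    have : ∫ u in (0 : ℝ)..a, |u - a| = ∫ u in (0 : ℝ)..a, (a - u) := by
      apply intervalIntegral.integral_congr
      intro u hu
      rw [Set.uIcc_of_le h] at hu
      simp only
      rw [abs_of_nonpos (by linarith [hu.2])]
      ring
    rw [this, intervalIntegral.integral_sub (by simp) (by simp)]
    simp
    ring
  · rw [Set.uIcc_of_ge h, integral_Icc_eq_integral_Ioc, ← intervalIntegral.integral_of_le h]
    have : ∫ u in a..(0 : ℝ), |u - a| = ∫ u in a..(0 : ℝ), (u - a) := by
      apply intervalIntegral.integral_congr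
      intro u hu
      rw [Set.uIcc_of_le h] at hu
      simp only
      rw [abs_of_nonneg (by linarith [hu.1])]
    rw [this, intervalIntegral.integral_sub (by simp) (by simp)]
    simp
    ring

lemma pointwise (a u : ℝ) :
    max (u - a) 0 ≤ max u 0 - a * (Set.Ioi (0 : ℝ)).indicator 1 u + corr a u := by
  unfold corr
  rcases le_or_gt u 0 with hu | hu
  · rw [Set.indicator_of_notMem (by simpa using hu), max_eq_right hu]
    rcases le_or_gt u a with h | h
    · rw [max_eq_right (by linarith)]
      have := Set.indicator_nonneg (s := Set.uIcc 0 a) (f := fun u : ℝ => |u - a|)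
        (fun _ _ => abs_nonneg _) u
      linarith
    · rw [max_eq_left (by linarith)]
      have hmem : u ∈ Set.uIcc 0 a := by
        rw [Set.uIcc_of_ge (by linarith)]
        exact ⟨h.le, hu⟩
      rw [Set.indicator_of_mem hmem, abs_of_nonneg (by linarith)]
      linarith
  · rw [Set.indicator_of_mem (by simpa using hu), max_eq_left hu.le]
    rcases le_or_gt u a with h | h
    · rw [max_eq_right (by linarith)]
      have hmem : u ∈ Set.uIcc 0 a := by
        rw [Set.uIcc_of_le (by linarith)]
        exact ⟨hu.le, h⟩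
      rw [Set.indicator_of_mem hmem, abs_of_nonpos (by linarith)]
      simp
    · rw [max_eq_left (by linarith)]
      have := Set.indicator_nonneg (s := Set.uIcc 0 a) (f := fun u : ℝ => |u - a|)
        (fun _ _ => abs_nonneg _) u
      simp only [Pi.one_apply, mul_one]
      linarith

lemma corr_integrable' (a : ℝ) : Integrable (corr a) (gaussianReal 0 1) := by
  have h := corr_integrable a
  rw [gaussianReal_of_var_ne_zero _ (by norm_num : (1 : NNReal) ≠ 0)]
  rw [integrable_withDensity_iff_integrable_smul' (measurable_gaussianPDF 0 1)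
    (Filter.Eventually.of_forall fun _ => gaussianPDF_lt_top)]
  refine (h.bdd_mul (c := (√(2 * Real.pi))⁻¹)
    (measurable_gaussianPDF 0 1).ennreal_toReal.aestronglyMeasurable ?_)
  refine Filter.Eventually.of_forall fun u => ?_
  rw [toReal_gaussianPDF, Real.norm_of_nonneg (gaussianPDFReal_nonneg _ _ _)]
  exact pdf_le u

lemma corr_le (a : ℝ) : ∫ u, corr a u ∂gaussianReal 0 1 ≤ (√(2 * Real.pi))⁻¹ * (a ^ 2 / 2) := by
  rw [integral_gaussianReal_eq_integral_smul (by norm_num : (1 : NNReal) ≠ 0), ← corr_integral a,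
    ← integral_const_mul]
  refine integral_mono ?_ ((corr_integrable a).const_mul _) fun u => ?_
  · exact int_pdf_mul (corr_integrable' a)
  · simp only [smul_eq_mul]
    exact mul_le_mul_of_nonneg_right (pdf_le u) (corr_nonneg a u)

lemma E_shift (a : ℝ) : ∫ u, max (u - a) 0 ∂gaussianReal 0 1 ≤
    (√(2 * Real.pi))⁻¹ - a / 2 + (√(2 * Real.pi))⁻¹ * (a ^ 2 / 2) := by
  have hi1 : Integrable (fun u : ℝ => max u 0) (gaussianReal 0 1) := int_id.pos_part
  have hi2 : Integrable (fun u : ℝ => a * (Set.Ioi (0 : ℝ)).indicator (1 : ℝ → ℝ) u)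
      (gaussianReal 0 1) := by
    refine Integrable.const_mul ?_ a
    exact (integrable_const (1 : ℝ)).indicator measurableSet_Ioi
  have hi3 : Integrable (fun u : ℝ => max (u - a) 0) (gaussianReal 0 1) :=
    (int_id.sub (integrable_const a)).pos_part
  calc ∫ u, max (u - a) 0 ∂gaussianReal 0 1
      ≤ ∫ u, (max u 0 - a * (Set.Ioi (0 : ℝ)).indicator (1 : ℝ → ℝ) u + corr a u)
          ∂gaussianReal 0 1 :=
        integral_mono hi3 ((hi1.sub hi2).add (corr_integrable' a)) (pointwise a)
    _ = (√(2 * Real.pi))⁻¹ - a / 2 + ∫ u, corr a u ∂gaussianReal 0 1 := by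
        have e1 := integral_add (hi1.sub hi2) (corr_integrable' a)
        have e2 := integral_sub hi1 hi2
        simp only [Pi.sub_apply] at e1
        rw [e1, e2, integral_const_mul, E_posPart, integral_indicator_one measurableSet_Ioi,
          P_pos]
        ring
    _ ≤ _ := by linarith [corr_le a]

lemma map_inner {n : ℕ} (e : Eu n) (he : ‖e‖ = 1) :
    (gam n).map (fun x => (inner ℝ x e : ℝ)) = gaussianReal 0 1 := by
  have h := IsGaussian.map_eq_gaussianReal (μ := gam n) (innerSL ℝ e)
  rw [integral_strongDual_stdGaussian, variance_dual_stdGaussian, innerSL_apply_norm, he] at h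
  have h1 : (fun x : Eu n => (inner ℝ x e : ℝ)) = ⇑(innerSL ℝ e) := by
    ext x
    rw [innerSL_apply_apply, real_inner_comm]
  rw [h1, h]
  norm_num

theorem half_space_bound (n : ℕ) (A : Set (Eu n)) (hA : MeasurableSet A)
    (e : Eu n) (he : ‖e‖ = 1) :
    ∫ x in A, inner ℝ x e ∂gam n ≤
      1 / √(2 * Real.pi) * (1 - Real.pi * (1 / 2 - (gam n).real A) ^ 2) := by
  set m := (gam n).real A with hm
  set s := √(2 * Real.pi) with hs
  have hs0 : 0 < s := by positivity
  have hs2 : s ^ 2 = 2 * Real.pi := Real.sq_sqrt (by positivity)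
  set a := (1 / 2 - m) * s with ha
  have hid : Integrable (fun x : Eu n => (inner ℝ x e : ℝ)) (gam n) := by
    refine Integrable.mono' ((IsGaussian.integrable_id (μ := gam n)).norm.mul_const ‖e‖) ?_ ?_
    · exact (by fun_prop : Continuous fun x : Eu n => (inner ℝ x e : ℝ)).aestronglyMeasurable
    · exact Filter.Eventually.of_forall fun x => norm_inner_le_norm x e
  have hmax : Integrable (fun x : Eu n => max ((inner ℝ x e : ℝ) - a) 0) (gam n) :=
    (hid.sub (integrable_const a)).pos_part
  have h1 : ∫ x in A, (inner ℝ x e : ℝ) ∂gam n = (∫ x in A, ((inner ℝ x e : ℝ) - a) ∂gam n) + a * m := by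
    rw [integral_sub hid.integrableOn (integrable_const a)]
    rw [setIntegral_const, smul_eq_mul]
    ring
  have h2 : ∫ x in A, ((inner ℝ x e : ℝ) - a) ∂gam n ≤
      ∫ x, max ((inner ℝ x e : ℝ) - a) 0 ∂gam n := by
    calc ∫ x in A, ((inner ℝ x e : ℝ) - a) ∂gam n
        ≤ ∫ x in A, max ((inner ℝ x e : ℝ) - a) 0 ∂gam n :=
          integral_mono (hid.sub (integrable_const a)).integrableOn hmax.integrableOn
            fun x => le_max_left _ _
      _ ≤ _ := setIntegral_le_integral hmax (Filter.Eventually.of_forall fun x => le_max_right _ _)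
  have h3 : ∫ x, max ((inner ℝ x e : ℝ) - a) 0 ∂gam n = ∫ u, max (u - a) 0 ∂gaussianReal 0 1 := by
    rw [← map_inner e he, integral_map]
    · exact (by fun_prop : Continuous fun x : Eu n => (inner ℝ x e : ℝ)).aemeasurable
    · exact (by fun_prop : Continuous fun u : ℝ => max (u - a) 0).aestronglyMeasurable
  have h4 := E_shift a
  have h5 : s⁻¹ - a / 2 + s⁻¹ * (a ^ 2 / 2) + a * m =
      1 / s * (1 - Real.pi * (1 / 2 - m) ^ 2) := by
    have hpi : Real.pi = s ^ 2 / 2 := by linarith
    rw [ha, hpi]
    field_simp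
    ring
  linarith

end Crest.Agent.R215.T5c
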