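import Crest.Agent.R215.CM
import Crest.Agent.R82.PL

/-! Row 215, piece T6: Prekopa-Leindler bounds for the gain (helper5). -/

set_option autoImplicit false
open MeasureTheory ProbabilityTheory
open scoped RealInnerProductSpace ENNReal

namespace Crest.Agent.R215.T6

open CM

/-! ### the tangent lemma -/

lemma tangent (g : ℝ → ℝ) (a C : ℝ) (h0 : ∀ e, 0 ≤ e → e ≤ 1 → 0 ≤ g e)
    (h1 : ∀ e, 0 ≤ e → 2 * e ≤ 1 → g (2 * e) ≤ g e ^ 2)
    (h2 : ∀ e, 0 ≤ e → e ≤ 1 → g e ≤ Real.exp (a * e + C * e ^ 2)) : g 1 ≤ Real.exp a := by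
  have hj : ∀ j : ℕ, g 1 ≤ g ((1 / 2) ^ j) ^ (2 ^ j) := by
    intro j
    induction j with
    | zero => simp
    | succ j ih =>
      refine ih.trans ?_
      have hp : (0 : ℝ) ≤ (1 / 2) ^ (j + 1) := by positivity
      have hp1 : (1 / 2 : ℝ) ^ j ≤ 1 := pow_le_one₀ (by norm_num) (by norm_num)
      have e2 : 2 * (1 / 2 : ℝ) ^ (j + 1) = (1 / 2) ^ j := by
        rw [pow_succ]; ring
      have := h1 ((1 / 2) ^ (j + 1)) hp (by rw [e2]; exact hp1)
      rw [e2] at this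
      calc g ((1 / 2) ^ j) ^ 2 ^ j ≤ (g ((1 / 2) ^ (j + 1)) ^ 2) ^ 2 ^ j :=
            pow_le_pow_left₀ (h0 _ (by positivity) hp1) this _
        _ = g ((1 / 2) ^ (j + 1)) ^ 2 ^ (j + 1) := by
            rw [← pow_mul, ← pow_succ']
  have hb : ∀ j : ℕ, g 1 ≤ Real.exp (a + C * (1 / 2) ^ j) := by
    intro j
    refine (hj j).trans ?_
    have hp : (0 : ℝ) ≤ (1 / 2) ^ j := by positivity
    have hp1 : (1 / 2 : ℝ) ^ j ≤ 1 := pow_le_one₀ (by norm_num) (by norm_num)
    refine (pow_le_pow_left₀ (h0 _ hp hp1) (h2 _ hp hp1) _).trans ?_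
    rw [← Real.exp_nat_mul]
    apply le_of_eq
    congr 1
    push_cast
    have : (2 : ℝ) ^ j * (1 / 2) ^ j = 1 := by
      rw [← mul_pow]; norm_num
    linear_combination (a + C * (1 / 2) ^ j) * this
  have hl : Filter.Tendsto (fun j : ℕ => Real.exp (a + C * (1 / 2) ^ j)) Filter.atTop
      (nhds (Real.exp (a + C * 0))) := by
    refine (Real.continuous_exp.tendsto _).comp ?_
    exact tendsto_const_nhds.add
      ((tendsto_pow_atTop_nhds_zero_of_lt_one (by norm_num) (by norm_num)).const_mul C)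
  have := ge_of_tendsto' hl hb
  simpa using this

/-! ### log-concavity -/

noncomputable def cn (n : ℕ) : ℝ := (2 * Real.pi) ^ (-(n : ℝ) / 2)

lemma cn_pos (n : ℕ) : 0 < cn n := by
  unfold cn
  have : (0 : ℝ) < 2 * Real.pi := by positivity
  positivity

noncomputable def wt (n : ℕ) (Δ : Eu n → ℝ) (s t : ℝ) (x : Eu n) : ℝ≥0∞ :=
  Set.indicator {x | s < Δ x} (fun x => ENNReal.ofReal (cn n * Real.exp (-‖x‖ ^ 2 / (2 * t)))) x

lemma wt_meas {n : ℕ} {Δ : Eu n → ℝ} (hcont : Continuous Δ) (s t : ℝ) :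
    Measurable (wt n Δ s t) := by
  unfold wt
  refine Measurable.indicator ?_ (isOpen_lt continuous_const hcont).measurableSet
  fun_prop

lemma wt_mid {n : ℕ} {Δ : Eu n → ℝ} (hconc : ConcaveOn ℝ Set.univ Δ) (s₀ s₁ t₀ t₁ : ℝ)
    (h₀ : 0 < t₀) (h₁ : 0 < t₁) (x y : Eu n) :
    wt n Δ s₀ t₀ x * wt n Δ s₁ t₁ y ≤
      wt n Δ ((s₀ + s₁) / 2) ((t₀ + t₁) / 2) ((1 / 2 : ℝ) • (x + y)) ^ 2 := by
  unfold wt
  by_cases hx : s₀ < Δ x
  swap
  · rw [Set.indicator_of_notMem (by simpa using hx)]; simp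
  by_cases hy : s₁ < Δ y
  swap
  · rw [Set.indicator_of_notMem (a := y) (by simpa using hy)]; simp
  have hm : (s₀ + s₁) / 2 < Δ ((1 / 2 : ℝ) • (x + y)) := by
    have h2 := hconc.2
    have := h2 (Set.mem_univ x) (Set.mem_univ y) (show (0 : ℝ) ≤ 1 / 2 by norm_num)
      (show (0 : ℝ) ≤ 1 / 2 by norm_num) (by norm_num)
    rw [smul_add]
    simp only [smul_eq_mul] at this
    linarith
  rw [Set.indicator_of_mem (by simpa using hx), Set.indicator_of_mem (by simpa using hy),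
    Set.indicator_of_mem (by simpa using hm)]
  have c0 := (cn_pos n).le
  rw [← ENNReal.ofReal_mul (by positivity), ← ENNReal.ofReal_pow (by positivity)]
  apply ENNReal.ofReal_le_ofReal
  rw [mul_pow, ← Real.exp_nat_mul]
  have e1 : cn n * Real.exp (-‖x‖ ^ 2 / (2 * t₀)) * (cn n * Real.exp (-‖y‖ ^ 2 / (2 * t₁)))
      = cn n ^ 2 * Real.exp (-‖x‖ ^ 2 / (2 * t₀) + -‖y‖ ^ 2 / (2 * t₁)) := by
    rw [Real.exp_add]; ring
  rw [e1]
  refine mul_le_mul_of_nonneg_left ?_ (by positivity)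
  apply Real.exp_le_exp.2
  push_cast
  have e2 : ‖(1 / 2 : ℝ) • (x + y)‖ ^ 2 = ‖x + y‖ ^ 2 / 4 := by
    rw [norm_smul, mul_pow]; norm_num; ring
  have e3 : ‖(1 / 2 : ℝ) • (x + y)‖ ^ 2 ≤ (‖x‖ + ‖y‖) ^ 2 / 4 := by
    rw [e2]
    have := norm_add_le x y
    have h0 := norm_nonneg (x + y)
    nlinarith
  have e4 : (‖x‖ + ‖y‖) ^ 2 / (t₀ + t₁) ≤ ‖x‖ ^ 2 / t₀ + ‖y‖ ^ 2 / t₁ := by
    rw [div_add_div _ _ h₀.ne' h₁.ne', div_le_div_iff₀ (by positivity) (by positivity)]
    nlinarith [sq_nonneg (‖x‖ * t₁ - ‖y‖ * t₀)]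
  have e5 : (2 : ℝ) * (-‖(1 / 2 : ℝ) • (x + y)‖ ^ 2 / (2 * ((t₀ + t₁) / 2)))
      = -(2 * ‖(1 / 2 : ℝ) • (x + y)‖ ^ 2 / (t₀ + t₁)) := by
    field_simp
  rw [e5]
  have e6 : 2 * ‖(1 / 2 : ℝ) • (x + y)‖ ^ 2 / (t₀ + t₁) ≤
      (‖x‖ + ‖y‖) ^ 2 / (t₀ + t₁) / 2 := by
    rw [div_div, mul_comm (t₀ + t₁) 2, ← div_div]
    gcongr
    linarith
  have e7 : -‖x‖ ^ 2 / (2 * t₀) + -‖y‖ ^ 2 / (2 * t₁) = -((‖x‖ ^ 2 / t₀ + ‖y‖ ^ 2 / t₁) / 2) := by
    field_simp
    ring
  rw [e7]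
  linarith

lemma wt_pl {n : ℕ} {Δ : Eu n → ℝ} (hcont : Continuous Δ) (hconc : ConcaveOn ℝ Set.univ Δ)
    (s₀ s₁ t₀ t₁ : ℝ) (h₀ : 0 < t₀) (h₁ : 0 < t₁) :
    (∫⁻ x, wt n Δ s₀ t₀ x) * (∫⁻ x, wt n Δ s₁ t₁ x) ≤
      (∫⁻ x, wt n Δ ((s₀ + s₁) / 2) ((t₀ + t₁) / 2) x) ^ 2 :=
  Crest.Agent.R82.PL.prekopa_leindler_half n _ _ _ (wt_meas hcont _ _) (wt_meas hcont _ _)
    (wt_meas hcont _ _) (wt_mid hconc s₀ s₁ t₀ t₁ h₀ h₁)

lemma wt_one {n : ℕ} {Δ : Eu n → ℝ} (hcont : Continuous Δ) (s : ℝ) :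
    ∫⁻ x, wt n Δ s 1 x = gam n {x | s < Δ x} := by
  have hm : MeasurableSet {x | s < Δ x} := (isOpen_lt continuous_const hcont).measurableSet
  rw [← lintegral_indicator_one hm, lintegral_gam n _ (measurable_one.indicator hm)]
  refine lintegral_congr fun x => ?_
  unfold wt dens cn
  by_cases hx : s < Δ x
  · rw [Set.indicator_of_mem (by simpa using hx), Set.indicator_of_mem (by simpa using hx)]
    simp
  · rw [Set.indicator_of_notMem (by simpa using hx), Set.indicator_of_notMem (by simpa using hx)]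
    simp

lemma wt_scale {n : ℕ} {Δ : Eu n → ℝ} (hcont : Continuous Δ)
    (hhom : ∀ x (t : ℝ), 0 ≤ t → Δ (t • x) = t * Δ x) (s r : ℝ) (hr : 0 < r) :
    ∫⁻ x, wt n Δ s (r ^ 2) x = ENNReal.ofReal (r ^ n) * gam n {x | s / r < Δ x} := by
  rw [← wt_one hcont]
  have h1 : ∫⁻ x, wt n Δ s (r ^ 2) (r • x) = ENNReal.ofReal |(r ^ n)⁻¹| * ∫⁻ x, wt n Δ s (r ^ 2) x := by
    have h2 := Measure.map_addHaar_smul (volume : Measure (Eu n)) hr.ne'
    rw [finrank_euclideanSpace_fin] at h2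
    rw [← lintegral_map (μ := volume) (f := wt n Δ s (r ^ 2)) (g := fun x => r • x)
      (wt_meas hcont _ _) (by fun_prop)]
    have h3 : Measure.map (fun x : Eu n => r • x) volume =
        ENNReal.ofReal |(r ^ n)⁻¹| • (volume : Measure (Eu n)) := h2
    rw [h3, lintegral_smul_measure]
    rfl
  have h4 : ∀ x, wt n Δ s (r ^ 2) (r • x) = wt n Δ (s / r) 1 x := by
    intro x
    unfold wt
    have : s < Δ (r • x) ↔ s / r < Δ x := by
      rw [hhom x r hr.le, div_lt_iff₀ hr, mul_comm]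
    by_cases hx : s < Δ (r • x)
    · rw [Set.indicator_of_mem (by simpa using hx), Set.indicator_of_mem (by simpa using this.1 hx)]
      congr 3
      rw [norm_smul, mul_pow, Real.norm_of_nonneg hr.le]
      field_simp
    · rw [Set.indicator_of_notMem (by simpa using hx),
        Set.indicator_of_notMem (by simpa using (not_congr this).1 hx)]
  simp_rw [h4] at h1
  rw [h1, ← mul_assoc, ← ENNReal.ofReal_mul (by positivity), abs_of_pos (by positivity),
    mul_inv_cancel₀ (by positivity)]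
  simp

/-- `G s = γ {Δ > s}` -/
noncomputable def G (n : ℕ) (Δ : Eu n → ℝ) (s : ℝ) : ℝ := (gam n).real {x | s < Δ x}

lemma G_nonneg (n : ℕ) (Δ : Eu n → ℝ) (s : ℝ) : 0 ≤ G n Δ s := measureReal_nonneg

lemma G_mid {n : ℕ} {Δ : Eu n → ℝ} (hcont : Continuous Δ) (hconc : ConcaveOn ℝ Set.univ Δ)
    (s₀ s₁ : ℝ) : G n Δ s₀ * G n Δ s₁ ≤ G n Δ ((s₀ + s₁) / 2) ^ 2 := by
  have h := wt_pl hcont hconc s₀ s₁ 1 1 one_pos one_pos
  rw [show ((1 : ℝ) + 1) / 2 = 1 by norm_num, wt_one hcont, wt_one hcont, wt_one hcont] at h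
  unfold G Measure.real
  rw [← ENNReal.toReal_mul, ← ENNReal.toReal_pow]
  exact ENNReal.toReal_mono (by finiteness) h

lemma G_mid2 {n : ℕ} {Δ : Eu n → ℝ} (hcont : Continuous Δ) (hconc : ConcaveOn ℝ Set.univ Δ)
    (hhom : ∀ x (t : ℝ), 0 ≤ t → Δ (t • x) = t * Δ x) (s₀ s₁ r₀ r₁ r : ℝ) (h₀ : 0 < r₀)
    (h₁ : 0 < r₁) (h : 0 < r) (hr : r ^ 2 = (r₀ ^ 2 + r₁ ^ 2) / 2) :
    (r₀ ^ n * G n Δ (s₀ / r₀)) * (r₁ ^ n * G n Δ (s₁ / r₁)) ≤
      (r ^ n * G n Δ ((s₀ + s₁) / 2 / r)) ^ 2 := by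
  have h := wt_pl hcont hconc s₀ s₁ (r₀ ^ 2) (r₁ ^ 2) (by positivity) (by positivity)
  rw [← hr, wt_scale hcont hhom _ _ h₀, wt_scale hcont hhom _ _ h₁, wt_scale hcont hhom _ _ ‹0 < r›]
    at h
  have e : ∀ (r s : ℝ), 0 < r → r ^ n * G n Δ s =
      (ENNReal.ofReal (r ^ n) * gam n {x | s < Δ x}).toReal := by
    intro r s hr
    rw [ENNReal.toReal_mul, ENNReal.toReal_ofReal (by positivity)]
    rfl
  rw [e _ _ h₀, e _ _ h₁, e _ _ ‹0 < r›, ← ENNReal.toReal_mul, ← ENNReal.toReal_pow]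
  exact ENNReal.toReal_mono (by finiteness) h

/-! ### expansion at 0 -/

lemma exp_inner_integrable (n : ℕ) (v : Eu n) :
    Integrable (fun x => Real.exp (inner ℝ x v)) (gam n) := by
  have h := lintegral_shift n (fun _ => 1) measurable_const v
  simp only [lintegral_const, measure_univ, mul_one] at h
  have h1 : Integrable (fun x => Real.exp (inner ℝ x v - ‖v‖ ^ 2 / 2)) (gam n) := by
    refine ⟨by fun_prop, ?_⟩
    rw [hasFiniteIntegral_iff_ofReal (Filter.Eventually.of_forall fun x => (Real.exp_pos _).le)]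
    rw [← h]
    exact ENNReal.one_lt_top
  have h2 := h1.mul_const (Real.exp (‖v‖ ^ 2 / 2))
  refine h2.congr (Filter.Eventually.of_forall fun x => ?_)
  simp only
  rw [← Real.exp_add]
  congr 1
  ring

lemma exp_bound (U z u : ℝ) (hu : 0 ≤ u) (huU : u ≤ U) :
    Real.exp (-(u * z)) ≤ 1 - u * z + u ^ 2 *
      (2 * (Real.exp ((U + 1) * z) + Real.exp (-((U + 1) * z)))) := by
  have h1 : Real.exp (-(u * z)) ≤ 1 + (-(u * z)) + (u * z) ^ 2 * Real.exp |u * z| := by
    have h := Complex.norm_exp_sub_sum_le_norm_mul_exp ((-(u * z) : ℝ) : ℂ) 2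
    rw [Finset.sum_range_succ, Finset.sum_range_one] at h
    simp only [pow_zero, Nat.factorial_zero, Nat.cast_one, div_one, pow_one, Nat.factorial_one] at h
    have h' : ‖(Complex.exp ((-(u * z) : ℝ) : ℂ) - (1 + ((-(u * z) : ℝ) : ℂ)))‖ =
        |Real.exp (-(u * z)) - (1 + -(u * z))| := by
      rw [← Complex.ofReal_exp]
      rw [show ((Real.exp (-(u * z)) : ℝ) : ℂ) - (1 + ((-(u * z) : ℝ) : ℂ)) =
        ((Real.exp (-(u * z)) - (1 + -(u * z)) : ℝ) : ℂ) by push_cast; ring]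
      rw [Complex.norm_real, Real.norm_eq_abs]
    rw [h', Complex.norm_real, Real.norm_eq_abs, abs_neg] at h
    have := le_abs_self (Real.exp (-(u * z)) - (1 + -(u * z)))
    rw [sq_abs] at h
    linarith
  have h2 : (u * z) ^ 2 * Real.exp |u * z| ≤ u ^ 2 * (2 * Real.exp ((U + 1) * |z|)) := by
    have h3 : Real.exp |u * z| ≤ Real.exp (U * |z|) := by
      apply Real.exp_le_exp.2
      rw [abs_mul, abs_of_nonneg hu]
      gcongr
    have h4 : z ^ 2 ≤ 2 * Real.exp |z| := by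
      have := Real.quadratic_le_exp_of_nonneg (abs_nonneg z)
      have h5 : |z| ^ 2 = z ^ 2 := sq_abs z
      have := abs_nonneg z
      nlinarith
    calc (u * z) ^ 2 * Real.exp |u * z| = u ^ 2 * (z ^ 2 * Real.exp |u * z|) := by ring
      _ ≤ u ^ 2 * ((2 * Real.exp |z|) * Real.exp (U * |z|)) := by gcongr
      _ = u ^ 2 * (2 * Real.exp ((U + 1) * |z|)) := by
          rw [mul_assoc 2, ← Real.exp_add]
          congr 3
          ring
  have h3 : Real.exp ((U + 1) * |z|) ≤ Real.exp ((U + 1) * z) + Real.exp (-((U + 1) * z)) := by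
    rcases abs_choice z with h | h
    · rw [h]
      linarith [Real.exp_pos (-((U + 1) * z))]
    · rw [h, mul_neg]
      linarith [Real.exp_pos ((U + 1) * z)]
  have h4 : u ^ 2 * (2 * Real.exp ((U + 1) * |z|)) ≤ u ^ 2 *
      (2 * (Real.exp ((U + 1) * z) + Real.exp (-((U + 1) * z)))) := by gcongr
  linarith

lemma G_upper {n : ℕ} {Δ : Eu n → ℝ} {y : Eu n} (hcont : Continuous Δ)
    (hsh : ∀ x (t : ℝ), Δ (x + t • y) = Δ x + t) (U : ℝ) :
    ∃ C : ℝ, 0 ≤ C ∧ ∀ u : ℝ, 0 ≤ u → u ≤ U →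
      G n Δ u ≤ G n Δ 0 - u * (∫ x in {x | 0 < Δ x}, inner ℝ x y ∂gam n) + C * u ^ 2 := by
  set A : Set (Eu n) := {x | 0 < Δ x} with hA
  have hAm : MeasurableSet A := (isOpen_lt continuous_const hcont).measurableSet
  set K : Eu n → ℝ := fun x =>
    2 * (Real.exp ((U + 1) * inner ℝ x y) + Real.exp (-((U + 1) * inner ℝ x y))) with hK
  have hKi : Integrable K (gam n) := by
    have h1 := exp_inner_integrable n ((U + 1) • y)
    have h2 := exp_inner_integrable n (-((U + 1) • y))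
    refine ((h1.add h2).const_mul 2).congr (Filter.Eventually.of_forall fun x => ?_)
    simp [hK, inner_neg_right, inner_smul_right]
  have hI : Integrable (fun x : Eu n => inner ℝ x y) (gam n) := by
    have : Integrable (fun x : Eu n => x) (gam n) := IsGaussian.integrable_id
    exact this.inner_const y
  refine ⟨∫ x in A, K x ∂gam n, setIntegral_nonneg hAm fun x _ => by positivity, ?_⟩
  intro u hu huU
  have hbd : Integrable (fun x => 1 - u * inner ℝ x y + u ^ 2 * K x) (gam n) :=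
    ((integrable_const 1).sub (hI.const_mul u)).add (hKi.const_mul (u ^ 2))
  have h1 : gam n {x | u < Δ x} ≤
      ENNReal.ofReal (∫ x in A, (1 - u * inner ℝ x y + u ^ 2 * K x) ∂gam n) := by
    have hm : MeasurableSet {x | u < Δ x} := (isOpen_lt continuous_const hcont).measurableSet
    have e1 : gam n {x | u < Δ x} = ∫⁻ x, A.indicator 1 (x + (-u) • y) ∂gam n := by
      rw [← lintegral_indicator_one hm]
      refine lintegral_congr fun x => ?_
      by_cases hx : u < Δ x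
      · rw [Set.indicator_of_mem (by simpa using hx), Set.indicator_of_mem]
        · rfl
        · rw [hA]
          simp only [Set.mem_ofPred_eq]
          rw [hsh]
          linarith
      · rw [Set.indicator_of_notMem (by simpa using hx), Set.indicator_of_notMem]
        rw [hA]
        simp only [Set.mem_ofPred_eq]
        rw [hsh]
        linarith
    rw [e1, lintegral_shift n _ (measurable_one.indicator hAm)]
    rw [ofReal_integral_eq_lintegral_ofReal hbd.integrableOn, ← lintegral_indicator hAm]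
    · refine lintegral_mono fun x => ?_
      by_cases hx : x ∈ A
      · rw [Set.indicator_of_mem hx, Set.indicator_of_mem hx]
        simp only [Pi.one_apply, mul_one]
        apply ENNReal.ofReal_le_ofReal
        refine le_trans ?_ (exp_bound U (inner ℝ x y) u hu huU)
        apply Real.exp_le_exp.2
        rw [inner_smul_right]
        have : 0 ≤ ‖(-u) • y‖ ^ 2 / 2 := by positivity
        linarith
      · rw [Set.indicator_of_notMem hx, Set.indicator_of_notMem hx]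
        simp
    · refine Filter.Eventually.of_forall fun x => ?_
      exact (Real.exp_pos _).le.trans (exp_bound U (inner ℝ x y) u hu huU)
  have h2 : 0 ≤ ∫ x in A, (1 - u * inner ℝ x y + u ^ 2 * K x) ∂gam n :=
    setIntegral_nonneg hAm fun x _ =>
      (Real.exp_pos _).le.trans (exp_bound U (inner ℝ x y) u hu huU)
  have h3 : G n Δ u ≤ ∫ x in A, (1 - u * inner ℝ x y + u ^ 2 * K x) ∂gam n := by
    unfold G Measure.real
    exact ENNReal.toReal_le_of_le_ofReal h2 h1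
  refine h3.trans (le_of_eq ?_)
  rw [integral_add, integral_sub, integral_const_mul, integral_const_mul]
  · simp only [integral_const, smul_eq_mul, mul_one, measureReal_restrict_apply_univ]
    rw [show G n Δ 0 = (gam n).real A from rfl]
    ring
  · exact integrable_const _
  · exact (hI.const_mul u).integrableOn
  · exact ((integrable_const 1).sub (hI.const_mul u)).integrableOn
  · exact (hKi.const_mul (u ^ 2)).integrableOn

/-- `D` -/
noncomputable def Dd (n : ℕ) (Δ : Eu n → ℝ) (y : Eu n) : ℝ :=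
  ∫ x in {x | 0 < Δ x}, inner ℝ x y ∂gam n

lemma G_exp {n : ℕ} {Δ : Eu n → ℝ} {y : Eu n} (hcont : Continuous Δ)
    (hconc : ConcaveOn ℝ Set.univ Δ)
    (hsh : ∀ x (t : ℝ), Δ (x + t • y) = Δ x + t) (hm : 0 < G n Δ 0) (s : ℝ) (hs : 0 ≤ s) :
    G n Δ s ≤ G n Δ 0 * Real.exp (-(Dd n Δ y / G n Δ 0 * s)) := by
  obtain ⟨C, hC, hup⟩ := G_upper hcont hsh s
  set m := G n Δ 0 with hmdef
  set D := Dd n Δ y with hD
  have key := tangent (fun e => G n Δ (e * s) / m) (-(D / m * s)) (C * s ^ 2 / m) ?_ ?_ ?_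
  · simp only [one_mul] at key
    rw [div_le_iff₀ hm] at key
    linarith
  · intro e _ _
    exact div_nonneg (G_nonneg _ _ _) hm.le
  · intro e _ _
    have h := G_mid hcont hconc 0 (2 * e * s)
    rw [show (0 + 2 * e * s) / 2 = e * s by ring] at h
    rw [div_pow, div_le_div_iff₀ hm (by positivity)]
    rw [← hmdef] at h
    nlinarith
  · intro e he he1
    have h := hup (e * s) (by positivity) (by nlinarith)
    have h2 := Real.add_one_le_exp (-(D / m * s) * e + C * s ^ 2 / m * e ^ 2)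
    refine le_trans ?_ h2
    rw [div_le_iff₀ hm]
    have e3 : (-(D / m * s) * e + C * s ^ 2 / m * e ^ 2 + 1) * m =
        m - e * s * D + C * (e * s) ^ 2 := by
      field_simp
      ring
    rw [e3]
    exact h

lemma G_exp2 {n : ℕ} {Δ : Eu n → ℝ} {y : Eu n} (hcont : Continuous Δ)
    (hconc : ConcaveOn ℝ Set.univ Δ)
    (hhom : ∀ x (t : ℝ), 0 ≤ t → Δ (t • x) = t * Δ x)
    (hsh : ∀ x (t : ℝ), Δ (x + t • y) = Δ x + t) (hm : 0 < G n Δ 0) (hD : 0 ≤ Dd n Δ y)
    (u r : ℝ) (hu : 0 ≤ u) (hr : 1 ≤ r) :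
    r ^ n * G n Δ u ≤ G n Δ 0 * Real.exp ((n : ℝ) / 2 * (r ^ 2 - 1) -
      Dd n Δ y / G n Δ 0 * (u * r)) := by
  obtain ⟨C, hC, hup⟩ := G_upper hcont hsh (u * r)
  set m := G n Δ 0 with hmdef
  set D := Dd n Δ y with hDdef
  set s := u * r with hs
  have hs0 : 0 ≤ s := by positivity
  set ρ : ℝ → ℝ := fun e => √(1 + e * (r ^ 2 - 1)) with hρ
  have hr2 : 0 ≤ r ^ 2 - 1 := by nlinarith
  have hρpos : ∀ e, 0 ≤ e → 1 ≤ ρ e := by
    intro e he
    rw [hρ]
    simp only
    rw [Real.one_le_sqrt]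
    nlinarith [mul_nonneg he hr2]
  have hρsq : ∀ e, 0 ≤ e → ρ e ^ 2 = 1 + e * (r ^ 2 - 1) := by
    intro e he
    rw [hρ]
    simp only
    rw [Real.sq_sqrt]
    nlinarith [mul_nonneg he hr2]
  have key := tangent (fun e => ρ e ^ n * G n Δ (e * s / ρ e) / m)
    ((n : ℝ) / 2 * (r ^ 2 - 1) - D / m * s) (C * s ^ 2 / m + (r ^ 2 - 1) / 2 * (s * (D / m))) ?_ ?_ ?_
  · have e1 : ρ 1 = r := by
      rw [hρ]; simp only
      rw [show 1 + 1 * (r ^ 2 - 1) = r ^ 2 by ring, Real.sqrt_sq (by linarith)]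
    simp only [one_mul, e1] at key
    rw [div_le_iff₀ hm] at key
    have e2 : s / r = u := by rw [hs]; field_simp
    rw [e2] at key
    linarith
  · intro e he _
    have := hρpos e he
    exact div_nonneg (mul_nonneg (by positivity) (G_nonneg _ _ _)) hm.le
  · intro e he _
    have h := G_mid2 hcont hconc hhom 0 (2 * e * s) 1 (ρ (2 * e)) (ρ e) one_pos
      (by linarith [hρpos (2 * e) (by linarith)]) (by linarith [hρpos e he])
      (by rw [hρsq e he, hρsq (2 * e) (by linarith)]; ring)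
    rw [show (0 + 2 * e * s) / 2 = e * s by ring, one_pow, one_mul, zero_div, ← hmdef] at h
    rw [div_pow, div_le_div_iff₀ hm (by positivity)]
    nlinarith
  · intro e he he1
    have hρ1 := hρpos e he
    have hρ0 : 0 < ρ e := by linarith
    have hx : e * s / ρ e ≤ s := by
      rw [div_le_iff₀ hρ0]
      nlinarith
    have h := hup (e * s / ρ e) (by positivity) hx
    have hDm : 0 ≤ D / m := div_nonneg hD hm.le
    -- bound of the power
    have h1 : ρ e ^ n ≤ Real.exp ((n : ℝ) / 2 * (e * (r ^ 2 - 1))) := by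
      have h2 : ρ e ≤ Real.exp (e * (r ^ 2 - 1) / 2) := by
        have h3 := Real.add_one_le_exp (e * (r ^ 2 - 1))
        rw [hρ]
        simp only
        rw [Real.sqrt_le_left (Real.exp_pos _).le, ← Real.exp_nat_mul]
        push_cast
        rw [show 2 * (e * (r ^ 2 - 1) / 2) = e * (r ^ 2 - 1) by ring]
        linarith
      calc ρ e ^ n ≤ Real.exp (e * (r ^ 2 - 1) / 2) ^ n := pow_le_pow_left₀ hρ0.le h2 n
        _ = Real.exp ((n : ℝ) / 2 * (e * (r ^ 2 - 1))) := by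
          rw [← Real.exp_nat_mul]
          congr 1
          ring
    -- bound of 1/ρ
    have h4 : 1 - e * (r ^ 2 - 1) / 2 ≤ 1 / ρ e := by
      rw [le_div_iff₀ hρ0]
      have h5 := hρsq e he
      have h6 : ρ e ≤ 1 + e * (r ^ 2 - 1) / 2 := by nlinarith [sq_nonneg (ρ e - 1)]
      have h7 : 0 ≤ e * (r ^ 2 - 1) / 2 := by positivity
      by_cases h8 : 1 - e * (r ^ 2 - 1) / 2 ≤ 0
      · nlinarith
      · push Not at h8
        nlinarith
    have h9 : G n Δ (e * s / ρ e) / m ≤ Real.exp (-(D / m * s) * e +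
        (C * s ^ 2 / m + (r ^ 2 - 1) / 2 * (s * (D / m))) * e ^ 2) := by
      have h2 := Real.add_one_le_exp (-(D / m * s) * e +
        (C * s ^ 2 / m + (r ^ 2 - 1) / 2 * (s * (D / m))) * e ^ 2)
      refine le_trans ?_ h2
      have h10 : G n Δ (e * s / ρ e) / m ≤ 1 - (D / m) * (e * s) * (1 / ρ e) +
          C / m * (e * s / ρ e) ^ 2 := by
        rw [div_le_iff₀ hm]
        refine h.trans (le_of_eq ?_)
        rw [show (∫ x in {x | 0 < Δ x}, inner ℝ x y ∂gam n) = D from rfl]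
        field_simp
      have h11 : C / m * (e * s / ρ e) ^ 2 ≤ C / m * (e * s) ^ 2 := by
        have : e * s / ρ e ≤ e * s := div_le_self (by positivity) hρ1
        have h0 : 0 ≤ e * s / ρ e := by positivity
        gcongr
      have h12 : (D / m) * (e * s) * (1 - e * (r ^ 2 - 1) / 2) ≤ (D / m) * (e * s) * (1 / ρ e) := by
        gcongr
      have h13 : C / m * (e * s) ^ 2 = C * s ^ 2 / m * e ^ 2 := by ring
      nlinarith
    calc ρ e ^ n * G n Δ (e * s / ρ e) / m = ρ e ^ n * (G n Δ (e * s / ρ e) / m) := by ring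
      _ ≤ Real.exp ((n : ℝ) / 2 * (e * (r ^ 2 - 1))) * Real.exp (-(D / m * s) * e +
        (C * s ^ 2 / m + (r ^ 2 - 1) / 2 * (s * (D / m))) * e ^ 2) := by
          gcongr
          exact div_nonneg (G_nonneg _ _ _) hm.le
      _ = _ := by
          rw [← Real.exp_add]
          congr 1
          ring

/-- the integral of the positive part -/
lemma pos_part {n : ℕ} {Δ : Eu n → ℝ} (hcont : Continuous Δ) (B : ℝ → ℝ)
    (hB : ∀ s, 0 < s → G n Δ s ≤ B s) (hBi : IntegrableOn B (Set.Ioi 0)) :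
    ∫ x, max (Δ x) 0 ∂gam n ≤ ∫ s in Set.Ioi 0, B s := by
  have hBpos : ∀ s, 0 < s → 0 ≤ B s := fun s hs => (G_nonneg _ _ _).trans (hB s hs)
  rw [integral_eq_lintegral_of_nonneg_ae (f := fun x => max (Δ x) 0)
    (Filter.Eventually.of_forall fun x => le_max_right _ _)
    (by exact (hcont.max continuous_const).aestronglyMeasurable)]
  apply ENNReal.toReal_le_of_le_ofReal
  · exact setIntegral_nonneg measurableSet_Ioi fun s hs => hBpos s hs
  rw [ofReal_integral_eq_lintegral_ofReal hBi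
    ((ae_restrict_iff' measurableSet_Ioi).2 (Filter.Eventually.of_forall fun s hs => hBpos s hs))]
  rw [lintegral_eq_lintegral_meas_lt (f := fun x => max (Δ x) 0) _
    (Filter.Eventually.of_forall fun x => le_max_right _ _)
    (by exact (hcont.max continuous_const).aemeasurable)]
  refine setLIntegral_mono' measurableSet_Ioi fun s hs => ?_
  have e : {a | s < max (Δ a) 0} = {a | s < Δ a} := by
    ext a
    simp only [Set.mem_ofPred_eq, lt_max_iff]
    have : ¬ s < 0 := not_lt.2 (le_of_lt hs)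
    tauto
  rw [e, ← ofReal_measureReal]
  exact ENNReal.ofReal_le_ofReal (hB s hs)

lemma trivial_case {n : ℕ} {Δ : Eu n → ℝ} {y : Eu n} (c : ℝ) (hc : 0 ≤ c)
    (h : ¬ (0 < G n Δ 0 ∧ 0 < Dd n Δ y)) :
    Dd n Δ y * ∫ x, max (Δ x) 0 ∂gam n ≤ c * G n Δ 0 ^ 2 := by
  have hI : 0 ≤ ∫ x, max (Δ x) 0 ∂gam n := integral_nonneg fun x => le_max_right _ _
  by_cases hD : 0 < Dd n Δ y
  · have hm : G n Δ 0 = 0 := by
      by_contra hne
      exact h ⟨lt_of_le_of_ne (G_nonneg _ _ _) (Ne.symm hne), hD⟩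
    have : Dd n Δ y = 0 := by
      unfold Dd
      apply setIntegral_measure_zero
      have : (gam n).real {x | 0 < Δ x} = 0 := hm
      rwa [measureReal_eq_zero_iff] at this
    exact absurd hD (by rw [this]; exact lt_irrefl _)
  · push Not at hD
    have : Dd n Δ y * ∫ x, max (Δ x) 0 ∂gam n ≤ 0 := mul_nonpos_of_nonpos_of_nonneg hD hI
    have h2 : 0 ≤ c * G n Δ 0 ^ 2 := by positivity
    linarith

lemma int_pow_exp (k : ℕ) (r : ℝ) (hr : 0 < r) :
    IntegrableOn (fun t : ℝ => t ^ k * Real.exp (-(r * t))) (Set.Ioi 0) ∧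
    ∫ t : ℝ in Set.Ioi 0, t ^ k * Real.exp (-(r * t)) = k.factorial / r ^ (k + 1) := by
  have h := Real.integral_rpow_mul_exp_neg_mul_Ioi (a := (k : ℝ) + 1) (r := r) (by positivity) hr
  rw [Real.Gamma_nat_eq_factorial] at h
  have e : ∀ t ∈ Set.Ioi (0 : ℝ), t ^ ((k : ℝ) + 1 - 1) * Real.exp (-(r * t)) =
      t ^ k * Real.exp (-(r * t)) := by
    intro t ht
    rw [add_sub_cancel_right, Real.rpow_natCast]
  rw [setIntegral_congr_fun measurableSet_Ioi e] at h
  have hv : ∫ t : ℝ in Set.Ioi 0, t ^ k * Real.exp (-(r * t)) = k.factorial / r ^ (k + 1) := by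
    rw [h, ← Nat.cast_succ, Real.rpow_natCast, one_div, inv_pow]
    field_simp
  refine ⟨?_, hv⟩
  by_contra hni
  have := integral_undef hni
  rw [hv] at this
  have : (0 : ℝ) < k.factorial / r ^ (k + 1) := by positivity
  linarith

theorem gain_le (n : ℕ) (Δ : Eu n → ℝ) (y : Eu n) (hcont : Continuous Δ)
    (hconc : ConcaveOn ℝ Set.univ Δ) (hsh : ∀ x (t : ℝ), Δ (x + t • y) = Δ x + t) :
    (∫ x in {x | 0 < Δ x}, inner ℝ x y ∂gam n) * ∫ x, max (Δ x) 0 ∂gam n ≤
      ((gam n).real {x | 0 < Δ x}) ^ 2 := by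
  change Dd n Δ y * _ ≤ G n Δ 0 ^ 2
  by_cases h : 0 < G n Δ 0 ∧ 0 < Dd n Δ y
  swap
  · have := trivial_case (n := n) (Δ := Δ) (y := y) 1 zero_le_one h
    linarith
  obtain ⟨hm, hD⟩ := h
  set m := G n Δ 0 with hmdef
  set D := Dd n Δ y with hDdef
  have hr : 0 < D / m := by positivity
  obtain ⟨hi, hv⟩ := int_pow_exp 0 (D / m) hr
  have h1 := pos_part hcont (fun s => m * Real.exp (-(D / m * s)))
    (fun s hs => G_exp hcont hconc hsh hm s hs.le)
    (by
      have := hi.const_mul m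
      simp only [pow_zero, one_mul] at this
      exact this)
  rw [integral_const_mul] at h1
  simp only [pow_zero, one_mul, zero_add, pow_one, Nat.factorial_zero, Nat.cast_one] at hv
  rw [hv] at h1
  calc D * ∫ x, max (Δ x) 0 ∂gam n ≤ D * (m * (1 / (D / m))) := by gcongr
    _ = m ^ 2 := by field_simp

lemma log_lower (a : ℝ) (ha : 0 ≤ a) : a - a ^ 2 / 2 ≤ Real.log (1 + a) := by
  have hd : ∀ x ∈ Set.Ici (0 : ℝ), HasDerivAt (fun x => Real.log (1 + x) - (x - x ^ 2 / 2))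
      (1 / (1 + x) - (1 - x)) x := by
    intro x hx
    have hx' : (0 : ℝ) ≤ x := hx
    have h1 : HasDerivAt (fun x : ℝ => Real.log (1 + x)) (1 / (1 + x)) x :=
      ((hasDerivAt_id x).const_add 1).log (by simp only [id]; linarith)
    have h2 : HasDerivAt (fun x : ℝ => x - x ^ 2 / 2) (1 - x) x := by
      exact ((hasDerivAt_id' x).sub ((hasDerivAt_pow 2 x).div_const 2)).congr_deriv
        (by push_cast; ring)
    exact h1.sub h2
  have hmono : MonotoneOn (fun x => Real.log (1 + x) - (x - x ^ 2 / 2)) (Set.Ici 0) := by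
    apply monotoneOn_of_deriv_nonneg (convex_Ici 0)
    · exact fun x hx => (hd x hx).continuousAt.continuousWithinAt
    · exact fun x hx => (hd x (interior_subset hx)).differentiableAt.differentiableWithinAt
    · intro x hx
      have hx' : 0 ≤ x := interior_subset hx
      rw [(hd x (interior_subset hx)).deriv]
      rw [sub_nonneg, le_div_iff₀ (by linarith)]
      nlinarith
  have := hmono (Set.mem_Ici.2 le_rfl) (Set.mem_Ici.2 ha) ha
  simp at this
  linarith

lemma exp_neg_le (x : ℝ) (hx : 0 ≤ x) : Real.exp (-x) ≤ 1 - x + x ^ 2 / 2 := by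
  have hd : ∀ x : ℝ, HasDerivAt (fun x => 1 - x + x ^ 2 / 2 - Real.exp (-x))
      (-1 + x + Real.exp (-x)) x := by
    intro x
    have h1 : HasDerivAt (fun x : ℝ => Real.exp (-x)) (-Real.exp (-x)) x := by
      exact (hasDerivAt_neg x).exp.congr_deriv (by ring)
    have h2 : HasDerivAt (fun x : ℝ => 1 - x + x ^ 2 / 2) (-1 + x) x := by
      exact (((hasDerivAt_id' x).const_sub 1).add ((hasDerivAt_pow 2 x).div_const 2)).congr_deriv
        (by push_cast; ring)
    exact (h2.sub h1).congr_deriv (by ring)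
  have hmono : MonotoneOn (fun x => 1 - x + x ^ 2 / 2 - Real.exp (-x)) (Set.Ici 0) := by
    apply monotoneOn_of_deriv_nonneg (convex_Ici 0)
    · exact fun x hx => (hd x).continuousAt.continuousWithinAt
    · exact fun x hx => (hd x).differentiableAt.differentiableWithinAt
    · intro x hx
      rw [(hd x).deriv]
      have := Real.add_one_le_exp (-x)
      linarith
  have := hmono (Set.mem_Ici.2 le_rfl) (Set.mem_Ici.2 hx) hx
  simp at this
  linarith

theorem gain_le_three (Δ : Eu 3 → ℝ) (y : Eu 3) (hcont : Continuous Δ)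
    (hconc : ConcaveOn ℝ Set.univ Δ)
    (hhom : ∀ x (t : ℝ), 0 ≤ t → Δ (t • x) = t * Δ x)
    (hsh : ∀ x (t : ℝ), Δ (x + t • y) = Δ x + t) :
    (∫ x in {x | 0 < Δ x}, inner ℝ x y ∂gam 3) * ∫ x, max (Δ x) 0 ∂gam 3 ≤
      11 / 12 * ((gam 3).real {x | 0 < Δ x}) ^ 2 := by
  change Dd 3 Δ y * _ ≤ 11 / 12 * G 3 Δ 0 ^ 2
  by_cases h : 0 < G 3 Δ 0 ∧ 0 < Dd 3 Δ y
  swap
  · exact trivial_case (n := 3) (Δ := Δ) (y := y) (11 / 12) (by norm_num) h
  obtain ⟨hm, hD⟩ := h
  set m := G 3 Δ 0 with hmdef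
  set D := Dd 3 Δ y with hDdef
  have hr : 0 < D / m := by positivity
  set r := D / m with hrdef
  obtain ⟨hi0, hv0⟩ := int_pow_exp 0 r hr
  obtain ⟨hi2, hv2⟩ := int_pow_exp 2 r hr
  obtain ⟨hi4, hv4⟩ := int_pow_exp 4 r hr
  have hB : ∀ u, 0 < u → G 3 Δ u ≤ m * (u ^ 0 * Real.exp (-(r * u))) -
      m * r ^ 2 / 12 * (u ^ 2 * Real.exp (-(r * u))) +
      m * r ^ 4 / 288 * (u ^ 4 * Real.exp (-(r * u))) := by
    intro u hu
    set v := r * u with hv
    have hv0 : 0 < v := by positivity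
    set a := v / 6 with ha
    have ha0 : 0 < a := by positivity
    have h1 := G_exp2 hcont hconc hhom hsh hm hD.le u (1 + a) hu.le (by linarith)
    rw [← hmdef, ← hDdef, ← hrdef] at h1
    have h2 : (3 : ℝ) / 2 * ((1 + a) ^ 2 - 1) - r * (u * (1 + a)) =
        3 * a + 3 / 2 * a ^ 2 - v - v * a := by
      rw [hv]; ring
    push_cast at h1
    rw [h2] at h1
    -- (1 + a) ^ 3 ≥ exp (3 a - 3/2 a^2)
    have h3 : Real.exp (3 * a - 3 / 2 * a ^ 2) ≤ (1 + a) ^ 3 := by
      have h4 : a - a ^ 2 / 2 ≤ Real.log (1 + a) := log_lower a ha0.le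
      have h5 : Real.exp (a - a ^ 2 / 2) ≤ 1 + a := by
        rw [← Real.le_log_iff_exp_le (by linarith)]
        exact h4
      calc Real.exp (3 * a - 3 / 2 * a ^ 2) = Real.exp (a - a ^ 2 / 2) ^ 3 := by
            rw [← Real.exp_nat_mul]
            congr 1
            push_cast
            ring
        _ ≤ (1 + a) ^ 3 := pow_le_pow_left₀ (Real.exp_pos _).le h5 3
    have h6 : G 3 Δ u ≤ m * Real.exp (-v - v ^ 2 / 12) := by
      have h7 : Real.exp (3 * a - 3 / 2 * a ^ 2) * G 3 Δ u ≤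
          m * Real.exp (3 * a + 3 / 2 * a ^ 2 - v - v * a) :=
        (mul_le_mul_of_nonneg_right h3 (G_nonneg _ _ _)).trans h1
      have h8 : m * Real.exp (3 * a + 3 / 2 * a ^ 2 - v - v * a) =
          Real.exp (3 * a - 3 / 2 * a ^ 2) * (m * Real.exp (-v - v ^ 2 / 12)) := by
        have : 3 * a + 3 / 2 * a ^ 2 - v - v * a =
          (3 * a - 3 / 2 * a ^ 2) + (-v - v ^ 2 / 12) := by
          rw [ha]; ring
        rw [this, Real.exp_add]
        ring
      rw [h8] at h7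
      exact le_of_mul_le_mul_left h7 (Real.exp_pos _)
    have h9 : Real.exp (-(v ^ 2 / 12)) ≤ 1 - v ^ 2 / 12 + (v ^ 2 / 12) ^ 2 / 2 :=
      exp_neg_le (v ^ 2 / 12) (by positivity)
    calc G 3 Δ u ≤ m * Real.exp (-v - v ^ 2 / 12) := h6
      _ = m * (Real.exp (-v) * Real.exp (-(v ^ 2 / 12))) := by
          rw [← Real.exp_add]; congr 2
      _ ≤ m * (Real.exp (-v) * (1 - v ^ 2 / 12 + (v ^ 2 / 12) ^ 2 / 2)) := by gcongr
      _ = _ := by rw [hv]; ring
  have hint : IntegrableOn (fun u => m * (u ^ 0 * Real.exp (-(r * u))) -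
      m * r ^ 2 / 12 * (u ^ 2 * Real.exp (-(r * u))) +
      m * r ^ 4 / 288 * (u ^ 4 * Real.exp (-(r * u)))) (Set.Ioi 0) :=
    ((hi0.const_mul m).sub (hi2.const_mul _)).add (hi4.const_mul _)
  have h1 := pos_part hcont _ hB hint
  rw [integral_add, integral_sub, integral_const_mul, integral_const_mul, integral_const_mul,
    hv0, hv2, hv4] at h1
  · calc D * ∫ x, max (Δ x) 0 ∂gam 3 ≤ D * (m * (((0 : ℕ).factorial : ℝ) / r ^ (0 + 1)) -
        m * r ^ 2 / 12 * (((2 : ℕ).factorial : ℝ) / r ^ (2 + 1)) +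
        m * r ^ 4 / 288 * (((4 : ℕ).factorial : ℝ) / r ^ (4 + 1))) := by gcongr
      _ = D * (m * (11 / 12) / r) := by
        rw [show Nat.factorial 4 = 24 from rfl, show Nat.factorial 2 = 2 from rfl,
          show Nat.factorial 0 = 1 from rfl]
        push_cast
        field_simp
        ring
      _ = 11 / 12 * m ^ 2 := by
        rw [hrdef]
        field_simp
  · exact hi0.const_mul m
  · exact hi2.const_mul _
  · exact (hi0.const_mul m).sub (hi2.const_mul _)
  · exact hi4.const_mul _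

end Crest.Agent.R215.T6
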