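import Crest.Agent.R215.Dens

/-! Row 215, piece T7: the boundary measure (helper72). -/

set_option autoImplicit false
open MeasureTheory ProbabilityTheory Set Filter Topology
open scoped RealInnerProductSpace ENNReal

namespace Crest.Agent.R215.T7

variable {n : ℕ}

/-- projection onto `{Δ = 0}` along `y` -/
noncomputable def Ps (Δ : Eu n → ℝ) (y : Eu n) (x : Eu n) : Eu n := x - Δ x • y

/-- the slab `0 ≤ Δ ≤ 1` -/
def S (Δ : Eu n → ℝ) : Set (Eu n) := {x | Δ x ∈ Icc (0:ℝ) 1}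

theorem Ps_continuous {Δ : Eu n → ℝ} (hcont : Continuous Δ) (y : Eu n) : Continuous (Ps Δ y) := by
  unfold Ps; fun_prop

theorem S_meas {Δ : Eu n → ℝ} (hcont : Continuous Δ) : MeasurableSet (S Δ) :=
  (measurableSet_Icc).preimage hcont.measurable

theorem Del_Ps {Δ : Eu n → ℝ} {y : Eu n} (hsh : ∀ x (t : ℝ), Δ (x + t • y) = Δ x + t) (x : Eu n) :
    Δ (Ps Δ y x) = 0 := by
  have : Ps Δ y x = x + (-Δ x) • y := by simp [Ps, sub_eq_add_neg]
  rw [this, hsh]; ring

theorem Ps_shift {Δ : Eu n → ℝ} {y : Eu n} (hsh : ∀ x (t : ℝ), Δ (x + t • y) = Δ x + t) (x : Eu n)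
    (t : ℝ) : Ps Δ y (x + t • y) = Ps Δ y x := by
  simp only [Ps, hsh]; module

theorem Ps_Ps {Δ : Eu n → ℝ} {y : Eu n} (hsh : ∀ x (t : ℝ), Δ (x + t • y) = Δ x + t) (x : Eu n) :
    Ps Δ y (Ps Δ y x) = Ps Δ y x := by
  rw [Ps, Del_Ps hsh]; simp

theorem key {Δ : Eu n → ℝ} {y : Eu n} (hcont : Continuous Δ)
    (hsh : ∀ x (t : ℝ), Δ (x + t • y) = Δ x + t) :
    Measure.map (fun p : Eu n × ℝ => Ps Δ y p.1 + p.2 • y)
      (((volume : Measure (Eu n)).restrict (S Δ)).prod (volume : Measure ℝ)) =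
      (volume : Measure (Eu n)) := by
  have hPc := Ps_continuous hcont y
  have hS := S_meas hcont
  refine Measure.ext_of_lintegral _ fun f hf => ?_
  have hm : Measurable (fun p : Eu n × ℝ => Ps Δ y p.1 + p.2 • y) := by
    apply Continuous.measurable; fun_prop
  rw [lintegral_map hf hm, lintegral_prod (fun p : Eu n × ℝ => f (Ps Δ y p.1 + p.2 • y)) (hf.comp hm).aemeasurable]
  have h1 : ∀ x, ∫⁻ t : ℝ, f (Ps Δ y x + t • y) = ∫⁻ t : ℝ, f (x + t • y) := by
    intro x
    rw [← lintegral_add_right_eq_self (μ := (volume : Measure ℝ)) (fun t : ℝ => f (x + t • y)) (-(Δ x))]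
    congr 1; ext t; congr 1; simp only [Ps]; module
  simp_rw [h1]
  rw [← lintegral_indicator hS]
  have hm1 : Measurable (fun p : Eu n × ℝ => f (p.1 + p.2 • y)) := by
    apply hf.comp; apply Continuous.measurable; fun_prop
  have hm2 : Measurable (fun p : Eu n × ℝ => (S Δ).indicator (1 : Eu n → ℝ≥0∞) p.1) :=
    (measurable_one.indicator hS).comp measurable_fst
  have hm3 : Measurable (fun p : Eu n × ℝ => (S Δ).indicator (1 : Eu n → ℝ≥0∞) (p.1 - p.2 • y)) := by
    apply (measurable_one.indicator hS).comp; apply Continuous.measurable; fun_prop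
  have h2 : ∀ x, (S Δ).indicator (fun x => ∫⁻ t : ℝ, f (x + t • y)) x
      = ∫⁻ t : ℝ, (S Δ).indicator (1 : Eu n → ℝ≥0∞) x * f (x + t • y) := by
    intro x
    by_cases hx : x ∈ S Δ <;> simp [hx]
  simp_rw [h2]
  rw [lintegral_lintegral_swap (by exact (hm2.mul hm1).aemeasurable)]
  have h3 : ∀ t : ℝ, ∫⁻ x, (S Δ).indicator (1 : Eu n → ℝ≥0∞) x * f (x + t • y) =
      ∫⁻ x, (S Δ).indicator (1 : Eu n → ℝ≥0∞) (x - t • y) * f x := by
    intro t
    rw [← lintegral_sub_right_eq_self (μ := (volume : Measure (Eu n))) _ (t • y)]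
    simp
  simp_rw [h3]
  rw [lintegral_lintegral_swap (by
    exact ((hm3.mul (hf.comp measurable_fst)).comp measurable_swap).aemeasurable)]
  congr 1; ext x
  have h4 : ∀ t : ℝ, (S Δ).indicator (1 : Eu n → ℝ≥0∞) (x - t • y) * f x =
      (Icc (Δ x - 1) (Δ x)).indicator (fun _ => f x) t := by
    intro t
    have : Δ (x - t • y) = Δ x - t := by
      rw [sub_eq_add_neg, ← neg_smul, hsh]; ring
    by_cases ht : t ∈ Icc (Δ x - 1) (Δ x)
    · have : x - t • y ∈ S Δ := by
        simp only [S, mem_ofPred_eq, this, mem_Icc] at *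
        constructor <;> linarith [ht.1, ht.2]
      simp [this, ht]
    · have : x - t • y ∉ S Δ := by
        intro h
        apply ht
        simp only [S, mem_ofPred_eq, this, mem_Icc] at *
        constructor <;> linarith [h.1, h.2]
      simp [this, ht]
  simp_rw [h4]
  rw [lintegral_indicator measurableSet_Icc]
  simp


/-- the boundary measure -/
noncomputable def nu (Δ : Eu n → ℝ) (y : Eu n) : Measure (Eu n) :=
  Measure.map (Ps Δ y) (((volume : Measure (Eu n)).restrict (S Δ)).withDensity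
    (fun x => ENNReal.ofReal (dens n (Ps Δ y x))))

theorem lintegral_nu {Δ : Eu n → ℝ} {y : Eu n} (hcont : Continuous Δ) {h : Eu n → ℝ≥0∞}
    (hh : Measurable h) :
    ∫⁻ x, h x ∂(nu Δ y) = ∫⁻ x in S Δ, ENNReal.ofReal (dens n (Ps Δ y x)) * h (Ps Δ y x) := by
  have hPc := Ps_continuous hcont y
  have hm : Measurable (fun x => ENNReal.ofReal (dens n (Ps Δ y x))) :=
    (((dens_continuous n).comp hPc).measurable.ennreal_ofReal)
  rw [nu, lintegral_map hh hPc.measurable]
  exact lintegral_withDensity_eq_lintegral_mul _ hm (hh.comp hPc.measurable)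

theorem integral_nu {Δ : Eu n → ℝ} {y : Eu n} (hcont : Continuous Δ) {h : Eu n → ℝ}
    (hh : Measurable h) :
    ∫ x, h x ∂(nu Δ y) = ∫ x in S Δ, dens n (Ps Δ y x) * h (Ps Δ y x) := by
  have hPc := Ps_continuous hcont y
  have hm : Measurable (fun x => ENNReal.ofReal (dens n (Ps Δ y x))) :=
    (((dens_continuous n).comp hPc).measurable.ennreal_ofReal)
  rw [nu, integral_map hPc.aemeasurable hh.aestronglyMeasurable]
  rw [integral_withDensity_eq_integral_toReal_smul hm
    (Filter.Eventually.of_forall fun x => ENNReal.ofReal_lt_top)]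
  congr 1; ext x
  rw [ENNReal.toReal_ofReal (dens_pos n _).le, smul_eq_mul]

theorem integrable_nu {Δ : Eu n → ℝ} {y : Eu n} (hcont : Continuous Δ) {h : Eu n → ℝ}
    (hh : Measurable h)
    (hi : IntegrableOn (fun x => dens n (Ps Δ y x) * h (Ps Δ y x)) (S Δ)) :
    Integrable h (nu Δ y) := by
  have hPc := Ps_continuous hcont y
  have hm : Measurable (fun x => ENNReal.ofReal (dens n (Ps Δ y x))) :=
    (((dens_continuous n).comp hPc).measurable.ennreal_ofReal)
  rw [nu, integrable_map_measure hh.aestronglyMeasurable hPc.aemeasurable]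
  rw [integrable_withDensity_iff_integrable_smul' hm
    (Filter.Eventually.of_forall fun x => ENNReal.ofReal_lt_top)]
  refine hi.congr (Filter.Eventually.of_forall fun x => ?_)
  simp only [Function.comp_apply]
  rw [ENNReal.toReal_ofReal (dens_pos n _).le, smul_eq_mul]

theorem bound {Δ : Eu n → ℝ} {y : Eu n} {x : Eu n} (hx : x ∈ S Δ) :
    dens n (Ps Δ y x) * (1 + ‖Ps Δ y x‖ ^ 2) ≤
      ((2 * Real.pi) ^ (-((n : ℝ) / 2)) * (4 * Real.exp (‖y‖ ^ 2 / 4))) *
        Real.exp (-(1 / 8) * ‖x‖ ^ 2) := by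
  set w := Ps Δ y x with hw
  have hc : (0:ℝ) < (2 * Real.pi) ^ (-((n : ℝ) / 2)) := by positivity
  have hx' : x = w + Δ x • y := by simp [hw, Ps]
  have h1 : ‖x‖ ≤ ‖w‖ + ‖y‖ := by
    have h0 : ‖x‖ ≤ ‖w‖ + ‖Δ x • y‖ := by
      calc ‖x‖ = ‖w + Δ x • y‖ := by rw [← hx']
        _ ≤ _ := norm_add_le _ _
    have h2 : ‖Δ x • y‖ ≤ ‖y‖ := by
      rw [norm_smul, Real.norm_eq_abs, abs_of_nonneg hx.1]
      exact mul_le_of_le_one_left (norm_nonneg _) hx.2
    linarith
  have h2 : ‖x‖ ^ 2 ≤ 2 * ‖w‖ ^ 2 + 2 * ‖y‖ ^ 2 := by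
    have := norm_nonneg x
    nlinarith [sq_nonneg (‖w‖ - ‖y‖), norm_nonneg w, norm_nonneg y]
  have h3 : 1 + ‖w‖ ^ 2 ≤ 4 * Real.exp (‖w‖ ^ 2 / 4) := by
    have := Real.add_one_le_exp (‖w‖ ^ 2 / 4)
    linarith
  unfold dens
  calc (2 * Real.pi) ^ (-((n : ℝ) / 2)) * Real.exp (-(1 / 2) * ‖w‖ ^ 2) * (1 + ‖w‖ ^ 2)
      ≤ (2 * Real.pi) ^ (-((n : ℝ) / 2)) * Real.exp (-(1 / 2) * ‖w‖ ^ 2) *
        (4 * Real.exp (‖w‖ ^ 2 / 4)) := by gcongr
    _ = (2 * Real.pi) ^ (-((n : ℝ) / 2)) * 4 * Real.exp (-(1 / 4) * ‖w‖ ^ 2) := by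
        rw [show -(1 / 4 : ℝ) * ‖w‖ ^ 2 = -(1 / 2) * ‖w‖ ^ 2 + ‖w‖ ^ 2 / 4 by ring, Real.exp_add]
        ring
    _ ≤ (2 * Real.pi) ^ (-((n : ℝ) / 2)) * 4 * Real.exp (‖y‖ ^ 2 / 4 + -(1 / 8) * ‖x‖ ^ 2) := by
        gcongr; linarith
    _ = _ := by rw [Real.exp_add]; ring

theorem intS {Δ : Eu n → ℝ} {y : Eu n} (hcont : Continuous Δ) :
    IntegrableOn (fun x => dens n (Ps Δ y x) * (1 + ‖Ps Δ y x‖ ^ 2)) (S Δ) := by
  have hPc := Ps_continuous hcont y
  have hdc := dens_continuous n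
  refine Integrable.mono' (((integrable_exp_neg_sq n
    (by norm_num : (0:ℝ) < 1 / 8)).const_mul
      ((2 * Real.pi) ^ (-((n : ℝ) / 2)) * (4 * Real.exp (‖y‖ ^ 2 / 4)))).integrableOn) ?_ ?_
  · apply Continuous.aestronglyMeasurable; fun_prop
  · refine (ae_restrict_iff' (S_meas hcont)).2 (Filter.Eventually.of_forall fun x hx => ?_)
    rw [Real.norm_of_nonneg (mul_nonneg (dens_pos n _).le (by positivity))]
    exact bound hx

theorem intS0 {Δ : Eu n → ℝ} {y : Eu n} (hcont : Continuous Δ) :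
    IntegrableOn (fun x => dens n (Ps Δ y x)) (S Δ) := by
  have hPc := Ps_continuous hcont y
  have hdc := dens_continuous n
  refine (intS (y := y) hcont).mono' (Continuous.aestronglyMeasurable (by fun_prop))
    (Filter.Eventually.of_forall fun x => ?_)
  rw [Real.norm_of_nonneg (dens_pos n _).le]
  have := (dens_pos n (Ps Δ y x)).le
  nlinarith [sq_nonneg (‖Ps Δ y x‖), mul_nonneg this (sq_nonneg (‖Ps Δ y x‖))]

theorem intS2 {Δ : Eu n → ℝ} {y : Eu n} (hcont : Continuous Δ) :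
    IntegrableOn (fun x => dens n (Ps Δ y x) * ‖Ps Δ y x‖ ^ 2) (S Δ) := by
  have hPc := Ps_continuous hcont y
  have hdc := dens_continuous n
  refine (intS (y := y) hcont).mono' (Continuous.aestronglyMeasurable (by fun_prop))
    (Filter.Eventually.of_forall fun x => ?_)
  have := (dens_pos n (Ps Δ y x)).le
  rw [Real.norm_of_nonneg (mul_nonneg this (sq_nonneg _))]
  nlinarith [sq_nonneg (‖Ps Δ y x‖), mul_nonneg this (sq_nonneg (‖Ps Δ y x‖))]

theorem nu_univ {Δ : Eu n → ℝ} {y : Eu n} (hcont : Continuous Δ) :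
    (nu Δ y) Set.univ = ENNReal.ofReal (∫ x in S Δ, dens n (Ps Δ y x)) := by
  have h := lintegral_nu (Δ := Δ) (y := y) hcont (h := fun _ => 1) measurable_const
  simp only [lintegral_const, one_mul, mul_one] at h
  rw [h, ofReal_integral_eq_lintegral_ofReal (intS0 hcont)
    (Filter.Eventually.of_forall fun x => (dens_pos n _).le)]

theorem nu_real {Δ : Eu n → ℝ} {y : Eu n} (hcont : Continuous Δ) :
    (nu Δ y).real Set.univ = ∫ x in S Δ, dens n (Ps Δ y x) := by
  rw [Measure.real, nu_univ hcont, ENNReal.toReal_ofReal]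
  exact integral_nonneg fun x => (dens_pos n _).le


theorem y_ne {Δ : Eu n → ℝ} {y : Eu n} (hsh : ∀ x (t : ℝ), Δ (x + t • y) = Δ x + t) : y ≠ 0 := by
  rintro rfl
  have := hsh 0 1
  simp at this

theorem dens_hasDeriv (w y : Eu n) (t : ℝ) :
    HasDerivAt (fun t : ℝ => -dens n (w + t • y))
      (inner ℝ (w + t • y) y * dens n (w + t • y)) t := by
  have h1 : HasDerivAt (fun t : ℝ => w + t • y) y t := by
    simpa using ((hasDerivAt_id t).smul_const y).const_add w
  have h2 := (h1.norm_sq.const_mul (-(1 / 2 : ℝ))).exp.const_mul ((2 * Real.pi) ^ (-((n : ℝ) / 2)))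
  have h3 : HasDerivAt (fun t : ℝ => -((2 * Real.pi) ^ (-((n : ℝ) / 2)) *
      Real.exp (-(1 / 2) * ‖w + t • y‖ ^ 2))) _ t := h2.neg
  exact h3.congr_deriv (by unfold dens; ring)

theorem dens_tendsto (w : Eu n) {y : Eu n} (hy : y ≠ 0) :
    Tendsto (fun t : ℝ => -dens n (w + t • y)) atTop (𝓝 0) := by
  have h1 : Tendsto (fun t : ℝ => ‖w + t • y‖) atTop atTop := by
    refine tendsto_atTop_mono (f := fun t : ℝ => t * ‖y‖ - ‖w‖) (fun t => ?_) ?_
    · have h2 : ‖t • y‖ ≤ ‖w + t • y‖ + ‖w‖ := by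
        calc ‖t • y‖ = ‖(w + t • y) - w‖ := by congr 1; abel
          _ ≤ _ := norm_sub_le _ _
      have h3 : t * ‖y‖ ≤ ‖t • y‖ := by
        rw [norm_smul]
        exact mul_le_mul_of_nonneg_right (Real.le_norm_self t) (norm_nonneg _)
      linarith
    · exact tendsto_atTop_add_const_right _ _ (tendsto_id.atTop_mul_const (norm_pos_iff.2 hy))
  have h2 : Tendsto (fun r : ℝ => -((2 * Real.pi) ^ (-((n : ℝ) / 2)) *
      Real.exp (-(1 / 2) * r ^ 2))) atTop (𝓝 0) := by
    have h3 : Tendsto (fun r : ℝ => -(1 / 2 : ℝ) * r ^ 2) atTop atBot := by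
      apply Tendsto.const_mul_atTop_of_neg (by norm_num)
      exact tendsto_pow_atTop (by norm_num)
    have h4 := ((Real.tendsto_exp_atBot.comp h3).const_mul ((2 * Real.pi) ^ (-((n : ℝ) / 2)))).neg
    simpa using h4
  exact h2.comp h1

theorem map_meas {Δ : Eu n → ℝ} (hcont : Continuous Δ) (y : Eu n) :
    Continuous (fun p : Eu n × ℝ => Ps Δ y p.1 + p.2 • y) := by
  have := Ps_continuous hcont y
  fun_prop

/-- Bochner version of the key identity. -/
theorem key_integral {Δ : Eu n → ℝ} {y : Eu n} (hcont : Continuous Δ)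
    (hsh : ∀ x (t : ℝ), Δ (x + t • y) = Δ x + t) {f : Eu n → ℝ} (hf : Measurable f) :
    ∫ x, f x = ∫ p : Eu n × ℝ, f (Ps Δ y p.1 + p.2 • y)
      ∂(((volume : Measure (Eu n)).restrict (S Δ)).prod (volume : Measure ℝ)) := by
  conv_lhs => rw [← key hcont hsh]
  rw [integral_map (map_meas hcont y).aemeasurable hf.aestronglyMeasurable]

theorem key_integrable {Δ : Eu n → ℝ} {y : Eu n} (hcont : Continuous Δ)
    (hsh : ∀ x (t : ℝ), Δ (x + t • y) = Δ x + t) {f : Eu n → ℝ} (hf : Measurable f)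
    (hi : Integrable f) :
    Integrable (fun p : Eu n × ℝ => f (Ps Δ y p.1 + p.2 • y))
      (((volume : Measure (Eu n)).restrict (S Δ)).prod (volume : Measure ℝ)) := by
  rw [← key hcont hsh] at hi
  exact (integrable_map_measure hf.aestronglyMeasurable (map_meas hcont y).aemeasurable).1 hi

theorem integrable_dens_inner (v : Eu n) :
    Integrable (fun x : Eu n => inner ℝ x v * dens n x) := by
  have h : Integrable (fun x : Eu n => inner ℝ x v) (gam n) := by
    have := (IsGaussian.integrable_id (μ := gam n)).inner_const (𝕜 := ℝ) v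
    simpa using this
  rw [gam_eq, integrable_withDensity_iff_integrable_smul'
    ((dens_continuous n).measurable.ennreal_ofReal)
    (Filter.Eventually.of_forall fun x => ENNReal.ofReal_lt_top)] at h
  refine h.congr (Filter.Eventually.of_forall fun x => ?_)
  simp only
  rw [ENNReal.toReal_ofReal (dens_pos n _).le, smul_eq_mul, mul_comm]

theorem part_i {Δ : Eu n → ℝ} {y : Eu n} (hcont : Continuous Δ)
    (hsh : ∀ x (t : ℝ), Δ (x + t • y) = Δ x + t) :
    ∫ x in {x | 0 < Δ x}, inner ℝ x y ∂gam n = ∫ x in S Δ, dens n (Ps Δ y x) := by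
  have hpos : MeasurableSet {x | 0 < Δ x} := measurableSet_lt measurable_const hcont.measurable
  have hy := y_ne hsh
  set f : Eu n → ℝ := ({x | 0 < Δ x}).indicator (fun x => inner ℝ x y * dens n x) with hfdef
  have hfm : Measurable f := by
    apply Measurable.indicator _ hpos
    have := dens_continuous n
    apply Continuous.measurable; fun_prop
  have hfi : Integrable f := (integrable_dens_inner y).indicator hpos
  have h1 : ∫ x in {x | 0 < Δ x}, inner ℝ x y ∂gam n = ∫ x, f x := by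
    rw [gam_eq, setIntegral_withDensity_eq_setIntegral_toReal_smul
      ((dens_continuous n).measurable.ennreal_ofReal)
      (Filter.Eventually.of_forall fun x => ENNReal.ofReal_lt_top) _ hpos]
    rw [hfdef, integral_indicator hpos]
    congr 1; ext x
    rw [ENNReal.toReal_ofReal (dens_pos n _).le, smul_eq_mul, mul_comm]
  have h2 := key_integrable hcont hsh hfm hfi
  rw [h1, key_integral hcont hsh hfm, integral_prod _ h2]
  refine integral_congr_ae ?_
  filter_upwards [h2.prod_right_ae] with x hx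
  have h3 : ∀ t : ℝ, f (Ps Δ y x + t • y) =
      (Ioi (0:ℝ)).indicator (fun t => inner ℝ (Ps Δ y x + t • y) y * dens n (Ps Δ y x + t • y)) t := by
    intro t
    have h4 : Δ (Ps Δ y x + t • y) = t := by rw [hsh, Del_Ps hsh]; ring
    by_cases ht : 0 < t
    · rw [indicator_of_mem (by exact ht), hfdef, indicator_of_mem (by
        show 0 < Δ _; rw [h4]; exact ht)]
    · rw [indicator_of_notMem (by exact ht), hfdef, indicator_of_notMem (by
        show ¬ (0 < Δ _); rw [h4]; exact ht)]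
  simp_rw [h3] at hx ⊢
  rw [integral_indicator measurableSet_Ioi]
  rw [integrable_indicator_iff measurableSet_Ioi] at hx
  rw [integral_Ioi_of_hasDerivAt_of_tendsto' (a := 0) (fun t _ => dens_hasDeriv (Ps Δ y x) y t) hx
    (dens_tendsto (Ps Δ y x) hy)]
  simp


theorem Ps_smul {Δ : Eu n → ℝ} {y : Eu n}
    (hhom : ∀ x (t : ℝ), 0 ≤ t → Δ (t • x) = t * Δ x) (x : Eu n) {l : ℝ} (hl : 0 ≤ l) :
    Ps Δ y (l • x) = l • Ps Δ y x := by
  simp only [Ps, hhom x l hl]; module

theorem slab {Δ : Eu n → ℝ} {y : Eu n} (hcont : Continuous Δ)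
    (hsh : ∀ x (t : ℝ), Δ (x + t • y) = Δ x + t) {l : ℝ} (hl : 0 ≤ l) :
    ∫ x, ({x | Δ x ∈ Icc 0 l}).indicator (fun x => dens n (Ps Δ y x)) x =
      l * ∫ x in S Δ, dens n (Ps Δ y x) := by
  have hPc := Ps_continuous hcont y
  have hdc := dens_continuous n
  have hms : MeasurableSet {x | Δ x ∈ Icc 0 l} := measurableSet_Icc.preimage hcont.measurable
  have hm : Measurable (({x | Δ x ∈ Icc 0 l}).indicator (fun x => dens n (Ps Δ y x))) := by
    apply Measurable.indicator _ hms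
    apply Continuous.measurable; fun_prop
  rw [key_integral hcont hsh hm]
  have h1 : ∀ p : Eu n × ℝ,
      ({x | Δ x ∈ Icc 0 l}).indicator (fun x => dens n (Ps Δ y x)) (Ps Δ y p.1 + p.2 • y) =
      dens n (Ps Δ y p.1) * (Icc (0:ℝ) l).indicator 1 p.2 := by
    intro p
    have h4 : Δ (Ps Δ y p.1 + p.2 • y) = p.2 := by rw [hsh, Del_Ps hsh]; ring
    have h5 : Ps Δ y (Ps Δ y p.1 + p.2 • y) = Ps Δ y p.1 := by rw [Ps_shift hsh, Ps_Ps hsh]
    by_cases ht : p.2 ∈ Icc 0 l
    · have h6 : Ps Δ y p.1 + p.2 • y ∈ {x | Δ x ∈ Icc 0 l} := by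
        show Δ (Ps Δ y p.1 + p.2 • y) ∈ Icc 0 l
        rw [h4]; exact ht
      rw [indicator_of_mem h6, indicator_of_mem ht, h5]; simp
    · have h6 : Ps Δ y p.1 + p.2 • y ∉ {x | Δ x ∈ Icc 0 l} := by
        show Δ (Ps Δ y p.1 + p.2 • y) ∉ Icc 0 l
        rw [h4]; exact ht
      rw [indicator_of_notMem h6, indicator_of_notMem ht]; simp
  simp_rw [h1]
  rw [integral_prod_mul (fun x => dens n (Ps Δ y x)) ((Icc (0:ℝ) l).indicator 1),
    integral_indicator_one measurableSet_Icc]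
  simp [Measure.real, hl, mul_comm]

theorem scale {Δ : Eu n → ℝ} {y : Eu n} (hcont : Continuous Δ)
    (hhom : ∀ x (t : ℝ), 0 ≤ t → Δ (t • x) = t * Δ x)
    (hsh : ∀ x (t : ℝ), Δ (x + t • y) = Δ x + t) {l : ℝ} (hl : 0 < l) :
    l ^ n * ∫ x in S Δ, dens n (l • Ps Δ y x) = l * ∫ x in S Δ, dens n (Ps Δ y x) := by
  rw [← slab hcont hsh hl.le]
  rw [← integral_indicator (S_meas hcont)]
  have h1 : ∀ x, (S Δ).indicator (fun x => dens n (l • Ps Δ y x)) x =
      ({x | Δ x ∈ Icc 0 l}).indicator (fun x => dens n (Ps Δ y x)) (l • x) := by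
    intro x
    have h2 : Δ (l • x) = l * Δ x := hhom x l hl.le
    by_cases hx : x ∈ S Δ
    · have h3 : l • x ∈ {x | Δ x ∈ Icc 0 l} := by
        show Δ (l • x) ∈ Icc 0 l
        rw [h2]
        exact ⟨mul_nonneg hl.le hx.1, mul_le_of_le_one_right hl.le hx.2⟩
      rw [indicator_of_mem hx, indicator_of_mem h3, Ps_smul hhom x hl.le]
    · have h3 : l • x ∉ {x | Δ x ∈ Icc 0 l} := by
        intro h
        have h' : Δ (l • x) ∈ Icc 0 l := h
        rw [h2] at h'
        apply hx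
        exact ⟨nonneg_of_mul_nonneg_right h'.1 hl, le_of_mul_le_mul_left (by linarith [h'.2]) hl⟩
      rw [indicator_of_notMem hx, indicator_of_notMem h3]
  simp_rw [h1]
  rw [Measure.integral_comp_smul (volume : Measure (Eu n))]
  simp only [finrank_euclideanSpace, Fintype.card_fin, smul_eq_mul]
  rw [abs_of_pos (by positivity), ← mul_assoc, mul_inv_cancel₀ (by positivity), one_mul]

theorem dens_smul_ge (w : Eu n) {l : ℝ} :
    dens n w - (l ^ 2 - 1) / 2 * (dens n w * ‖w‖ ^ 2) ≤ dens n (l • w) := by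
  have hc : (0:ℝ) < (2 * Real.pi) ^ (-((n : ℝ) / 2)) := by positivity
  unfold dens
  rw [norm_smul, mul_pow, Real.norm_eq_abs, sq_abs]
  have h1 : Real.exp (-(1 / 2) * (l ^ 2 * ‖w‖ ^ 2)) = Real.exp (-(1 / 2) * ‖w‖ ^ 2) *
      Real.exp (-((l ^ 2 - 1) / 2 * ‖w‖ ^ 2)) := by
    rw [← Real.exp_add]; congr 1; ring
  rw [h1]
  have h2 := Real.add_one_le_exp (-((l ^ 2 - 1) / 2 * ‖w‖ ^ 2))
  have h3 := Real.exp_pos (-(1 / 2) * ‖w‖ ^ 2)
  have h4 := mul_le_mul_of_nonneg_left h2 (mul_pos hc h3).le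
  linarith

theorem dens_smul_le (w : Eu n) {l : ℝ} (hl : 1 ≤ l) : dens n (l • w) ≤ dens n w := by
  unfold dens
  rw [norm_smul, mul_pow, Real.norm_eq_abs, sq_abs]
  have : 1 ≤ l ^ 2 := one_le_pow₀ hl
  gcongr (2 * Real.pi) ^ (-((n : ℝ) / 2)) * Real.exp ?_
  nlinarith [sq_nonneg ‖w‖]

theorem part_iv {Δ : Eu n → ℝ} {y : Eu n} (hcont : Continuous Δ)
    (hhom : ∀ x (t : ℝ), 0 ≤ t → Δ (t • x) = t * Δ x)
    (hsh : ∀ x (t : ℝ), Δ (x + t • y) = Δ x + t) :
    ((n : ℝ) - 1) * ∫ x in S Δ, dens n (Ps Δ y x) ≤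
      ∫ x in S Δ, dens n (Ps Δ y x) * ‖Ps Δ y x‖ ^ 2 := by
  have hPc := Ps_continuous hcont y
  have hdc := dens_continuous n
  set T1 := ∫ x in S Δ, dens n (Ps Δ y x) with hT1
  set T2 := ∫ x in S Δ, dens n (Ps Δ y x) * ‖Ps Δ y x‖ ^ 2 with hT2
  have hT1n : 0 ≤ T1 := integral_nonneg fun x => (dens_pos n _).le
  have hT2n : 0 ≤ T2 := integral_nonneg fun x => mul_nonneg (dens_pos n _).le (sq_nonneg _)
  have hn : n ≠ 0 := by
    rintro rfl
    exact y_ne hsh (Subsingleton.elim _ _)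
  obtain ⟨m, rfl⟩ : ∃ m, n = m + 1 := ⟨n - 1, by omega⟩
  have main : ∀ ε : ℝ, 0 < ε → (m : ℝ) * T1 ≤ (1 + ε / 2) * (1 + m * ε) * T2 := by
    intro ε hε
    set l : ℝ := 1 + ε with hl
    have hl1 : 1 ≤ l := by linarith
    have hl0 : 0 < l := by linarith
    have hs := scale hcont hhom hsh hl0
    rw [← hT1] at hs
    have hint : IntegrableOn (fun x => dens (m+1) (l • Ps Δ y x)) (S Δ) := by
      refine (intS0 (y := y) hcont).mono' (Continuous.aestronglyMeasurable (by fun_prop))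
        (Filter.Eventually.of_forall fun x => ?_)
      rw [Real.norm_of_nonneg (dens_pos _ _).le]
      exact dens_smul_le _ hl1
    have h1 : T1 - (l ^ 2 - 1) / 2 * T2 ≤ ∫ x in S Δ, dens (m+1) (l • Ps Δ y x) := by
      rw [hT1, hT2, ← integral_const_mul, ← integral_sub (intS0 hcont)
        ((intS2 hcont).const_mul _)]
      refine integral_mono ((intS0 hcont).sub ((intS2 hcont).const_mul _)) hint fun x => ?_
      exact dens_smul_ge _
    have h2 : l ^ (m + 1) * (T1 - (l ^ 2 - 1) / 2 * T2) ≤ l * T1 := by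
      rw [← hs]; exact mul_le_mul_of_nonneg_left h1 (by positivity)
    have h3 : l ^ m * (T1 - (l ^ 2 - 1) / 2 * T2) ≤ T1 := by
      rw [pow_succ] at h2
      have : l * (l ^ m * (T1 - (l ^ 2 - 1) / 2 * T2)) ≤ l * T1 := by linarith
      exact le_of_mul_le_mul_left this hl0
    have h4 : 1 + (m : ℝ) * ε ≤ l ^ m := by
      have := one_add_mul_le_pow (a := ε) (by linarith) m
      simpa [hl] using this
    have h5 : (l ^ 2 - 1) / 2 = ε * (1 + ε / 2) := by rw [hl]; ring
    rw [h5] at h3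
    by_cases h6 : 0 ≤ T1 - ε * (1 + ε / 2) * T2
    · have h7 : (1 + (m : ℝ) * ε) * (T1 - ε * (1 + ε / 2) * T2) ≤ T1 :=
        le_trans (mul_le_mul_of_nonneg_right h4 h6) h3
      have h8 : ε * ((m : ℝ) * T1) ≤ ε * ((1 + ε / 2) * (1 + m * ε) * T2) := by nlinarith
      exact le_of_mul_le_mul_left h8 hε
    · rw [not_le] at h6
      have h7 : (m : ℝ) * T1 ≤ m * (ε * (1 + ε / 2) * T2) :=
        mul_le_mul_of_nonneg_left (by linarith) (Nat.cast_nonneg m)
      have h8 : 0 ≤ (1 + ε / 2) * T2 := by positivity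
      nlinarith
  have hlim : Tendsto (fun ε : ℝ => (1 + ε / 2) * (1 + m * ε) * T2) (𝓝[>] 0)
      (𝓝 ((1 + 0 / 2) * (1 + m * 0) * T2)) := by
    apply tendsto_nhdsWithin_of_tendsto_nhds
    apply Continuous.tendsto
    fun_prop
  have := ge_of_tendsto hlim (by
    filter_upwards [self_mem_nhdsWithin] with ε hε
    exact main ε hε)
  push_cast
  simpa using this


theorem tent_integrable (a : ℝ) : Integrable (fun r : ℝ => max (a - |r|) 0) := by
  apply Continuous.integrable_of_hasCompactSupport (by fun_prop)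
  refine HasCompactSupport.intro (isCompact_Icc (a := -|a|) (b := |a|)) fun r hr => ?_
  apply max_eq_right
  by_contra h
  apply hr
  rw [not_le] at h
  have h1 : |r| ≤ |a| := by linarith [le_abs_self a]
  exact ⟨(abs_le.1 h1).1, (abs_le.1 h1).2⟩

theorem tent_integral {a : ℝ} (ha : 0 ≤ a) : ∫ r : ℝ, max (a - |r|) 0 = a ^ 2 := by
  rw [integral_comp_abs (f := fun r => max (a - r) 0)]
  have h1 : ∫ x in Ioi (0:ℝ), max (a - x) 0 = ∫ x in Ioc (0:ℝ) a, max (a - x) 0 := by
    refine setIntegral_eq_of_subset_of_forall_sdiff_eq_zero measurableSet_Ioi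
      (fun x hx => hx.1) (fun x hx => ?_)
    apply max_eq_right
    have h2 : ¬ x ≤ a := fun h => hx.2 ⟨hx.1, h⟩
    linarith [not_le.1 h2]
  have h2 : ∫ x in Ioc (0:ℝ) a, max (a - x) 0 = ∫ x in Ioc (0:ℝ) a, (a - x) := by
    refine setIntegral_congr_fun measurableSet_Ioc fun x hx => ?_
    exact max_eq_left (by linarith [hx.2])
  rw [h1, h2, ← intervalIntegral.integral_of_le ha]
  rw [intervalIntegral.integral_sub (by simp) (by simp)]
  simp
  ring

theorem tent_lintegral {a d : ℝ} (ha : 0 ≤ a) (hd : 0 ≤ d) :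
    ∫⁻ r : ℝ, ENNReal.ofReal (max (a - |r|) 0 * d) = ENNReal.ofReal (d * a ^ 2) := by
  rw [← ofReal_integral_eq_lintegral_ofReal ((tent_integrable a).mul_const d)
    (Filter.Eventually.of_forall fun r => mul_nonneg (le_max_right _ _) hd), integral_mul_const,
    tent_integral ha, mul_comm]

/-- rescaled integrand -/
noncomputable def Phi (Δ : Eu n → ℝ) (y v : Eu n) (s : ℝ) (p : Eu n × ℝ) : ℝ :=
  max (|inner ℝ (Ps Δ y p.1 + (s * p.2) • y) v| - |p.2|) 0 *
    dens n (Ps Δ y p.1 + (s * p.2) • y)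

theorem Phi_cont {Δ : Eu n → ℝ} (hcont : Continuous Δ) (y v : Eu n) (s : ℝ) :
    Continuous (Phi Δ y v s) := by
  have hPc := Ps_continuous hcont y
  have hdc := dens_continuous n
  unfold Phi
  fun_prop

theorem Phi_cont' {Δ : Eu n → ℝ} (y v : Eu n) (p : Eu n × ℝ) :
    Continuous (fun s => Phi Δ y v s p) := by
  have hdc := dens_continuous n
  unfold Phi
  fun_prop

theorem lintegral_scale {s : ℝ} (hs : 0 < s) {h : ℝ → ℝ≥0∞} (hh : Measurable h) :
    ∫⁻ t, h t = ENNReal.ofReal s * ∫⁻ r, h (s * r) := by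
  have h1 := Real.smul_map_volume_mul_left hs.ne'
  conv_lhs => rw [← h1]
  rw [lintegral_smul_measure, lintegral_map hh (measurable_const_mul s), abs_of_pos hs]
  rfl

theorem int_max {Δ : Eu n → ℝ} (hcont : Continuous Δ) (v : Eu n) (s : ℝ) :
    Integrable (fun x => max (s * |inner ℝ x v| - |Δ x|) 0) (gam n) := by
  have h : Integrable (fun x : Eu n => inner ℝ x v) (gam n) := by
    have := (IsGaussian.integrable_id (μ := gam n)).inner_const (𝕜 := ℝ) v
    simpa using this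
  refine (h.abs.const_mul |s|).mono' (Continuous.aestronglyMeasurable (by fun_prop))
    (Filter.Eventually.of_forall fun x => ?_)
  rw [Real.norm_of_nonneg (le_max_right _ _)]
  apply max_le
  · have := le_abs_self s
    have h2 := abs_nonneg (Δ x)
    have h3 := mul_le_mul_of_nonneg_right this (abs_nonneg (inner ℝ x v))
    linarith
  · positivity

theorem Phi_lintegral {Δ : Eu n → ℝ} {y : Eu n} (hcont : Continuous Δ)
    (hsh : ∀ x (t : ℝ), Δ (x + t • y) = Δ x + t) (v : Eu n) {s : ℝ} (hs : 0 < s) :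
    ENNReal.ofReal (s ^ 2) * ∫⁻ p, ENNReal.ofReal (Phi Δ y v s p)
        ∂(((volume : Measure (Eu n)).restrict (S Δ)).prod (volume : Measure ℝ)) =
      ENNReal.ofReal (∫ x, max (s * |inner ℝ x v| - |Δ x|) 0 ∂gam n) := by
  have hPc := Ps_continuous hcont y
  have hdc := dens_continuous n
  rw [ofReal_integral_eq_lintegral_ofReal (int_max hcont v s)
    (Filter.Eventually.of_forall fun x => le_max_right _ _)]
  have hm : Measurable (fun x : Eu n => ENNReal.ofReal (max (s * |inner ℝ x v| - |Δ x|) 0)) := by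
    apply Measurable.ennreal_ofReal
    apply Continuous.measurable; fun_prop
  have hm1 : Measurable (fun x : Eu n => ENNReal.ofReal (dens n x)) :=
    hdc.measurable.ennreal_ofReal
  rw [gam_eq, lintegral_withDensity_eq_lintegral_mul _ hm1 hm]
  conv_rhs => rw [← key hcont hsh]
  rw [lintegral_map (hm1.mul hm) (map_meas hcont y).measurable]
  rw [lintegral_prod (fun p : Eu n × ℝ => ((fun x : Eu n => ENNReal.ofReal (dens n x)) *
      fun x : Eu n => ENNReal.ofReal (max (s * |inner ℝ x v| - |Δ x|) 0)) (Ps Δ y p.1 + p.2 • y))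
      (((hm1.mul hm).comp (map_meas hcont y).measurable).aemeasurable),
    lintegral_prod _ ((Phi_cont hcont y v s).measurable.ennreal_ofReal.aemeasurable)]
  rw [← lintegral_const_mul _ (Measurable.lintegral_prod_right'
    (Phi_cont hcont y v s).measurable.ennreal_ofReal)]
  congr 1; ext x
  have hmt : Measurable (fun t : ℝ => ((fun x : Eu n => ENNReal.ofReal (dens n x)) *
      fun x : Eu n => ENNReal.ofReal (max (s * |inner ℝ x v| - |Δ x|) 0)) (Ps Δ y x + t • y)) := by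
    apply (hm1.mul hm).comp
    apply Continuous.measurable; fun_prop
  rw [lintegral_scale hs hmt]
  have h1 : ∀ r : ℝ, ((fun x : Eu n => ENNReal.ofReal (dens n x)) *
      fun x : Eu n => ENNReal.ofReal (max (s * |inner ℝ x v| - |Δ x|) 0))
        (Ps Δ y x + (s * r) • y) = ENNReal.ofReal s * ENNReal.ofReal (Phi Δ y v s (x, r)) := by
    intro r
    have h4 : Δ (Ps Δ y x + (s * r) • y) = s * r := by rw [hsh, Del_Ps hsh]; ring
    simp only [Pi.mul_apply, h4]
    rw [← ENNReal.ofReal_mul (dens_pos n _).le, ← ENNReal.ofReal_mul hs.le]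
    congr 1
    unfold Phi
    simp only
    have h5 : s * |inner ℝ (Ps Δ y x + (s * r) • y) v| - |s * r| =
        s * (|inner ℝ (Ps Δ y x + (s * r) • y) v| - |r|) := by
      rw [abs_mul, abs_of_pos hs]; ring
    rw [h5]
    have h6 : max (s * (|inner ℝ (Ps Δ y x + (s * r) • y) v| - |r|)) 0 =
        s * max (|inner ℝ (Ps Δ y x + (s * r) • y) v| - |r|) 0 := by
      rw [mul_max_of_nonneg _ _ hs.le, mul_zero]
    rw [h6]; ring
  simp_rw [h1]
  have hmr : Measurable (fun r : ℝ => ENNReal.ofReal (Phi Δ y v s (x, r))) :=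
    (Phi_cont hcont y v s).measurable.ennreal_ofReal.comp measurable_prodMk_left
  rw [lintegral_const_mul _ hmr, ← mul_assoc, ← ENNReal.ofReal_mul hs.le, pow_two]

theorem part_v {Δ : Eu n → ℝ} {y : Eu n} (hcont : Continuous Δ)
    (hsh : ∀ x (t : ℝ), Δ (x + t • y) = Δ x + t) (v : Eu n) (K : ℝ)
    (hK : ∀ s : ℝ, 0 < s → ∫ x, max (s * |inner ℝ x v| - |Δ x|) 0 ∂gam n ≤ K * s ^ 2) :
    ∫⁻ x in S Δ, ENNReal.ofReal (dens n (Ps Δ y x) * (inner ℝ (Ps Δ y x) v) ^ 2) ≤
      ENNReal.ofReal K := by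
  have hPc := Ps_continuous hcont y
  have hdc := dens_continuous n
  have h1 : ∀ s : ℝ, 0 < s → ∫⁻ p, ENNReal.ofReal (Phi Δ y v s p)
        ∂(((volume : Measure (Eu n)).restrict (S Δ)).prod (volume : Measure ℝ)) ≤
          ENNReal.ofReal K := by
    intro s hs
    have h2 := Phi_lintegral hcont hsh v hs
    have h3 : ENNReal.ofReal (s ^ 2) * ∫⁻ p, ENNReal.ofReal (Phi Δ y v s p)
        ∂(((volume : Measure (Eu n)).restrict (S Δ)).prod (volume : Measure ℝ)) ≤
        ENNReal.ofReal (s ^ 2) * ENNReal.ofReal K := by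
      rw [h2, ← ENNReal.ofReal_mul (by positivity), mul_comm (s ^ 2) K]
      exact ENNReal.ofReal_le_ofReal (hK s hs)
    exact (ENNReal.mul_le_mul_iff_right (by simpa using hs.ne') ENNReal.ofReal_ne_top).1 h3
  have h2 := lintegral_liminf_le (u := (atTop : Filter ℕ))
    (μ := ((volume : Measure (Eu n)).restrict (S Δ)).prod
    (volume : Measure ℝ)) (f := fun (k : ℕ) p => ENNReal.ofReal (Phi Δ y v (1 / ((k : ℝ) + 1)) p))
    (fun k => (Phi_cont hcont y v _).measurable.ennreal_ofReal)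
  have h3 : ∀ p, liminf (fun (k : ℕ) => ENNReal.ofReal (Phi Δ y v (1 / ((k : ℝ) + 1)) p)) atTop =
      ENNReal.ofReal (Phi Δ y v 0 p) := by
    intro p
    apply Tendsto.liminf_eq
    apply ENNReal.tendsto_ofReal
    exact ((Phi_cont' y v p).tendsto 0).comp tendsto_one_div_add_atTop_nhds_zero_nat
  simp_rw [h3] at h2
  have h4 : liminf (fun (k : ℕ) => ∫⁻ p, ENNReal.ofReal (Phi Δ y v (1 / ((k : ℝ) + 1)) p)
      ∂(((volume : Measure (Eu n)).restrict (S Δ)).prod (volume : Measure ℝ))) atTop ≤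
      ENNReal.ofReal K := by
    refine liminf_le_of_frequently_le' ?_
    exact Frequently.of_forall fun k => h1 _ (by positivity)
  have h5 := h2.trans h4
  rw [lintegral_prod _ ((Phi_cont hcont y v 0).measurable.ennreal_ofReal.aemeasurable)] at h5
  refine le_trans (le_of_eq ?_) h5
  congr 1; ext x
  have h6 : ∀ r : ℝ, Phi Δ y v 0 (x, r) =
      max (|inner ℝ (Ps Δ y x) v| - |r|) 0 * dens n (Ps Δ y x) := by
    intro r; simp [Phi]
  simp_rw [h6]
  rw [tent_lintegral (abs_nonneg _) (dens_pos n _).le, sq_abs]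


theorem exists_boundary (n : ℕ) (Δ : Eu n → ℝ) (y : Eu n) (hcont : Continuous Δ)
    (hhom : ∀ x (t : ℝ), 0 ≤ t → Δ (t • x) = t * Δ x)
    (hsh : ∀ x (t : ℝ), Δ (x + t • y) = Δ x + t) :
    ∃ ν : Measure (Eu n), IsFiniteMeasure ν ∧
      ν.real Set.univ = ∫ x in {x | 0 < Δ x}, inner ℝ x y ∂gam n ∧
      (∀ᵐ x ∂ν, Δ x = 0) ∧
      Integrable (fun x => ‖x‖ ^ 2) ν ∧
      ((n : ℝ) - 1) * ν.real Set.univ ≤ ∫ x, ‖x‖ ^ 2 ∂ν ∧
      ∀ (v : Eu n) (K : ℝ),
        (∀ s : ℝ, 0 < s → ∫ x, max (s * |inner ℝ x v| - |Δ x|) 0 ∂gam n ≤ K * s ^ 2) →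
        ∫ x, (inner ℝ x v) ^ 2 ∂ν ≤ K := by
  have hPc := Ps_continuous hcont y
  have hdc := dens_continuous n
  refine ⟨nu Δ y, ⟨?_⟩, ?_, ?_, ?_, ?_, ?_⟩
  · rw [nu_univ hcont]; exact ENNReal.ofReal_lt_top
  · rw [nu_real hcont, part_i hcont hsh]
  · have hmz : MeasurableSet {x | Δ x = 0} := by
      exact measurableSet_eq_fun hcont.measurable measurable_const
    rw [nu]
    rw [ae_map_iff hPc.aemeasurable hmz]
    exact Filter.Eventually.of_forall fun x => Del_Ps hsh x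
  · exact integrable_nu hcont (by fun_prop) (intS2 hcont)
  · rw [nu_real hcont, integral_nu hcont (by fun_prop)]
    exact part_iv hcont hhom hsh
  · intro v K hK
    have hK0 : 0 ≤ K := by
      have h1 := hK 1 one_pos
      have h2 : 0 ≤ ∫ x, max (1 * |inner ℝ x v| - |Δ x|) 0 ∂gam n :=
        integral_nonneg fun x => le_max_right _ _
      linarith
    rw [integral_nu hcont (by fun_prop)]
    have h1 := part_v hcont hsh v K hK
    rw [integral_eq_lintegral_of_nonneg_ae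
      (Filter.Eventually.of_forall fun x => mul_nonneg (dens_pos n _).le (sq_nonneg _))
      (Continuous.aestronglyMeasurable (by fun_prop))]
    exact ENNReal.toReal_le_of_le_ofReal hK0 h1

end Crest.Agent.R215.T7
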