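import Crest.Agent.R215.Defs
import Crest.Agent.R215.T0

/-! Row 215, piece T8: the second order condition `c3`. -/

set_option autoImplicit false
open MeasureTheory ProbabilityTheory
open scoped RealInnerProductSpace

namespace Crest.Agent.R215.T8

open Crest.Agent.R215.T0

/-- The statement of T7 (`exists_boundary`) in dimension `n`. -/
def BoundaryStmt (n : ℕ) : Prop :=
  ∀ (Δ : Eu n → ℝ) (y : Eu n), Continuous Δ →
    (∀ x (t : ℝ), 0 ≤ t → Δ (t • x) = t * Δ x) →
    (∀ x (t : ℝ), Δ (x + t • y) = Δ x + t) →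
    ∃ ν : Measure (Eu n), IsFiniteMeasure ν ∧
      ν.real Set.univ = ∫ x in {x | 0 < Δ x}, inner ℝ x y ∂gam n ∧
      (∀ᵐ x ∂ν, Δ x = 0) ∧
      Integrable (fun x => ‖x‖ ^ 2) ν ∧
      ((n : ℝ) - 1) * ν.real Set.univ ≤ ∫ x, ‖x‖ ^ 2 ∂ν ∧
      ∀ (v : Eu n) (K : ℝ),
        (∀ s : ℝ, 0 < s → ∫ x, max (s * |inner ℝ x v| - |Δ x|) 0 ∂gam n ≤ K * s ^ 2) →
        ∫ x, (inner ℝ x v) ^ 2 ∂ν ≤ K

/-- pointwise identity -/
lemma max_identity (a b : ℝ) :
    max (a + b) 0 + max (a + -b) 0 - 2 * max a 0 = max (|b| - |a|) 0 := by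
  rcases le_total 0 a with ha | ha <;> rcases le_total 0 b with hb | hb <;>
    rcases le_total 0 (a + b) with h1 | h1 <;> rcases le_total 0 (a + -b) with h2 | h2 <;>
    simp only [abs_of_nonneg, abs_of_nonpos, max_eq_left, max_eq_right, ha, hb, h1, h2]
  all_goals
    first
      | (rw [max_eq_left (by linarith)]; linarith)
      | (rw [max_eq_right (by linarith)]; linarith)

lemma V_nonneg {n : ℕ} {ι : Type} [Fintype ι] (w : ι → Eu n) : 0 ≤ V w := by
  unfold V
  by_cases hc : Fintype.card ι = 0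
  · simp [hc]
    exact Finset.sum_nonneg fun i _ => by positivity
  have hc' : (0 : ℝ) < Fintype.card ι := by positivity
  rw [sub_nonneg, div_le_iff₀ hc']
  calc ‖∑ i, w i‖ ^ 2 ≤ (∑ i, ‖w i‖) ^ 2 := by
        gcongr
        exact norm_sum_le _ _
    _ ≤ Fintype.card ι * ∑ i, ‖w i‖ ^ 2 := by
        simpa using sq_sum_le_card_mul_sum_sq (s := Finset.univ) (f := fun i => ‖w i‖)
    _ = _ := by ring

/-- sum of squares against the maximal coordinate -/
lemma sum_sq_le {m : ℕ} (X : Fin (m + 1) → ℝ) (hX : ∑ j, X j = 0) (i : Fin (m + 1))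
    (hi : ∀ j, X j ≤ X i) :
    ∑ j, X j ^ 2 ≤ ((m : ℝ) + 1) * m * X i ^ 2 := by
  have h1 : ∑ j, (X i - X j) = ((m : ℝ) + 1) * X i := by
    rw [Finset.sum_sub_distrib, hX]; simp
  have h2 : ∑ j, (X i - X j) ^ 2 ≤ (∑ j, (X i - X j)) ^ 2 :=
    Finset.sum_sq_le_sq_sum_of_nonneg (fun j _ => sub_nonneg.2 (hi j))
  have h3 : ∑ j, (X i - X j) ^ 2 = ((m : ℝ) + 1) * X i ^ 2 + ∑ j, X j ^ 2 := by
    have : ∀ j, (X i - X j) ^ 2 = X i ^ 2 - 2 * X i * X j + X j ^ 2 := fun j => by ring
    simp only [this, Finset.sum_add_distrib, Finset.sum_sub_distrib, ← Finset.mul_sum, hX]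
    simp
  rw [h1, h3] at h2
  nlinarith [h2]

/-- the operator `C x = ∑ ⟪z j, x⟫ z j` -/
noncomputable def Cop {n m : ℕ} (z : Fin m → Eu n) : Eu n →ₗ[ℝ] Eu n :=
  ∑ j, ((innerSL ℝ (z j)).toLinearMap).smulRight (z j)

lemma Cop_apply {n m : ℕ} (z : Fin m → Eu n) (x : Eu n) :
    Cop z x = ∑ j, inner ℝ (z j) x • z j := by
  simp [Cop, LinearMap.sum_apply]

lemma Cop_symm {n m : ℕ} (z : Fin m → Eu n) : (Cop z).IsSymmetric := by
  intro x y
  rw [Cop_apply, Cop_apply, sum_inner, inner_sum]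
  refine Finset.sum_congr rfl fun j _ => ?_
  rw [real_inner_smul_left, real_inner_smul_right, real_inner_comm x (z j)]
  ring

/-- Eigenvalues are bounded by a sum of two squared norms. -/
lemma eigen_le {n m : ℕ} (z : Fin (m + 1) → Eu n) (h0 : ∑ i, z i = 0)
    (hneg : ∀ i j, i ≠ j → inner ℝ (z i) (z j) < 0) (e : Eu n) (he : ‖e‖ = 1) (s : ℝ)
    (hs : Cop z e = s • e) (σ : ℝ) (hσ0 : 0 ≤ σ)
    (hσ : ∀ i j, i ≠ j → ‖z i‖ ^ 2 + ‖z j‖ ^ 2 ≤ σ) : s ≤ σ := by
  set a : Fin (m + 1) → ℝ := fun j => inner ℝ (z j) e with ha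
  have hsa : ∀ i, s * a i = ∑ l, (-inner ℝ (z i) (z l)) * (a i - a l) := by
    intro i
    have h1 : inner ℝ (z i) (Cop z e) = s * a i := by
      rw [hs, real_inner_smul_right]
    have h2 : inner ℝ (z i) (Cop z e) = ∑ l, a l * inner ℝ (z i) (z l) := by
      rw [Cop_apply, inner_sum]
      exact Finset.sum_congr rfl fun l _ => by rw [real_inner_smul_right]
    have h3 : ∑ l, inner ℝ (z i) (z l) = 0 := by
      rw [← inner_sum, h0, inner_zero_right]
    rw [← h1, h2]
    have : ∀ l, (-inner ℝ (z i) (z l)) * (a i - a l)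
        = a l * inner ℝ (z i) (z l) - a i * inner ℝ (z i) (z l) := fun l => by ring
    simp only [this, Finset.sum_sub_distrib, ← Finset.mul_sum, h3]
    ring
  have hnrm : ∀ i, ∑ l ∈ Finset.univ.erase i, (-inner ℝ (z i) (z l)) = ‖z i‖ ^ 2 := by
    intro i
    have h3 : ∑ l, inner ℝ (z i) (z l) = 0 := by
      rw [← inner_sum, h0, inner_zero_right]
    rw [← Finset.add_sum_erase _ _ (Finset.mem_univ i), real_inner_self_eq_norm_sq] at h3
    rw [Finset.sum_neg_distrib]
    linarith
  obtain ⟨i, -, hi⟩ := Finset.exists_max_image Finset.univ a Finset.univ_nonempty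
  obtain ⟨j, -, hj⟩ := Finset.exists_min_image Finset.univ a Finset.univ_nonempty
  have hi' : ∀ l, a l ≤ a i := fun l => hi l (Finset.mem_univ l)
  have hj' : ∀ l, a j ≤ a l := fun l => hj l (Finset.mem_univ l)
  set d := a i - a j with hd
  have hd0 : 0 ≤ d := sub_nonneg.2 (hi' j)
  rcases hd0.eq_or_lt with hd1 | hd1
  · -- all equal
    have hall : ∀ l, a l = a i := by
      intro l
      have := hi' l
      have := hj' l
      linarith
    have hsum : ∑ l, a l = 0 := by
      simp only [ha]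
      rw [← sum_inner, h0, inner_zero_left]
    have hzero : a i = 0 := by
      simp only [hall] at hsum
      rw [Finset.sum_const, Finset.card_univ, Fintype.card_fin, nsmul_eq_mul] at hsum
      rcases mul_eq_zero.1 hsum with h | h
      · exact absurd h (by positivity)
      · exact h
    have hC : Cop z e = 0 := by
      rw [Cop_apply]
      refine Finset.sum_eq_zero fun l _ => ?_
      have : inner ℝ (z l) e = (0 : ℝ) := by
        have := hall l
        rw [hzero] at this
        exact this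
      rw [this, zero_smul]
    rw [hC] at hs
    have : s = 0 := by
      by_contra hne
      have : e = 0 := by
        have := hs.symm
        rwa [smul_eq_zero_iff_right hne] at this
      rw [this, norm_zero] at he
      exact zero_ne_one he
    rw [this]; exact hσ0
  · have hij : i ≠ j := by
      rintro rfl
      simp [hd] at hd1
    have hA : s * a i ≤ ‖z i‖ ^ 2 * d := by
      rw [hsa i, ← hnrm i, Finset.sum_mul, ← Finset.add_sum_erase _ _ (Finset.mem_univ i)]
      simp only [sub_self, mul_zero, zero_add]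
      refine Finset.sum_le_sum fun l hl => ?_
      have hne : i ≠ l := fun h => (Finset.ne_of_mem_erase hl) h.symm
      have hg := hneg i l hne
      have : a i - a l ≤ d := by
        have := hj' l
        simp only [hd]; linarith
      nlinarith
    have hB : -(s * a j) ≤ ‖z j‖ ^ 2 * d := by
      rw [hsa j, ← hnrm j, Finset.sum_mul, ← Finset.add_sum_erase _ _ (Finset.mem_univ j)]
      simp only [sub_self, mul_zero, zero_add]
      rw [← Finset.sum_neg_distrib]
      refine Finset.sum_le_sum fun l hl => ?_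
      have hne : j ≠ l := fun h => (Finset.ne_of_mem_erase hl) h.symm
      have hg := hneg j l hne
      have : a l - a j ≤ d := by
        have := hi' l
        simp only [hd]; linarith
      nlinarith
    have hsd : s * d ≤ (‖z i‖ ^ 2 + ‖z j‖ ^ 2) * d := by
      simp only [hd] at *
      nlinarith
    have := le_of_mul_le_mul_right hsd hd1
    exact this.trans (hσ i j hij)


lemma integrable_max_Dl {n : ℕ} (z : Fin (n + 1) → Eu n) (i : Fin (n + 1))
    (v : Eu n) : Integrable (fun x => max (Dl z i x + inner ℝ x v) 0) (gam n) := by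
  have h1 : Integrable (fun x : Eu n => inner ℝ x (z i)) (gam n) := by
    have := F_integrable (n := n) (k := 1) (fun _ => z i)
    simpa using this
  have h2 := F_integrable (fun j : Fin n => z (i.succAbove j))
  have h3 : Integrable (fun x : Eu n => inner ℝ x v) (gam n) := by
    have := F_integrable (n := n) (k := 1) (fun _ => v)
    simpa using this
  exact ((h1.sub h2).add h3).sup (integrable_zero _ _ _)

/-- second differences -/
lemma second_diff {n : ℕ} (hn : 1 ≤ n) (z : Fin (n + 1) → Eu n) (hz : Extremal z)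
    (i : Fin (n + 1)) (v : Eu n) (s : ℝ) (hs : 0 < s) :
    ∫ x, max (s * |inner ℝ x v| - |Dl z i x|) 0 ∂gam n ≤
      (n / ((n : ℝ) + 1) * ‖v‖ ^ 2) * s ^ 2 := by
  set M := ∑ j, ‖z j‖ ^ 2 with hM
  have hM0 : 0 ≤ M := Finset.sum_nonneg fun j _ => by positivity
  have hbound : ∀ w : Fin (n + 1) → Eu n, F w ≤ (M + V w) / 2 := by
    intro w
    refine (hz.max w).trans ?_
    have h1 := Real.sq_sqrt hM0
    have h2 := Real.sq_sqrt (V_nonneg w)
    nlinarith [sq_nonneg (√M - √(V w))]
  have e0 : F z = F (fun j => z (i.succAbove j)) + ∫ x, max (Dl z i x) 0 ∂gam n :=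
    F_remove hn z i
  have e1 := F_move hn z i (s • v)
  have e2 := F_move hn z i (-(s • v))
  have b1 := hbound (Function.update z i (z i + s • v))
  have b2 := hbound (Function.update z i (z i + -(s • v)))
  rw [V_move z hz.sum_zero] at b1 b2
  have hI0 := integrable_max_Dl z i 0
  simp only [inner_zero_right, add_zero] at hI0
  have hI1 := integrable_max_Dl z i (s • v)
  have hI2 := integrable_max_Dl z i (-(s • v))
  have hpt : ∀ x, max (s * |inner ℝ x v| - |Dl z i x|) 0
      = max (Dl z i x + inner ℝ x (s • v)) 0 + max (Dl z i x + inner ℝ x (-(s • v))) 0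
        - 2 * max (Dl z i x) 0 := by
    intro x
    rw [inner_neg_right, max_identity, real_inner_smul_right, abs_mul, abs_of_pos hs]
  have hint : ∫ x, max (s * |inner ℝ x v| - |Dl z i x|) 0 ∂gam n
      = ∫ x, max (Dl z i x + inner ℝ x (s • v)) 0 ∂gam n
        + ∫ x, max (Dl z i x + inner ℝ x (-(s • v))) 0 ∂gam n
        - 2 * ∫ x, max (Dl z i x) 0 ∂gam n := by
    have k1 := integral_sub (hI1.add hI2) (hI0.const_mul 2)
    have k2 := integral_add hI1 hI2
    simp only [Pi.add_apply] at k1 k2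
    simp_rw [hpt]
    rw [k1, k2, integral_const_mul]
  have hFM := hz.F_eq
  rw [← hM] at hFM b1 b2
  rw [hint]
  have n1 : ‖s • v‖ ^ 2 = s ^ 2 * ‖v‖ ^ 2 := by
    rw [norm_smul, Real.norm_of_nonneg hs.le]; ring
  rw [norm_neg, inner_neg_right] at b2
  rw [n1] at b1 b2
  rw [e1] at b1
  rw [e2] at b2
  rw [e0] at hFM
  nlinarith [b1, b2, hFM]


/-- `c3` from T7 (replace by `c3` once T7 has landed). -/
theorem c3_of (n : ℕ) (hT7 : BoundaryStmt n) (hn : 2 ≤ n) (z : Fin (n + 1) → Eu n)
    (hz : Extremal z) :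
    ∃ a b, a ≠ b ∧ ∀ i, ∑ j, ‖z j‖ ^ 2 - ‖z a‖ ^ 2 - ‖z b‖ ^ 2 ≤
      ((n : ℝ) + 1) * n * ‖z i‖ ^ 2 := by
  have hn1 : 1 ≤ n := by omega
  have hnpos : (0 : ℝ) < n := by exact_mod_cast hn1
  -- the best pair
  obtain ⟨p, hp, hpmax⟩ := Finset.exists_max_image
    ((Finset.univ : Finset (Fin (n + 1) × Fin (n + 1))).filter fun p => p.1 ≠ p.2)
    (fun p => ‖z p.1‖ ^ 2 + ‖z p.2‖ ^ 2)
    ⟨(0, Fin.last n), by
      simp only [Finset.mem_filter, Finset.mem_univ, true_and]
      intro h
      have := congrArg Fin.val h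
      simp at this
      omega⟩
  obtain ⟨a, b⟩ := p
  simp only [Finset.mem_filter, Finset.mem_univ, true_and] at hp
  have hpm : ∀ i j, i ≠ j → ‖z i‖ ^ 2 + ‖z j‖ ^ 2 ≤ ‖z a‖ ^ 2 + ‖z b‖ ^ 2 := by
    intro i j hij
    exact hpmax (i, j) (by simpa using hij)
  refine ⟨a, b, hp, fun i => ?_⟩
  set M := ∑ j, ‖z j‖ ^ 2 with hM
  set σ := ‖z a‖ ^ 2 + ‖z b‖ ^ 2 with hσ
  have hσ0 : 0 ≤ σ := by positivity
  -- the boundary measure
  obtain ⟨y, hy0, hy1, hy2⟩ := exists_dual n hn1 z hz i
  obtain ⟨ν, hfin, hmass, hae, hint, hmom, hsec⟩ :=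
    hT7 (Dl z i) y (Dl_continuous hn1 z i) (Dl_hom hn1 z i)
      (Dl_shift hn1 z i y hy1)
  have hmass' : ν.real Set.univ = n / ((n : ℝ) + 1) := by
    rw [hmass, setIntegral_congr_set (cell_ae n hn1 z hz i), ← hy2]
    conv_rhs => rw [hz.cell_eq i]
    have hid : Integrable (fun x : Eu n => x) (gam n) := by
      exact IsGaussian.integrable_id
    rw [real_inner_comm, ← integral_inner hid.integrableOn]
    exact integral_congr_ae (Filter.Eventually.of_forall fun x => real_inner_comm _ _)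
  have hB : ∀ v : Eu n, ∫ x, (inner ℝ x v) ^ 2 ∂ν ≤ n / ((n : ℝ) + 1) * ‖v‖ ^ 2 :=
    fun v => hsec v _ fun s hs => second_diff hn1 z hz i v s hs
  have hIv : ∀ v : Eu n, Integrable (fun x => (inner ℝ x v) ^ 2) ν := by
    intro v
    refine (hint.mul_const (‖v‖ ^ 2)).mono' (by fun_prop) (Filter.Eventually.of_forall fun x => ?_)
    rw [Real.norm_of_nonneg (by positivity), ← mul_pow, ← sq_abs]
    gcongr
    exact abs_real_inner_le_norm x v
  -- the quadratic form
  have hfr : Module.finrank ℝ (Eu n) = n := by simp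
  set e := (Cop_symm z).eigenvectorBasis hfr with he
  set s := (Cop_symm z).eigenvalues hfr with hs
  have hCe : ∀ l, Cop z (e l) = s l • e l := fun l =>
    (Cop_symm z).apply_eigenvectorBasis hfr l
  have hsle : ∀ l, s l ≤ σ := fun l =>
    eigen_le z hz.sum_zero hz.neg (e l) (e.orthonormal.1 l) (s l) (hCe l) σ hσ0 hpm
  have hCx : ∀ x, inner ℝ x (Cop z x) = ∑ j, (inner ℝ x (z j)) ^ 2 := by
    intro x
    rw [Cop_apply, inner_sum]
    refine Finset.sum_congr rfl fun j _ => ?_
    rw [real_inner_smul_right, real_inner_comm x (z j)]; ring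
  have hCx' : ∀ x, inner ℝ x (Cop z x) = ∑ l, s l * (inner ℝ x (e l)) ^ 2 := by
    intro x
    have h1 : inner ℝ x (Cop z x) = ∑ l, inner ℝ x (e l) * inner ℝ (e l) (Cop z x) :=
      (e.sum_inner_mul_inner x (Cop z x)).symm
    rw [h1]
    refine Finset.sum_congr rfl fun l _ => ?_
    rw [← (Cop_symm z) (e l) x, hCe l, real_inner_smul_left, real_inner_comm x (e l)]
    ring
  have hstr : ∑ l, s l = M := by
    have h1 : ∀ l, s l = ∑ j, (inner ℝ (e l) (z j)) ^ 2 := by
      intro l
      rw [← hCx, hCe, real_inner_smul_right, real_inner_self_eq_norm_sq, e.orthonormal.1 l]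
      ring
    simp only [h1]
    rw [Finset.sum_comm, hM]
    refine Finset.sum_congr rfl fun j _ => ?_
    have := e.sum_sq_norm_inner_right (z j)
    rw [← this]
    exact Finset.sum_congr rfl fun l _ => by rw [Real.norm_eq_abs, sq_abs]
  -- integrals
  set B : Fin n → ℝ := fun l => ∫ x, (inner ℝ x (e l)) ^ 2 ∂ν with hBdef
  have hBle : ∀ l, B l ≤ n / ((n : ℝ) + 1) := by
    intro l
    have := hB (e l)
    rwa [e.orthonormal.1 l, one_pow, mul_one] at this
  have hBsum : ((n : ℝ) - 1) * (n / ((n : ℝ) + 1)) ≤ ∑ l, B l := by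
    rw [← hmass']
    refine hmom.trans (le_of_eq ?_)
    simp only [hBdef]
    rw [← integral_finsetSum _ fun l _ => hIv (e l)]
    refine integral_congr_ae (Filter.Eventually.of_forall fun x => ?_)
    have := e.sum_sq_norm_inner_left x
    simp only
    rw [← this]
    exact Finset.sum_congr rfl fun l _ => by rw [Real.norm_eq_abs, sq_abs]
  have hlow : n / ((n : ℝ) + 1) * (M - σ) ≤ ∑ l, s l * B l := by
    have h1 : ∑ l, (σ - s l) * B l ≤ ∑ l, (σ - s l) * (n / ((n : ℝ) + 1)) :=
      Finset.sum_le_sum fun l _ => mul_le_mul_of_nonneg_left (hBle l) (sub_nonneg.2 (hsle l))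
    have h2 : ∑ l, (σ - s l) * B l = σ * ∑ l, B l - ∑ l, s l * B l := by
      simp only [sub_mul, Finset.sum_sub_distrib, Finset.mul_sum]
    have h3 : ∑ l, (σ - s l) * (n / ((n : ℝ) + 1)) = (n * σ - M) * (n / ((n : ℝ) + 1)) := by
      rw [← Finset.sum_mul, Finset.sum_sub_distrib, hstr]
      simp
    rw [h2, h3] at h1
    have h4 := mul_le_mul_of_nonneg_left hBsum hσ0
    nlinarith
  have hsumint : ∑ l, s l * B l = ∫ x, ∑ j, (inner ℝ x (z j)) ^ 2 ∂ν := by
    have h1 : ∀ l, s l * B l = ∫ x, s l * (inner ℝ x (e l)) ^ 2 ∂ν := fun l =>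
      (integral_const_mul _ _).symm
    simp only [h1]
    rw [← integral_finsetSum _ fun l _ => (hIv (e l)).const_mul (s l)]
    refine integral_congr_ae (Filter.Eventually.of_forall fun x => ?_)
    simp only
    rw [← hCx', hCx]
  have hup : ∫ x, ∑ j, (inner ℝ x (z j)) ^ 2 ∂ν ≤
      ((n : ℝ) + 1) * n * ∫ x, (inner ℝ x (z i)) ^ 2 ∂ν := by
    rw [← integral_const_mul]
    refine integral_mono_ae (integrable_finsetSum _ fun j _ => hIv (z j))
      ((hIv (z i)).const_mul _) ?_
    filter_upwards [hae] with x hx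
    refine sum_sq_le (fun j => inner ℝ x (z j)) ?_ i ?_
    · rw [← inner_sum, hz.sum_zero, inner_zero_right]
    · intro j
      rcases eq_or_ne j i with rfl | hji
      · exact le_rfl
      obtain ⟨l, rfl⟩ := Fin.exists_succAbove_eq hji
      have h1 : inner ℝ x (z i) = ⨆ j : Fin n, inner ℝ x (z (i.succAbove j)) := by
        have := hx
        unfold Dl at this
        linarith
      rw [h1]
      exact le_ciSup (f := fun j : Fin n => inner ℝ x (z (i.succAbove j)))
        (Set.finite_range _).bddAbove l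
  have hfinal := (hlow.trans (le_of_eq hsumint)).trans
    (hup.trans (mul_le_mul_of_nonneg_left (hB (z i)) (by positivity)))
  have hq : (0 : ℝ) < n / ((n : ℝ) + 1) := by positivity
  have h5 : n / ((n : ℝ) + 1) * (M - σ) ≤ n / ((n : ℝ) + 1) * (((n : ℝ) + 1) * n * ‖z i‖ ^ 2) := by
    linarith
  have h6 := le_of_mul_le_mul_left h5 hq
  linarith

end Crest.Agent.R215.T8
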