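import Crest.Agent.R215.Defs

/-! Row 215, piece T9a (helper49): the real inequality `opt4`. -/

set_option autoImplicit false

namespace Crest.Agent.R215.T9a

/-- The facts used about one cell: `p = u ^ 2`, `m = μ`. -/
structure Cell (p m : ℝ) : Prop where
  p0 : 0 ≤ p
  p1 : p ≤ 1
  m0 : 0 ≤ m
  q : m ≤ 1 / 2 → p ≤ 16 * m ^ 2 * (1 - m) ^ 2
  b : p ≤ 288 / 25 * m ^ 2

/-- tangent line bound for the quartic at `t` -/
theorem tang (t m p : ℝ) (hp : p ≤ 16 * m ^ 2 * (1 - m) ^ 2)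
    (hq : m ^ 2 - 2 * (1 - t) * m + (1 - t) * (1 - 3 * t) ≤ 0) :
    p ≤ 16 * t ^ 2 * (1 - t) ^ 2 + 32 * t * (1 - t) * (1 - 2 * t) * (m - t) := by
  have h : 16 * m ^ 2 * (1 - m) ^ 2 -
      (16 * t ^ 2 * (1 - t) ^ 2 + 32 * t * (1 - t) * (1 - 2 * t) * (m - t)) =
      16 * ((m - t) ^ 2 * (m ^ 2 - 2 * (1 - t) * m + (1 - t) * (1 - 3 * t))) := by ring
  have h2 : (m - t) ^ 2 * (m ^ 2 - 2 * (1 - t) * m + (1 - t) * (1 - 3 * t)) ≤ 0 :=
    mul_nonpos_of_nonneg_of_nonpos (sq_nonneg _) hq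
  linarith

/-- line at 1/4 -/
theorem line1 {p m : ℝ} (h : Cell p m) (hm : 521 / 5000 ≤ m) : p ≤ 3 * m - 3 / 16 := by
  by_cases h1 : m ≤ 1 / 2
  · by_cases h2 : m ≤ 3 / 20
    · have := h.b
      nlinarith
    · push Not at h2
      have := tang (1 / 4) m p (h.q h1) (by nlinarith)
      linarith
  · push Not at h1
    have := h.p1
    linarith

/-- line at .3091 -/
theorem line2 {p m : ℝ} (h : Cell p m) (hm : 73 / 1000 ≤ m) :
    p ≤ 16 * (3091 / 10000) ^ 2 * (1 - 3091 / 10000) ^ 2 +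
      32 * (3091 / 10000) * (1 - 3091 / 10000) * (1 - 2 * (3091 / 10000)) * (m - 3091 / 10000) := by
  by_cases h1 : m ≤ 1 / 2
  · exact tang (3091 / 10000) m p (h.q h1) (by nlinarith)
  · push Not at h1
    have := h.p1
    nlinarith

/-- line at .36 -/
theorem line3 {p m : ℝ} (h : Cell p m) :
    p ≤ 16 * (36 / 100) ^ 2 * (1 - 36 / 100) ^ 2 +
      32 * (36 / 100) * (1 - 36 / 100) * (1 - 2 * (36 / 100)) * (m - 36 / 100) := by
  have := h.m0
  by_cases h1 : m ≤ 1 / 2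
  · exact tang (36 / 100) m p (h.q h1) (by nlinarith)
  · push Not at h1
    have := h.p1
    nlinarith

/-- line at .3193 -/
theorem line4 {p m : ℝ} (h : Cell p m) (hm : 3 / 100 ≤ m) :
    p ≤ 16 * (3193 / 10000) ^ 2 * (1 - 3193 / 10000) ^ 2 +
      32 * (3193 / 10000) * (1 - 3193 / 10000) * (1 - 2 * (3193 / 10000)) * (m - 3193 / 10000) := by
  by_cases h1 : m ≤ 1 / 2
  · exact tang (3193 / 10000) m p (h.q h1) (by nlinarith)
  · push Not at h1
    have := h.p1
    nlinarith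

/-- lower bound of the mass in terms of `w` -/
theorem mass_ge {p m w : ℝ} (h : Cell p m) (_hw0 : 0 ≤ w) (hw : w ^ 2 ≤ p) :
    1473 / 5000 * w ≤ m := by
  have h1 : (1473 / 5000 * w) ^ 2 ≤ m ^ 2 := by
    have := h.b
    have h2 : w ^ 2 ≤ 288 / 25 * m ^ 2 := le_trans hw this
    nlinarith [sq_nonneg m]
  exact abs_le_of_sq_le_sq' h1 h.m0 |>.2

/-- the cell lemma -/
theorem cell_lemma {p m w : ℝ} (h : Cell p m) (hw0 : 0 ≤ w) (hw : w ^ 2 ≤ p)
    (hw1 : w ≤ 2478 / 10000) :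
    p ≤ w ^ 2 + 285 / 100 * (m - 1473 / 5000 * w) := by
  have hm := mass_ge h hw0 hw
  by_cases h0 : m ≤ 174 / 1000
  · have hb := h.b
    have h2 : (m - 1473 / 5000 * w) * (285 / 100 - 288 / 25 * (m + 1473 / 5000 * w)) ≥ 0 := by
      apply mul_nonneg
      · linarith
      · linarith
    nlinarith [sq_nonneg w]
  · push Not at h0
    have hq : w ^ 2 - 285 / 100 * (1473 / 5000) * w ≥ - (14666 / 100000) := by
      have h5 : (2478 / 10000 - w) * (5918 / 10000 - w) ≥ 0 :=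
        mul_nonneg (by linarith) (by linarith)
      linarith
    have key : p ≤ 285 / 100 * m - 14666 / 100000 := by
      by_cases h1 : m ≤ 1 / 2
      · have := tang (2783 / 10000) m p (h.q h1) (by nlinarith)
        linarith
      · push Not at h1
        have := h.p1
        linarith
    linarith

theorem main {pa pb pc pd ma mb mc md : ℝ} (ha : Cell pa ma) (hb : Cell pb mb) (hc : Cell pc mc)
    (hd : Cell pd md) (hsum : ma + mb + mc + md = 1)
    (h3a : pc + pd ≤ 12 * pa) (h3b : pc + pd ≤ 12 * pb) (h3c : pc + pd ≤ 12 * pc)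
    (h3d : pc + pd ≤ 12 * pd) : pa + pb + pc + pd ≤ 9 / 4 := by
  -- the case of a small cell
  have small : ∀ p m : ℝ, Cell p m → pc + pd ≤ 12 * p → m ≤ 73 / 1000 →
      pa + pb + pc + pd ≤ 9 / 4 := by
    intro p m hp h3 hm
    set w := Real.sqrt ((pc + pd) / 12) with hwdef
    have hw0 : 0 ≤ w := Real.sqrt_nonneg _
    have hRnn : 0 ≤ (pc + pd) / 12 := by
      have := hc.p0
      have := hd.p0
      positivity
    have hw2 : w ^ 2 = (pc + pd) / 12 := Real.sq_sqrt hRnn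
    have hwa : w ^ 2 ≤ pa := by linarith
    have hwb : w ^ 2 ≤ pb := by linarith
    have hwc : w ^ 2 ≤ pc := by linarith
    have hwd : w ^ 2 ≤ pd := by linarith
    have hwp : w ^ 2 ≤ p := by linarith
    have hw1 : w ≤ 2478 / 10000 := by
      have h1 := mass_ge hp hw0 hwp
      linarith
    have hcc := cell_lemma hc hw0 hwc hw1
    have hdd := cell_lemma hd hw0 hwd hw1
    have hma := mass_ge ha hw0 hwa
    have hmb := mass_ge hb hw0 hwb
    have e1 : pc + pd = 12 * w ^ 2 := by linarith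
    have hρ : 10 * w ^ 2 + 2 * (285 / 100 * (1473 / 5000)) * w ≤ 285 / 100 * (mc + md) := by
      linarith
    clear_value w
    clear hcc hdd hwa hwb hwc hwd hwp hw2 hRnn h3 hm hwdef
    by_cases hA : w ≤ 1 / 10
    · have := ha.p1
      have := hb.p1
      have h5 : (1 / 10 - w) * (1 / 10 + w) ≥ 0 := mul_nonneg (by linarith) (by linarith)
      linarith
    · push Not at hA
      by_cases hB : w ≤ 22 / 100
      · have la := line3 ha
        have lb := line3 hb
        have h5 : (w - 1 / 10) * (22 / 100 - w) ≥ 0 := mul_nonneg (by linarith) (by linarith)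
        linarith
      · push Not at hB
        have la := line4 ha (by linarith)
        have lb := line4 hb (by linarith)
        have h5 : (w - 22 / 100) * (2478 / 10000 - w) ≥ 0 :=
          mul_nonneg (by linarith) (by linarith)
        linarith
  by_cases ca : ma ≤ 73 / 1000
  · exact small pa ma ha h3a ca
  by_cases cb : mb ≤ 73 / 1000
  · exact small pb mb hb h3b cb
  by_cases cc : mc ≤ 73 / 1000
  · exact small pc mc hc h3c cc
  by_cases cd : md ≤ 73 / 1000
  · exact small pd md hd h3d cd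
  push Not at ca cb cc cd
  -- the middle case
  have mid : ∀ p m p1 m1 p2 m2 p3 m3 : ℝ, Cell p m → Cell p1 m1 → Cell p2 m2 → Cell p3 m3 →
      73 / 1000 < m → m ≤ 521 / 5000 → 73 / 1000 < m1 → 73 / 1000 < m2 → 73 / 1000 < m3 →
      m + m1 + m2 + m3 = 1 → p + p1 + p2 + p3 ≤ 9 / 4 := by
    intro p m p1 m1 p2 m2 p3 m3 h h1 h2 h3 g g' g1 g2 g3 hs
    have l1 := line2 h1 g1.le
    have l2 := line2 h2 g2.le
    have l3 := line2 h3 g3.le
    have lb := h.b
    have : (m - 73 / 1000) * (521 / 5000 - m) ≥ 0 := mul_nonneg (by linarith) (by linarith)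
    nlinarith
  by_cases da : ma ≤ 521 / 5000
  · have := mid pa ma pb mb pc mc pd md ha hb hc hd ca da cb cc cd hsum
    linarith
  by_cases db : mb ≤ 521 / 5000
  · have := mid pb mb pa ma pc mc pd md hb ha hc hd cb db ca cc cd (by linarith)
    linarith
  by_cases dc : mc ≤ 521 / 5000
  · have := mid pc mc pa ma pb mb pd md hc ha hb hd cc dc ca cb cd (by linarith)
    linarith
  by_cases dd : md ≤ 521 / 5000
  · have := mid pd md pa ma pb mb pc mc hd ha hb hc cd dd ca cb cc (by linarith)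
    linarith
  push Not at da db dc dd
  have la := line1 ha da.le
  have lb := line1 hb db.le
  have lc := line1 hc dc.le
  have ld := line1 hd dd.le
  linarith

theorem opt4 (u μ : Fin 4 → ℝ) (hu0 : ∀ i, 0 ≤ u i) (hu1 : ∀ i, u i ≤ 1)
    (hμ0 : ∀ i, 0 ≤ μ i) (hμ : ∑ i, μ i = 1)
    (h1 : ∀ i, μ i ≤ 1 / 2 → u i ≤ 1 - 4 * (1 / 2 - μ i) ^ 2)
    (h2 : ∀ i, u i ^ 2 ≤ 11 * Real.pi / 3 * μ i ^ 2)
    (h3 : ∃ a b, a ≠ b ∧ ∀ i, ∑ j, u j ^ 2 - u a ^ 2 - u b ^ 2 ≤ 12 * u i ^ 2) :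
    ∑ i, u i ^ 2 ≤ 9 / 4 := by
  have hcell : ∀ i, Cell (u i ^ 2) (μ i) := by
    intro i
    refine ⟨sq_nonneg _, ?_, hμ0 i, ?_, ?_⟩
    · have := hu0 i
      have := hu1 i
      nlinarith
    · intro hm
      have h := h1 i hm
      have h' : u i ≤ 4 * μ i * (1 - μ i) := by
        calc u i ≤ 1 - 4 * (1 / 2 - μ i) ^ 2 := h
          _ = 4 * μ i * (1 - μ i) := by ring
      calc u i ^ 2 ≤ (4 * μ i * (1 - μ i)) ^ 2 := pow_le_pow_left₀ (hu0 i) h' 2
        _ = 16 * μ i ^ 2 * (1 - μ i) ^ 2 := by ring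
    · refine le_trans (h2 i) ?_
      apply mul_le_mul_of_nonneg_right _ (sq_nonneg _)
      have := Real.pi_lt_d4
      linarith
  obtain ⟨a, b, hab, h⟩ := h3
  have H : ∀ a b c d : Fin 4, (∑ j, μ j = μ a + μ b + μ c + μ d) →
      (∑ j, u j ^ 2 = u a ^ 2 + u b ^ 2 + u c ^ 2 + u d ^ 2) →
      (∀ i, ∑ j, u j ^ 2 - u a ^ 2 - u b ^ 2 ≤ 12 * u i ^ 2) → ∑ i, u i ^ 2 ≤ 9 / 4 := by
    intro a b c d e1 e2 h
    rw [e2]
    have ha := h a
    have hb := h b
    have hc := h c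
    have hd := h d
    rw [e2] at ha hb hc hd
    exact main (hcell a) (hcell b) (hcell c) (hcell d) (by rw [← e1]; exact hμ)
      (by linarith) (by linarith) (by linarith) (by linarith)
  fin_cases a <;> fin_cases b <;> first
    | exact absurd rfl hab
    | exact H 0 1 2 3 (by rw [Fin.sum_univ_four]) (by rw [Fin.sum_univ_four]) h
    | exact H 0 2 1 3 (by rw [Fin.sum_univ_four]; ring) (by rw [Fin.sum_univ_four]; ring) h
    | exact H 0 3 1 2 (by rw [Fin.sum_univ_four]; ring) (by rw [Fin.sum_univ_four]; ring) h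
    | exact H 1 0 2 3 (by rw [Fin.sum_univ_four]; ring) (by rw [Fin.sum_univ_four]; ring) h
    | exact H 1 2 0 3 (by rw [Fin.sum_univ_four]; ring) (by rw [Fin.sum_univ_four]; ring) h
    | exact H 1 3 0 2 (by rw [Fin.sum_univ_four]; ring) (by rw [Fin.sum_univ_four]; ring) h
    | exact H 2 0 1 3 (by rw [Fin.sum_univ_four]; ring) (by rw [Fin.sum_univ_four]; ring) h
    | exact H 2 1 0 3 (by rw [Fin.sum_univ_four]; ring) (by rw [Fin.sum_univ_four]; ring) h
    | exact H 2 3 0 1 (by rw [Fin.sum_univ_four]; ring) (by rw [Fin.sum_univ_four]; ring) h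
    | exact H 3 0 1 2 (by rw [Fin.sum_univ_four]; ring) (by rw [Fin.sum_univ_four]; ring) h
    | exact H 3 1 0 2 (by rw [Fin.sum_univ_four]; ring) (by rw [Fin.sum_univ_four]; ring) h
    | exact H 3 2 0 1 (by rw [Fin.sum_univ_four]; ring) (by rw [Fin.sum_univ_four]; ring) h

end Crest.Agent.R215.T9a
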