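import Crest.Agent.R215.Defs

/-! Row 215, piece T9b: the final optimisation for `5 ≤ k` cells (pure real inequalities). -/

set_option autoImplicit false

namespace Crest.Agent.R215.T9b

open Finset

/-- two cells -/
theorem pair_bound (c s0 va vb ua ub : ℝ) (hc : 0 < c) (hs0 : 0 ≤ s0) (h7 : 7 * c * s0 ^ 2 ≤ 8)
    (hs : s0 ≤ va + vb) (hua : 0 ≤ ua) (hub : 0 ≤ ub) (hua1 : ua ≤ 1) (hub1 : ub ≤ 1)
    (ha : 0 ≤ va → ua ≤ 1 - c * va ^ 2) (hb : 0 ≤ vb → ub ≤ 1 - c * vb ^ 2) :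
    ua ^ 2 + ub ^ 2 ≤ 2 - c * s0 ^ 2 + c ^ 2 * s0 ^ 4 / 8 := by
  have hcs : 0 ≤ c * s0 ^ 2 := by positivity
  have key : 1 + (1 - c * s0 ^ 2) ^ 2 ≤ 2 - c * s0 ^ 2 + c ^ 2 * s0 ^ 4 / 8 := by
    nlinarith [mul_nonneg hcs (sub_nonneg.2 h7)]
  have one : ∀ v w u u' : ℝ, v < 0 → s0 ≤ v + w → 0 ≤ u → u ≤ 1 → 0 ≤ u' →
      (0 ≤ w → u' ≤ 1 - c * w ^ 2) → u ^ 2 + u' ^ 2 ≤ 2 - c * s0 ^ 2 + c ^ 2 * s0 ^ 4 / 8 := by
    intro v w u u' hv hvw hu hu1 hu' hw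
    have hw0 : s0 ≤ w := by linarith
    have h1 := hw (hs0.trans hw0)
    have h2 : s0 ^ 2 ≤ w ^ 2 := by nlinarith
    have h3 : u' ≤ 1 - c * s0 ^ 2 := by nlinarith
    have h4 : u' ^ 2 ≤ (1 - c * s0 ^ 2) ^ 2 := by nlinarith
    nlinarith
  rcases lt_or_ge va 0 with hva | hva
  · exact one va vb ua ub hva hs hua hua1 hub hb
  rcases lt_or_ge vb 0 with hvb | hvb
  · have := one vb va ub ua hvb (by linarith) hub hub1 hua ha
    linarith
  have ha' := ha hva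
  have hb' := hb hvb
  rcases eq_or_lt_of_le hs0 with h0 | h0
  · rw [← h0]
    nlinarith
  have hS : 0 < va + vb := lt_of_lt_of_le h0 hs
  obtain ⟨t, ht0, ht1, ht⟩ : ∃ t : ℝ, 0 ≤ t ∧ t ≤ 1 ∧ t * (va + vb) = s0 :=
    ⟨s0 / (va + vb), by positivity, by rw [div_le_one hS]; exact hs, by field_simp⟩
  set x := t * va with hx
  set y := t * vb with hy
  have hx0 : 0 ≤ x := by positivity
  have hy0 : 0 ≤ y := by positivity
  have hxv : x ≤ va := by rw [hx]; nlinarith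
  have hyv : y ≤ vb := by rw [hy]; nlinarith
  have hxy : x + y = s0 := by rw [hx, hy, ← mul_add, ht]
  have hxs : x ^ 2 ≤ va ^ 2 := by nlinarith
  have hys : y ^ 2 ≤ vb ^ 2 := by nlinarith
  have hua2 : ua ≤ 1 - c * x ^ 2 := by nlinarith
  have hub2 : ub ≤ 1 - c * y ^ 2 := by nlinarith
  have hua3 : ua ^ 2 ≤ (1 - c * x ^ 2) ^ 2 := by nlinarith
  have hub3 : ub ^ 2 ≤ (1 - c * y ^ 2) ^ 2 := by nlinarith
  have hP : 0 ≤ s0 ^ 2 / 4 - x * y := by rw [← hxy]; nlinarith [sq_nonneg (x - y)]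
  have hQ : 0 ≤ 2 * c ^ 2 * (x * y) + (c / 2) * (8 - 7 * c * s0 ^ 2) := by
    have : 0 ≤ 8 - 7 * c * s0 ^ 2 := by linarith
    positivity
  have hD := mul_nonneg hP hQ
  have hid : 2 - c * s0 ^ 2 + c ^ 2 * s0 ^ 4 / 8 - ((1 - c * x ^ 2) ^ 2 + (1 - c * y ^ 2) ^ 2) =
      (s0 ^ 2 / 4 - x * y) * (2 * c ^ 2 * (x * y) + (c / 2) * (8 - 7 * c * s0 ^ 2)) := by
    rw [← hxy]; ring
  linarith

/-- one cell -/
theorem cell_of_poly (c L β θ : ℝ) (hL : 0 < L) (h2 : 2 * θ ≤ L * β)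
    (hK : ∀ x : ℝ, 0 ≤ x → L * β - θ ≤ 1 - c * x ^ 2 →
      (1 - c * x ^ 2) ^ 2 ≤ L * (1 / 2 - x) - θ * (L * β - θ))
    (h1 : 1 ≤ L / 2 - θ * (L * β - θ))
    (w u m : ℝ) (hw0 : 0 ≤ w) (hw : w ≤ θ) (hwu : w ≤ u) (hu1 : u ≤ 1) (hβu : β * u ≤ m)
    (hcap : m ≤ 1 / 2 → u ≤ 1 - c * (1 / 2 - m) ^ 2) :
    u ^ 2 - w ^ 2 ≤ L * (m - β * w) := by
  rcases le_or_gt (u + w) (L * β) with h | h
  · have h3 : (u - w) * (u + w) ≤ (u - w) * (L * β) :=
      mul_le_mul_of_nonneg_left h (by linarith)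
    have h4 : L * (β * u) ≤ L * m := mul_le_mul_of_nonneg_left hβu hL.le
    nlinarith
  · have h5 : 0 ≤ (θ - w) * (L * β - θ - w) := mul_nonneg (by linarith) (by linarith)
    have h6 : w * (L * β - w) ≤ θ * (L * β - θ) := by nlinarith
    have hu0 : 0 ≤ u := hw0.trans hwu
    rcases le_or_gt m (1 / 2) with hm | hm
    · have h7 := hcap hm
      have h8 := hK (1 / 2 - m) (by linarith) (by linarith)
      have h9 : u ^ 2 ≤ (1 - c * (1 / 2 - m) ^ 2) ^ 2 := by nlinarith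
      nlinarith
    · have h9 : u ^ 2 ≤ 1 := by nlinarith
      have h10 : L * (1 / 2) ≤ L * m := mul_le_mul_of_nonneg_left hm.le hL.le
      nlinarith

theorem le_of_sq_le_sq' {x y : ℝ} (h : x ^ 2 ≤ y ^ 2) (hy : 0 ≤ y) : x ≤ y :=
  le_of_abs_le (abs_le_of_sq_le_sq h hy)

set_option maxHeartbeats 1000000 in
theorem gen (k : ℕ) (u μ : Fin k → ℝ) (c L β θ p q : ℝ)
    (hu0 : ∀ i, 0 ≤ u i) (hu1 : ∀ i, u i ≤ 1)
    (hμ : ∑ i, μ i = 1)
    (hc : 0 < c) (hL : 0 < L) (hθ : 0 < θ)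
    (hA : ∀ i, β * u i ≤ μ i)
    (hB : ∀ i, μ i ≤ 1 / 2 → u i ≤ 1 - c * (1 / 2 - μ i) ^ 2)
    (a b : Fin k) (hab : a ≠ b)
    (hC : ∀ i, θ ^ 2 * (∑ j, u j ^ 2 - u a ^ 2 - u b ^ 2) ≤ u i ^ 2)
    (hcell : ∀ w u m : ℝ, 0 ≤ w → w ≤ θ → w ≤ u → u ≤ 1 → β * u ≤ m →
      (m ≤ 1 / 2 → u ≤ 1 - c * (1 / 2 - m) ^ 2) → u ^ 2 - w ^ 2 ≤ L * (m - β * w))
    (hE3 : L - k * L * β * θ + k * θ ^ 2 ≤ 9 / 4)
    (hp0 : 0 ≤ p) (hp : p ≤ (k - 2) * β * θ) (hq0 : 0 ≤ q) (hq : q * L ≤ 1 - (k - 2) * θ ^ 2)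
    (hE4 : ∀ r : ℝ, 1 / 2 ≤ r → r ≤ 1 →
      r ^ 2 ≤ 1 / 4 + c * (p * r + q * r ^ 2) ^ 2 - c ^ 2 * (p * r + q * r ^ 2) ^ 4 / 8)
    (hE5 : 7 * c * (p + q) ^ 2 ≤ 8) :
    ∑ i, u i ^ 2 ≤ 9 / 4 := by
  classical
  by_contra hcon
  push Not at hcon
  set R := ∑ j, u j ^ 2 - u a ^ 2 - u b ^ 2 with hR
  -- the other cells
  set T : Finset (Fin k) := (Finset.univ.erase a).erase b with hT
  have hba : b ∈ Finset.univ.erase a := by simp [hab.symm]
  have hsum : ∀ f : Fin k → ℝ, ∑ i, f i = f a + f b + ∑ i ∈ T, f i := by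
    intro f
    rw [← Finset.add_sum_erase _ f (Finset.mem_univ a), ← Finset.add_sum_erase _ f hba]
    ring
  have hRT : R = ∑ i ∈ T, u i ^ 2 := by
    rw [hR, hsum (fun i => u i ^ 2)]; ring
  have hcard : (T.card : ℝ) = (k : ℝ) - 2 := by
    have h := hsum (fun _ => (1 : ℝ))
    simp at h
    linarith
  have hR0 : 0 ≤ R := by rw [hRT]; positivity
  have hua2 : u a ^ 2 ≤ 1 := by nlinarith [hu0 a, hu1 a]
  have hub2 : u b ^ 2 ≤ 1 := by nlinarith [hu0 b, hu1 b]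
  have hR4 : 1 / 4 < R := by linarith
  rcases le_or_gt 1 R with h1 | h1
  · -- all cells with w = θ
    have hw : ∀ i, θ ≤ u i := by
      intro i
      have h := hC i
      have h' : θ ^ 2 ≤ u i ^ 2 := by nlinarith [sq_nonneg θ]
      exact le_of_sq_le_sq' h' (hu0 i)
    have hs : ∑ i, (u i ^ 2 - θ ^ 2) ≤ ∑ i, L * (μ i - β * θ) :=
      Finset.sum_le_sum fun i _ => hcell θ (u i) (μ i) hθ.le le_rfl (hw i) (hu1 i) (hA i) (hB i)
    rw [Finset.sum_sub_distrib, ← Finset.mul_sum, Finset.sum_sub_distrib, hμ] at hs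
    simp at hs
    nlinarith
  · set r := √R with hr
    have hrr : r ^ 2 = R := Real.sq_sqrt hR0
    have hr0 : 0 ≤ r := Real.sqrt_nonneg _
    have hr1 : r ≤ 1 := by nlinarith
    have hr2 : 1 / 2 ≤ r := by nlinarith
    have hw : ∀ i, θ * r ≤ u i := by
      intro i
      have h := hC i
      refine le_of_sq_le_sq' ?_ (hu0 i)
      rw [mul_pow, hrr]; exact h
    have hs : ∑ i ∈ T, (u i ^ 2 - (θ * r) ^ 2) ≤ ∑ i ∈ T, L * (μ i - β * (θ * r)) :=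
      Finset.sum_le_sum fun i _ => hcell (θ * r) (u i) (μ i) (by positivity)
        (by nlinarith) (hw i) (hu1 i) (hA i) (hB i)
    rw [Finset.sum_sub_distrib, ← Finset.mul_sum, Finset.sum_sub_distrib, ← hRT] at hs
    simp only [Finset.sum_const, nsmul_eq_mul, hcard] at hs
    have hμT : ∑ i ∈ T, μ i = 1 - μ a - μ b := by
      have := hsum μ
      linarith
    rw [hμT] at hs
    set ρ := 1 - μ a - μ b with hρ
    have hρ0 : p * r + q * r ^ 2 ≤ ρ := by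
      have e1 : L * (p * r) ≤ L * ((k - 2) * β * θ * r) :=
        mul_le_mul_of_nonneg_left (mul_le_mul_of_nonneg_right hp hr0) hL.le
      have e2 : (q * L) * r ^ 2 ≤ (1 - (k - 2) * θ ^ 2) * r ^ 2 :=
        mul_le_mul_of_nonneg_right hq (sq_nonneg r)
      have e3 : L * (p * r + q * r ^ 2) ≤ L * ρ := by
        rw [← hrr] at hs
        nlinarith
      exact le_of_mul_le_mul_left e3 hL
    set s0 := p * r + q * r ^ 2 with hs0
    have hs00 : 0 ≤ s0 := by positivity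
    have hs01 : s0 ≤ p + q := by
      have e1 : p * r ≤ p := mul_le_of_le_one_right hp0 hr1
      have e2 : q * r ^ 2 ≤ q := mul_le_of_le_one_right hq0 (pow_le_one₀ hr0 hr1)
      rw [hs0]; linarith
    have h7 : 7 * c * s0 ^ 2 ≤ 8 := by
      have e1 : s0 ^ 2 ≤ (p + q) ^ 2 := pow_le_pow_left₀ hs00 hs01 2
      have e2 : 7 * c * s0 ^ 2 ≤ 7 * c * (p + q) ^ 2 :=
        mul_le_mul_of_nonneg_left e1 (by positivity)
      linarith
    have hpair := pair_bound c s0 (1 / 2 - μ a) (1 / 2 - μ b) (u a) (u b) hc hs00 h7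
      (by linarith) (hu0 a) (hu0 b) (hu1 a) (hu1 b) (fun h => hB a (by linarith))
      (fun h => hB b (by linarith))
    have h4 : r ^ 2 ≤ 1 / 4 + c * s0 ^ 2 - c ^ 2 * s0 ^ 4 / 8 := hE4 r hr2 hr1
    have : ∑ i, u i ^ 2 = R + u a ^ 2 + u b ^ 2 := by rw [hR]; ring
    linarith

/-! ### instances -/

theorem beta_le {u m : ℝ} (hm : 0 ≤ m) (h : u ^ 2 ≤ 4 * Real.pi * m ^ 2) :
    (28209 / 100000) * u ≤ m := by
  refine le_of_sq_le_sq' ?_ hm
  have hpi := Real.pi_lt_d4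
  have h' : 4 * Real.pi * m ^ 2 ≤ 4 * 3.1416 * m ^ 2 :=
    mul_le_mul_of_nonneg_right (by linarith) (sq_nonneg m)
  have h'' := sq_nonneg m
  rw [mul_pow]
  norm_num at h' ⊢
  linarith

/-- the cell polynomial inequality, `k = 5` -/
theorem cellpoly5 (x : ℝ) (hx0 : 0 ≤ x) (hx : (29 / 10) * (28209 / 100000) - (559 / 2500) ≤ 1 - (37 / 10) * x ^ 2) :
    (1 - (37 / 10) * x ^ 2) ^ 2 ≤ (29 / 10) * (1 / 2 - x) - (559 / 2500) * ((29 / 10) * (28209 / 100000) - (559 / 2500)) := by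
  have hx1 : x ≤ (3311 / 10000) := by
    refine le_of_sq_le_sq' ?_ (by norm_num)
    linarith
  have hfac : 0 ≤ (45354163733 / 10000000000) - (1369 / 100) * x ^ 2 - (3615529 / 500000) * x := by
    have h2 : x ^ 2 ≤ (3311 / 10000) ^ 2 := pow_le_pow_left₀ hx0 hx1 2
    linarith
  have h3 := mul_nonneg (sq_nonneg (x - (2641 / 10000))) hfac
  have h4 : (x - (2641 / 10000)) ^ 2 * ((45354163733 / 10000000000) - (1369 / 100) * x ^ 2 - (3615529 / 500000) * x) + ((-884527049 / 25000000000000) * x + (738625507809227 / 1000000000000000000)) =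
      (29 / 10) * (1 / 2 - x) - (559 / 2500) * ((29 / 10) * (28209 / 100000) - (559 / 2500)) - (1 - (37 / 10) * x ^ 2) ^ 2 := by
    ring
  linarith

/-- the pair polynomial inequality, `k = 5` -/
theorem pairpoly5 (r : ℝ) (h1 : 1 / 2 ≤ r) (h2 : r ≤ 1) :
    r ^ 2 ≤ 1 / 4 + (37 / 10) * ((473 / 2500) * r + (2931 / 10000) * r ^ 2) ^ 2 -
      (37 / 10) ^ 2 * ((473 / 2500) * r + (2931 / 10000) * r ^ 2) ^ 4 / 8 := by
  have hu : 0 ≤ 2 * r - 1 := by linarith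
  have hv : 0 ≤ 2 - 2 * r := by linarith
  have h : 0 ≤ (337229704599889831 / 3276800000000000000) * ((2 * r - 1) ^ 0 * (2 - 2 * r) ^ 8) + (629841822175759073 / 1024000000000000000) * ((2 * r - 1) ^ 1 * (2 - 2 * r) ^ 7) + (7480077946303967109 / 5120000000000000000) * ((2 * r - 1) ^ 2 * (2 - 2 * r) ^ 6) + (10986627319677603083 / 6400000000000000000) * ((2 * r - 1) ^ 3 * (2 - 2 * r) ^ 5) + (63400987881844143613 / 64000000000000000000) * ((2 * r - 1) ^ 4 * (2 - 2 * r) ^ 4) + (1911359815527832963 / 8000000000000000000) * ((2 * r - 1) ^ 5 * (2 - 2 * r) ^ 3) + (453201285624331989 / 8000000000000000000) * ((2 * r - 1) ^ 6 * (2 - 2 * r) ^ 2) + (117243672884388313 / 2000000000000000000) * ((2 * r - 1) ^ 7 * (2 - 2 * r) ^ 1) + (144601958647496071 / 8000000000000000000) * ((2 * r - 1) ^ 8 * (2 - 2 * r) ^ 0) := by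
    positivity
  have h3 : (337229704599889831 / 3276800000000000000) * ((2 * r - 1) ^ 0 * (2 - 2 * r) ^ 8) + (629841822175759073 / 1024000000000000000) * ((2 * r - 1) ^ 1 * (2 - 2 * r) ^ 7) + (7480077946303967109 / 5120000000000000000) * ((2 * r - 1) ^ 2 * (2 - 2 * r) ^ 6) + (10986627319677603083 / 6400000000000000000) * ((2 * r - 1) ^ 3 * (2 - 2 * r) ^ 5) + (63400987881844143613 / 64000000000000000000) * ((2 * r - 1) ^ 4 * (2 - 2 * r) ^ 4) + (1911359815527832963 / 8000000000000000000) * ((2 * r - 1) ^ 5 * (2 - 2 * r) ^ 3) + (453201285624331989 / 8000000000000000000) * ((2 * r - 1) ^ 6 * (2 - 2 * r) ^ 2) + (117243672884388313 / 2000000000000000000) * ((2 * r - 1) ^ 7 * (2 - 2 * r) ^ 1) + (144601958647496071 / 8000000000000000000) * ((2 * r - 1) ^ 8 * (2 - 2 * r) ^ 0) =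
      1 / 4 + (37 / 10) * ((473 / 2500) * r + (2931 / 10000) * r ^ 2) ^ 2 -
      (37 / 10) ^ 2 * ((473 / 2500) * r + (2931 / 10000) * r ^ 2) ^ 4 / 8 - r ^ 2 := by
    ring
  linarith

theorem opt5 (u μ : Fin 5 → ℝ) (hu0 : ∀ i, 0 ≤ u i) (hu1 : ∀ i, u i ≤ 1)
    (hμ0 : ∀ i, 0 ≤ μ i) (hμ : ∑ i, μ i = 1)
    (h1 : ∀ i, μ i ≤ 1 / 2 → u i ≤ 1 - 3 * Real.pi ^ 2 / 8 * (1 / 2 - μ i) ^ 2)
    (h2 : ∀ i, u i ^ 2 ≤ 4 * Real.pi * μ i ^ 2)
    (h3 : ∃ a b, a ≠ b ∧ ∀ i, ∑ j, u j ^ 2 - u a ^ 2 - u b ^ 2 ≤ 20 * u i ^ 2) :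
    ∑ i, u i ^ 2 ≤ 9 / 4 := by
  obtain ⟨a, b, hab, h3⟩ := h3
  refine gen 5 u μ (37 / 10) (29 / 10) (28209 / 100000) (559 / 2500) (473 / 2500) (2931 / 10000) hu0 hu1 hμ (by norm_num) (by norm_num)
    (by norm_num) (fun i => beta_le (hμ0 i) (h2 i)) (fun i hi => by
      have : 37 / 10 ≤ 3 * Real.pi ^ 2 / 8 := by nlinarith [Real.pi_gt_d4]
      have h := h1 i hi
      have h' := mul_le_mul_of_nonneg_right this (sq_nonneg (1 / 2 - μ i))
      linarith) a b hab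
    (fun i => by
      have h := h3 i
      have h' := sq_nonneg (u i)
      linarith)
    (cell_of_poly (37 / 10) (29 / 10) (28209 / 100000) (559 / 2500) (by norm_num) (by norm_num)
      (fun x hx0 hx => cellpoly5 x hx0 hx) (by norm_num))
    (by norm_num) (by norm_num) (by norm_num) (by norm_num) (by norm_num)
    (fun r hr1 hr2 => pairpoly5 r hr1 hr2) (by norm_num)

/-- the cell polynomial inequality, `k = 6` -/
theorem cellpoly6 (x : ℝ) (hx0 : 0 ≤ x) (hx : (29 / 10) * (28209 / 100000) - (73 / 400) ≤ 1 - (32 / 9) * x ^ 2) :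
    (1 - (32 / 9) * x ^ 2) ^ 2 ≤ (29 / 10) * (1 / 2 - x) - (73 / 400) * ((29 / 10) * (28209 / 100000) - (73 / 400)) := by
  have hx1 : x ≤ (1601 / 5000) := by
    refine le_of_sq_le_sq' ?_ (by norm_num)
    linarith
  have hfac : 0 ≤ (1579136 / 421875) - (1024 / 81) * x ^ 2 - (76288 / 10125) * x := by
    have h2 : x ^ 2 ≤ (1601 / 5000) ^ 2 := pow_le_pow_left₀ hx0 hx1 2
    linarith
  have h3 := mul_nonneg (sq_nonneg (x - (149 / 500))) hfac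
  have h4 : (x - (149 / 500)) ^ 2 * ((1579136 / 421875) - (1024 / 81) * x ^ 2 - (76288 / 10125) * x) + ((4403 / 316406250) * x + (10830799621 / 6750000000000)) =
      (29 / 10) * (1 / 2 - x) - (73 / 400) * ((29 / 10) * (28209 / 100000) - (73 / 400)) - (1 - (32 / 9) * x ^ 2) ^ 2 := by
    ring
  linarith

/-- the pair polynomial inequality, `k = 6` -/
theorem pairpoly6 (r : ℝ) (h1 : 1 / 2 ≤ r) (h2 : r ≤ 1) :
    r ^ 2 ≤ 1 / 4 + (32 / 9) * ((2059 / 10000) * r + (747 / 2500) * r ^ 2) ^ 2 -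
      (32 / 9) ^ 2 * ((2059 / 10000) * r + (747 / 2500) * r ^ 2) ^ 4 / 8 := by
  have hu : 0 ≤ 2 * r - 1 := by linarith
  have hv : 0 ≤ 2 - 2 * r := by linarith
  have h : 0 ≤ (11202067546331519 / 101250000000000000) * ((2 * r - 1) ^ 0 * (2 - 2 * r) ^ 8) + (5863637004429773 / 8437500000000000) * ((2 * r - 1) ^ 1 * (2 - 2 * r) ^ 7) + (91928728532326481 / 50625000000000000) * ((2 * r - 1) ^ 2 * (2 - 2 * r) ^ 6) + (162609313156681 / 62500000000000) * ((2 * r - 1) ^ 3 * (2 - 2 * r) ^ 5) + (79141599650880373 / 33750000000000000) * ((2 * r - 1) ^ 4 * (2 - 2 * r) ^ 4) + (433103173529671 / 281250000000000) * ((2 * r - 1) ^ 5 * (2 - 2 * r) ^ 3) + (10400220393182081 / 12656250000000000) * ((2 * r - 1) ^ 6 * (2 - 2 * r) ^ 2) + (326711587028027 / 1054687500000000) * ((2 * r - 1) ^ 7 * (2 - 2 * r) ^ 1) + (336319843660319 / 6328125000000000) * ((2 * r - 1) ^ 8 * (2 - 2 * r) ^ 0) := by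
    positivity
  have h3 : (11202067546331519 / 101250000000000000) * ((2 * r - 1) ^ 0 * (2 - 2 * r) ^ 8) + (5863637004429773 / 8437500000000000) * ((2 * r - 1) ^ 1 * (2 - 2 * r) ^ 7) + (91928728532326481 / 50625000000000000) * ((2 * r - 1) ^ 2 * (2 - 2 * r) ^ 6) + (162609313156681 / 62500000000000) * ((2 * r - 1) ^ 3 * (2 - 2 * r) ^ 5) + (79141599650880373 / 33750000000000000) * ((2 * r - 1) ^ 4 * (2 - 2 * r) ^ 4) + (433103173529671 / 281250000000000) * ((2 * r - 1) ^ 5 * (2 - 2 * r) ^ 3) + (10400220393182081 / 12656250000000000) * ((2 * r - 1) ^ 6 * (2 - 2 * r) ^ 2) + (326711587028027 / 1054687500000000) * ((2 * r - 1) ^ 7 * (2 - 2 * r) ^ 1) + (336319843660319 / 6328125000000000) * ((2 * r - 1) ^ 8 * (2 - 2 * r) ^ 0) =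
      1 / 4 + (32 / 9) * ((2059 / 10000) * r + (747 / 2500) * r ^ 2) ^ 2 -
      (32 / 9) ^ 2 * ((2059 / 10000) * r + (747 / 2500) * r ^ 2) ^ 4 / 8 - r ^ 2 := by
    ring
  linarith

theorem opt6 (u μ : Fin 6 → ℝ) (hu0 : ∀ i, 0 ≤ u i) (hu1 : ∀ i, u i ≤ 1)
    (hμ0 : ∀ i, 0 ≤ μ i) (hμ : ∑ i, μ i = 1)
    (h1 : ∀ i, μ i ≤ 1 / 2 → u i ≤ 1 - 32 / 9 * (1 / 2 - μ i) ^ 2)
    (h2 : ∀ i, u i ^ 2 ≤ 4 * Real.pi * μ i ^ 2)
    (h3 : ∃ a b, a ≠ b ∧ ∀ i, ∑ j, u j ^ 2 - u a ^ 2 - u b ^ 2 ≤ 30 * u i ^ 2) :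
    ∑ i, u i ^ 2 ≤ 9 / 4 := by
  obtain ⟨a, b, hab, h3⟩ := h3
  refine gen 6 u μ (32 / 9) (29 / 10) (28209 / 100000) (73 / 400) (2059 / 10000) (747 / 2500) hu0 hu1 hμ (by norm_num) (by norm_num)
    (by norm_num) (fun i => beta_le (hμ0 i) (h2 i)) h1 a b hab
    (fun i => by
      have h := h3 i
      have h' := sq_nonneg (u i)
      linarith)
    (cell_of_poly (32 / 9) (29 / 10) (28209 / 100000) (73 / 400) (by norm_num) (by norm_num)
      (fun x hx0 hx => cellpoly6 x hx0 hx) (by norm_num))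
    (by norm_num) (by norm_num) (by norm_num) (by norm_num) (by norm_num)
    (fun r hr1 hr2 => pairpoly6 r hr1 hr2) (by norm_num)

/-- the cell polynomial inequality, `k = 7` -/
theorem cellpoly7 (x : ℝ) (hx0 : 0 ≤ x) (hx : (29 / 10) * (28209 / 100000) - (1543 / 10000) ≤ 1 - (173 / 50) * x ^ 2) :
    (1 - (173 / 50) * x ^ 2) ^ 2 ≤ (29 / 10) * (1 / 2 - x) - (1543 / 10000) * ((29 / 10) * (28209 / 100000) - (1543 / 10000)) := by
  have hx1 : x ≤ (1559 / 5000) := by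
    refine le_of_sq_le_sq' ?_ (by norm_num)
    linarith
  have hfac : 0 ≤ (921917 / 250000) - (29929 / 2500) * x ^ 2 - (89787 / 12500) * x := by
    have h2 : x ^ 2 ≤ (1559 / 5000) ^ 2 := pow_le_pow_left₀ hx0 hx1 2
    linarith
  have h3 := mul_nonneg (sq_nonneg (x - (3 / 10))) hfac
  have h4 : (x - (3 / 10)) ^ 2 * ((921917 / 250000) - (29929 / 2500) * x ^ 2 - (89787 / 12500) * x) + ((-25583 / 625000) * x + (156915577 / 10000000000)) =
      (29 / 10) * (1 / 2 - x) - (1543 / 10000) * ((29 / 10) * (28209 / 100000) - (1543 / 10000)) - (1 - (173 / 50) * x ^ 2) ^ 2 := by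
    ring
  linarith

/-- the pair polynomial inequality, `k = 7` -/
theorem pairpoly7 (r : ℝ) (h1 : 1 / 2 ≤ r) (h2 : r ≤ 1) :
    r ^ 2 ≤ 1 / 4 + (173 / 50) * ((136 / 625) * r + (3037 / 10000) * r ^ 2) ^ 2 -
      (173 / 50) ^ 2 * ((136 / 625) * r + (3037 / 10000) * r ^ 2) ^ 4 / 8 := by
  have hu : 0 ≤ 2 * r - 1 := by linarith
  have hv : 0 ≤ 2 - 2 * r := by linarith
  have h : 0 ≤ (5955800998898375539911 / 51200000000000000000000) * ((2 * r - 1) ^ 0 * (2 - 2 * r) ^ 8) + (2412631722643662779399 / 3200000000000000000000) * ((2 * r - 1) ^ 1 * (2 - 2 * r) ^ 7) + (6652783829256671637233 / 3200000000000000000000) * ((2 * r - 1) ^ 2 * (2 - 2 * r) ^ 6) + (104335045868942688601 / 32000000000000000000) * ((2 * r - 1) ^ 3 * (2 - 2 * r) ^ 5) + (5371281666124950842933 / 1600000000000000000000) * ((2 * r - 1) ^ 4 * (2 - 2 * r) ^ 4) + (20130936583057062617 / 8000000000000000000) * ((2 * r -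 1) ^ 5 * (2 - 2 * r) ^ 3) + (279677851930184561137 / 200000000000000000000) * ((2 * r - 1) ^ 6 * (2 - 2 * r) ^ 2) + (24988968870770628487 / 50000000000000000000) * ((2 * r - 1) ^ 7 * (2 - 2 * r) ^ 1) + (15950966619715487431 / 200000000000000000000) * ((2 * r - 1) ^ 8 * (2 - 2 * r) ^ 0) := by
    positivity
  have h3 : (5955800998898375539911 / 51200000000000000000000) * ((2 * r - 1) ^ 0 * (2 - 2 * r) ^ 8) + (2412631722643662779399 / 3200000000000000000000) * ((2 * r - 1) ^ 1 * (2 - 2 * r) ^ 7) + (6652783829256671637233 / 3200000000000000000000) * ((2 * r - 1) ^ 2 * (2 - 2 * r) ^ 6) + (104335045868942688601 / 32000000000000000000) * ((2 * r - 1) ^ 3 * (2 - 2 * r) ^ 5) + (5371281666124950842933 / 1600000000000000000000) * ((2 * r - 1) ^ 4 * (2 - 2 * r) ^ 4) + (20130936583057062617 / 8000000000000000000) * ((2 * r - 1) ^ 5 * (2 - 2 * r) ^ 3) + (279677851930184561137 / 200000000000000000000)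 * ((2 * r - 1) ^ 6 * (2 - 2 * r) ^ 2) + (24988968870770628487 / 50000000000000000000) * ((2 * r - 1) ^ 7 * (2 - 2 * r) ^ 1) + (15950966619715487431 / 200000000000000000000) * ((2 * r - 1) ^ 8 * (2 - 2 * r) ^ 0) =
      1 / 4 + (173 / 50) * ((136 / 625) * r + (3037 / 10000) * r ^ 2) ^ 2 -
      (173 / 50) ^ 2 * ((136 / 625) * r + (3037 / 10000) * r ^ 2) ^ 4 / 8 - r ^ 2 := by
    ring
  linarith

theorem opt7 (u μ : Fin 7 → ℝ) (hu0 : ∀ i, 0 ≤ u i) (hu1 : ∀ i, u i ≤ 1)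
    (hμ0 : ∀ i, 0 ≤ μ i) (hμ : ∑ i, μ i = 1)
    (h1 : ∀ i, μ i ≤ 1 / 2 → u i ≤ 1 - 45 * Real.pi ^ 2 / 128 * (1 / 2 - μ i) ^ 2)
    (h2 : ∀ i, u i ^ 2 ≤ 4 * Real.pi * μ i ^ 2)
    (h3 : ∃ a b, a ≠ b ∧ ∀ i, ∑ j, u j ^ 2 - u a ^ 2 - u b ^ 2 ≤ 42 * u i ^ 2) :
    ∑ i, u i ^ 2 ≤ 9 / 4 := by
  obtain ⟨a, b, hab, h3⟩ := h3
  refine gen 7 u μ (173 / 50) (29 / 10) (28209 / 100000) (1543 / 10000) (136 / 625) (3037 / 10000) hu0 hu1 hμ (by norm_num) (by norm_num)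
    (by norm_num) (fun i => beta_le (hμ0 i) (h2 i)) (fun i hi => by
      have : 173 / 50 ≤ 45 * Real.pi ^ 2 / 128 := by nlinarith [Real.pi_gt_d4]
      have h := h1 i hi
      have h' := mul_le_mul_of_nonneg_right this (sq_nonneg (1 / 2 - μ i))
      linarith) a b hab
    (fun i => by
      have h := h3 i
      have h' := sq_nonneg (u i)
      linarith)
    (cell_of_poly (173 / 50) (29 / 10) (28209 / 100000) (1543 / 10000) (by norm_num) (by norm_num)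
      (fun x hx0 hx => cellpoly7 x hx0 hx) (by norm_num))
    (by norm_num) (by norm_num) (by norm_num) (by norm_num) (by norm_num)
    (fun r hr1 hr2 => pairpoly7 r hr1 hr2) (by norm_num)

/-- the cell polynomial inequality, `k = 8` -/
theorem cellpoly8 (x : ℝ) (hx0 : 0 ≤ x) (hx : (29 / 10) * (28209 / 100000) - (167 / 1250) ≤ 1 - (256 / 75) * x ^ 2) :
    (1 - (256 / 75) * x ^ 2) ^ 2 ≤ (29 / 10) * (1 / 2 - x) - (167 / 1250) * ((29 / 10) * (28209 / 100000) - (167 / 1250)) := by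
  have hx1 : x ≤ (3041 / 10000) := by
    refine le_of_sq_le_sq' ?_ (by norm_num)
    linarith
  have hfac : 0 ≤ (172544 / 46875) - (65536 / 5625) * x ^ 2 - (65536 / 9375) * x := by
    have h2 : x ^ 2 ≤ (3041 / 10000) ^ 2 := pow_le_pow_left₀ hx0 hx1 2
    linarith
  have h3 := mul_nonneg (sq_nonneg (x - (3 / 10))) hfac
  have h4 : (x - (3 / 10)) ^ 2 * ((172544 / 46875) - (65536 / 5625) * x ^ 2 - (65536 / 9375) * x) + ((-9733 / 156250) * x + (34089413 / 1250000000)) =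
      (29 / 10) * (1 / 2 - x) - (167 / 1250) * ((29 / 10) * (28209 / 100000) - (167 / 1250)) - (1 - (256 / 75) * x ^ 2) ^ 2 := by
    ring
  linarith

/-- the pair polynomial inequality, `k = 8` -/
theorem pairpoly8 (r : ℝ) (h1 : 1 / 2 ≤ r) (h2 : r ≤ 1) :
    r ^ 2 ≤ 1 / 4 + (256 / 75) * ((2261 / 10000) * r + (1539 / 5000) * r ^ 2) ^ 2 -
      (256 / 75) ^ 2 * ((2261 / 10000) * r + (1539 / 5000) * r ^ 2) ^ 4 / 8 := by
  have hu : 0 ≤ 2 * r - 1 := by linarith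
  have hv : 0 ≤ 2 - 2 * r := by linarith
  have h : 0 ≤ (266579728 / 2197265625) * ((2 * r - 1) ^ 0 * (2 - 2 * r) ^ 8) + (29522926381 / 36621093750) * ((2 * r - 1) ^ 1 * (2 - 2 * r) ^ 7) + (3177316181732 / 1373291015625) * ((2 * r - 1) ^ 2 * (2 - 2 * r) ^ 6) + (176358311639813 / 45776367187500) * ((2 * r - 1) ^ 3 * (2 - 2 * r) ^ 5) + (156533621037764453 / 36621093750000000) * ((2 * r - 1) ^ 4 * (2 - 2 * r) ^ 4) + (15604680333287453 / 4577636718750000) * ((2 * r - 1) ^ 5 * (2 - 2 * r) ^ 3) + (26503014504381077 / 13732910156250000) * ((2 * r - 1) ^ 6 * (2 - 2 * r) ^ 2) + (257983747827151 / 381469726562500) * ((2 * r - 1) ^ 7 * (2 - 2 * r) ^ 1) + (718469029565009 / 6866455078125000) * ((2 * r - 1) ^ 8 * (2 - 2 * r) ^ 0) := by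
    positivity
  have h3 : (266579728 / 2197265625) * ((2 * r - 1) ^ 0 * (2 - 2 * r) ^ 8) + (29522926381 / 36621093750) * ((2 * r - 1) ^ 1 * (2 - 2 * r) ^ 7) + (3177316181732 / 1373291015625) * ((2 * r - 1) ^ 2 * (2 - 2 * r) ^ 6) + (176358311639813 / 45776367187500) * ((2 * r - 1) ^ 3 * (2 - 2 * r) ^ 5) + (156533621037764453 / 36621093750000000) * ((2 * r - 1) ^ 4 * (2 - 2 * r) ^ 4) + (15604680333287453 / 4577636718750000) * ((2 * r - 1) ^ 5 * (2 - 2 * r) ^ 3) + (26503014504381077 / 13732910156250000) * ((2 * r - 1) ^ 6 * (2 - 2 * r) ^ 2) + (257983747827151 / 381469726562500) * ((2 * r - 1) ^ 7 * (2 - 2 * r) ^ 1) + (718469029565009 / 6866455078125000) * ((2 * r - 1) ^ 8 * (2 - 2 * r) ^ 0) =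
      1 / 4 + (256 / 75) * ((2261 / 10000) * r + (1539 / 5000) * r ^ 2) ^ 2 -
      (256 / 75) ^ 2 * ((2261 / 10000) * r + (1539 / 5000) * r ^ 2) ^ 4 / 8 - r ^ 2 := by
    ring
  linarith

theorem opt8 (u μ : Fin 8 → ℝ) (hu0 : ∀ i, 0 ≤ u i) (hu1 : ∀ i, u i ≤ 1)
    (hμ0 : ∀ i, 0 ≤ μ i) (hμ : ∑ i, μ i = 1)
    (h1 : ∀ i, μ i ≤ 1 / 2 → u i ≤ 1 - 256 / 75 * (1 / 2 - μ i) ^ 2)
    (h2 : ∀ i, u i ^ 2 ≤ 4 * Real.pi * μ i ^ 2)
    (h3 : ∃ a b, a ≠ b ∧ ∀ i, ∑ j, u j ^ 2 - u a ^ 2 - u b ^ 2 ≤ 56 * u i ^ 2) :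
    ∑ i, u i ^ 2 ≤ 9 / 4 := by
  obtain ⟨a, b, hab, h3⟩ := h3
  refine gen 8 u μ (256 / 75) (29 / 10) (28209 / 100000) (167 / 1250) (2261 / 10000) (1539 / 5000) hu0 hu1 hμ (by norm_num) (by norm_num)
    (by norm_num) (fun i => beta_le (hμ0 i) (h2 i)) h1 a b hab
    (fun i => by
      have h := h3 i
      have h' := sq_nonneg (u i)
      linarith)
    (cell_of_poly (256 / 75) (29 / 10) (28209 / 100000) (167 / 1250) (by norm_num) (by norm_num)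
      (fun x hx0 hx => cellpoly8 x hx0 hx) (by norm_num))
    (by norm_num) (by norm_num) (by norm_num) (by norm_num) (by norm_num)
    (fun r hr1 hr2 => pairpoly8 r hr1 hr2) (by norm_num)

/-- the cell polynomial inequality, `k = 9` -/
theorem cellpoly9 (x : ℝ) (hx0 : 0 ≤ x) (hx : 3 * (28209 / 100000) - (1179 / 10000) ≤ 1 - (157 / 50) * x ^ 2) :
    (1 - (157 / 50) * x ^ 2) ^ 2 ≤ 3 * (1 / 2 - x) - (1179 / 10000) * (3 * (28209 / 100000) - (1179 / 10000)) := by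
  have hx1 : x ≤ (1471 / 5000) := by
    refine le_of_sq_le_sq' ?_ (by norm_num)
    linarith
  have hfac : 0 ≤ (94810573 / 25000000) - (24649 / 2500) * x ^ 2 - (714821 / 125000) * x := by
    have h2 : x ^ 2 ≤ (1471 / 5000) ^ 2 := pow_le_pow_left₀ hx0 hx1 2
    linarith
  have h3 := mul_nonneg (sq_nonneg (x - (29 / 100))) hfac
  have h4 : (x - (29 / 100)) ^ 2 * ((94810573 / 25000000) - (24649 / 2500) * x ^ 2 - (714821 / 125000) * x) + ((-199664461 / 625000000) * x + (23795602357 / 250000000000)) =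
      3 * (1 / 2 - x) - (1179 / 10000) * (3 * (28209 / 100000) - (1179 / 10000)) - (1 - (157 / 50) * x ^ 2) ^ 2 := by
    ring
  linarith

/-- the pair polynomial inequality, `k = 9` -/
theorem pairpoly9 (r : ℝ) (h1 : 1 / 2 ≤ r) (h2 : r ≤ 1) :
    r ^ 2 ≤ 1 / 4 + (157 / 50) * ((1163 / 5000) * r + (3009 / 10000) * r ^ 2) ^ 2 -
      (157 / 50) ^ 2 * ((1163 / 5000) * r + (3009 / 10000) * r ^ 2) ^ 4 / 8 := by
  have hu : 0 ≤ 2 * r - 1 := by linarith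
  have hv : 0 ≤ 2 - 2 * r := by linarith
  have h : 0 ≤ (5812357199981241687591 / 51200000000000000000000) * ((2 * r - 1) ^ 0 * (2 - 2 * r) ^ 8) + (1151652628212955781619 / 1600000000000000000000) * ((2 * r - 1) ^ 1 * (2 - 2 * r) ^ 7) + (6085914833418969381389 / 3200000000000000000000) * ((2 * r - 1) ^ 2 * (2 - 2 * r) ^ 6) + (1100049675128106718219 / 400000000000000000000) * ((2 * r - 1) ^ 3 * (2 - 2 * r) ^ 5) + (3941674019275057403613 / 1600000000000000000000) * ((2 * r - 1) ^ 4 * (2 - 2 * r) ^ 4) + (30869214956440395293 / 20000000000000000000) * ((2 * r - 1) ^ 5 * (2 - 2 * r) ^ 3) + (6048393869622934301 / 8000000000000000000) * ((2 * r - 1) ^ 6 * (2 - 2 * r) ^ 2) + (53102285192482437 / 200000000000000000) * ((2 * r - 1) ^ 7 * (2 - 2 * r) ^ 1) + (14039457900270471 / 320000000000000000) * ((2 * r - 1) ^ 8 * (2 - 2 * r) ^ 0) := by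
    positivity
  have h3 : (5812357199981241687591 / 51200000000000000000000) * ((2 * r - 1) ^ 0 * (2 - 2 * r) ^ 8) + (1151652628212955781619 / 1600000000000000000000) * ((2 * r - 1) ^ 1 * (2 - 2 * r) ^ 7) + (6085914833418969381389 / 3200000000000000000000) * ((2 * r - 1) ^ 2 * (2 - 2 * r) ^ 6) + (1100049675128106718219 / 400000000000000000000) * ((2 * r - 1) ^ 3 * (2 - 2 * r) ^ 5) + (3941674019275057403613 / 1600000000000000000000) * ((2 * r - 1) ^ 4 * (2 - 2 * r) ^ 4) + (30869214956440395293 / 20000000000000000000) * ((2 * r - 1) ^ 5 * (2 - 2 * r) ^ 3) + (6048393869622934301 / 8000000000000000000) * ((2 * r - 1) ^ 6 * (2 - 2 * r) ^ 2) + (53102285192482437 / 200000000000000000) * ((2 * r - 1) ^ 7 * (2 - 2 * r) ^ 1) + (14039457900270471 / 320000000000000000) * ((2 * r - 1) ^ 8 * (2 - 2 * r) ^ 0) =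
      1 / 4 + (157 / 50) * ((1163 / 5000) * r + (3009 / 10000) * r ^ 2) ^ 2 -
      (157 / 50) ^ 2 * ((1163 / 5000) * r + (3009 / 10000) * r ^ 2) ^ 4 / 8 - r ^ 2 := by
    ring
  linarith

theorem opt9 (k : ℕ) (hk : 9 ≤ k) (u μ : Fin k → ℝ) (hu0 : ∀ i, 0 ≤ u i) (hu1 : ∀ i, u i ≤ 1)
    (hμ0 : ∀ i, 0 ≤ μ i) (hμ : ∑ i, μ i = 1)
    (h1 : ∀ i, μ i ≤ 1 / 2 → u i ≤ 1 - Real.pi * (1 / 2 - μ i) ^ 2)
    (h2 : ∀ i, u i ^ 2 ≤ 4 * Real.pi * μ i ^ 2)
    (h3 : ∃ a b, a ≠ b ∧ ∀ i, ∑ j, u j ^ 2 - u a ^ 2 - u b ^ 2 ≤ (k : ℝ) * (k - 1) * u i ^ 2) :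
    ∑ i, u i ^ 2 ≤ 9 / 4 := by
  obtain ⟨a, b, hab, h3⟩ := h3
  have hk9 : (9 : ℝ) ≤ k := by exact_mod_cast hk
  -- `θ = 1 / √(k (k - 1))`
  have hkk : (0 : ℝ) < k * (k - 1) := by nlinarith
  obtain ⟨θ, hθ0, hθ2⟩ : ∃ θ : ℝ, 0 < θ ∧ θ ^ 2 * (k * (k - 1)) = 1 :=
    ⟨√(1 / (k * (k - 1))), by positivity, by
      rw [Real.sq_sqrt (by positivity)]; exact one_div_mul_cancel hkk.ne'⟩
  have hk72 : (72 : ℝ) ≤ k * (k - 1) := by nlinarith
  have hθ72 : θ ^ 2 * 72 ≤ 1 := by nlinarith [sq_nonneg θ]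
  have hθm : θ ≤ (1179 / 10000) := by
    refine le_of_sq_le_sq' ?_ (by norm_num)
    linarith
  -- `y = 1 / (k - 1)`
  have hk1 : (0 : ℝ) < k - 1 := by linarith
  obtain ⟨y, hy0, hy1, hyθ⟩ : ∃ y : ℝ, 0 ≤ y ∧ y ≤ 1 / 8 ∧ y = k * θ ^ 2 := by
    refine ⟨k * θ ^ 2, by positivity, ?_, rfl⟩
    have : (k * θ ^ 2) * (k - 1) = 1 := by linarith
    nlinarith [mul_nonneg (by positivity : (0 : ℝ) ≤ k * θ ^ 2) (by linarith : (0 : ℝ) ≤ (k - 1) - 8)]
  have hkθ2 : (k * θ) ^ 2 = 1 + y := by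
    have : k * θ ^ 2 * (k - 1) = 1 := by linarith
    rw [hyθ]; nlinarith
  have hkθ : 1 + 485 / 1000 * y ≤ k * θ := by
    refine le_of_sq_le_sq' ?_ (by positivity)
    rw [hkθ2]
    nlinarith
  have hk2θ : 8246 / 10000 ≤ ((k : ℝ) - 2) * θ := by
    refine le_of_sq_le_sq' ?_ (mul_nonneg (by linarith) hθ0.le)
    have e1 : (49 / 72 : ℝ) * (k * (k - 1)) ≤ (k - 2) ^ 2 := by nlinarith
    have e2 : (49 / 72 : ℝ) ≤ (k - 2) ^ 2 * θ ^ 2 := by
      have := mul_le_mul_of_nonneg_left e1 (sq_nonneg θ)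
      nlinarith
    rw [mul_pow]
    norm_num at e2 ⊢
    linarith
  have hk2 : ((k : ℝ) - 2) * θ ^ 2 ≤ 7 / 72 := by
    have e1 : ((k : ℝ) - 2) ≤ 7 / 72 * (k * (k - 1)) := by nlinarith
    have := mul_le_mul_of_nonneg_right e1 (sq_nonneg θ)
    nlinarith
  refine gen k u μ (157 / 50) 3 (28209 / 100000) θ (1163 / 5000) (3009 / 10000) hu0 hu1 hμ (by norm_num) (by norm_num)
    hθ0 (fun i => beta_le (hμ0 i) (h2 i)) (fun i hi => by
      have : (157 / 50) ≤ Real.pi := by linarith [Real.pi_gt_d2]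
      have h := h1 i hi
      have h' := mul_le_mul_of_nonneg_right this (sq_nonneg (1 / 2 - μ i))
      linarith) a b hab
    (fun i => by
      have h := mul_le_mul_of_nonneg_left (h3 i) (sq_nonneg θ)
      have h' : θ ^ 2 * ((k : ℝ) * (k - 1) * u i ^ 2) = u i ^ 2 := by
        rw [← mul_assoc, hθ2, one_mul]
      linarith)
    (fun w u m hw0 hw hwu hu1 hβu hcap =>
      cell_of_poly (157 / 50) 3 (28209 / 100000) (1179 / 10000) (by norm_num) (by norm_num)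
        (fun x hx0 hx => cellpoly9 x hx0 hx) (by norm_num) w u m hw0 (hw.trans hθm) hwu hu1 hβu hcap)
    ?_ (by norm_num) ?_ (by norm_num) ?_
    (fun r hr1 hr2 => pairpoly9 r hr1 hr2) (by norm_num)
  · rw [← hyθ]
    have : (k : ℝ) * 3 * (28209 / 100000) * θ = (84627 / 100000) * (k * θ) := by ring
    rw [this]
    linarith
  · have : ((k : ℝ) - 2) * (28209 / 100000) * θ = (28209 / 100000) * ((k - 2) * θ) := by ring
    rw [this]
    linarith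
  · linarith

end Crest.Agent.R215.T9b
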