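import Crest.Agent.R215.T0
import Crest.Agent.R215.T1
import Crest.Agent.R215.T2
import Crest.Agent.R215.T3
import Crest.Agent.R215.T4
import Crest.Agent.R215.T5a
import Crest.Agent.R215.T5b
import Crest.Agent.R215.T5c
import Crest.Agent.R215.T6
import Crest.Agent.R215.T7
import Crest.Agent.R215.T8
import Crest.Agent.R215.T9a
import Crest.Agent.R215.T9b

/-! Row 215, T10: assembly. -/

set_option autoImplicit false
open MeasureTheory ProbabilityTheory
open scoped RealInnerProductSpace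

namespace Crest.Agent.R215.T10

open Crest.Agent.R215

variable {n : ℕ}

/-- rescaled norms -/
noncomputable def u (z : Fin (n + 1) → Eu n) (i : Fin (n + 1)) : ℝ := √(2 * Real.pi) * ‖z i‖

noncomputable def mu (z : Fin (n + 1) → Eu n) (i : Fin (n + 1)) : ℝ := (gam n).real (cell z i)

lemma u_nonneg (z : Fin (n + 1) → Eu n) (i) : 0 ≤ u z i := by unfold u; positivity

lemma mu_nonneg (z : Fin (n + 1) → Eu n) (i) : 0 ≤ mu z i := measureReal_nonneg

lemma u_sq (z : Fin (n + 1) → Eu n) (i) : u z i ^ 2 = 2 * Real.pi * ‖z i‖ ^ 2 := by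
  unfold u; rw [mul_pow, Real.sq_sqrt (by positivity)]

/-- `c = 3/√(8π)`, `c² = 9/(8π)`. -/
lemma c_sq : (3 / √(8 * Real.pi)) ^ 2 = 9 / (8 * Real.pi) := by
  rw [div_pow, Real.sq_sqrt (by positivity)]; norm_num

lemma V_nonneg {k : ℕ} (z : Fin k → Eu n) : 0 ≤ V z := by
  unfold V
  rcases Nat.eq_zero_or_pos k with rfl | hk
  · simp
  have hk0 : (0 : ℝ) < k := by exact_mod_cast hk
  rw [Fintype.card_fin, sub_nonneg, div_le_iff₀ hk0]
  have h1 : ‖∑ i, z i‖ ≤ ∑ i, ‖z i‖ := norm_sum_le _ _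
  have h2 : (∑ i, ‖z i‖) ^ 2 ≤ (Finset.univ : Finset (Fin k)).card * ∑ i, ‖z i‖ ^ 2 :=
    sq_sum_le_card_mul_sum_sq
  rw [Finset.card_univ, Fintype.card_fin] at h2
  calc ‖∑ i, z i‖ ^ 2 ≤ (∑ i, ‖z i‖) ^ 2 := by gcongr
    _ ≤ _ := by rw [mul_comm]; exact h2

/-- (C2), first half: lower bound for the gain. -/
lemma gain_ge (hn : 1 ≤ n) (hC : Claim n) (z : Fin (n + 1) → Eu n) (hz : Extremal z)
    (i : Fin (n + 1)) :
    ((n : ℝ) + 1) / (2 * n) * ‖z i‖ ^ 2 ≤ ∫ x, max (Dl z i x) 0 ∂gam n := by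
  have hn0 : (0 : ℝ) < n := by exact_mod_cast hn
  have hr := T0.F_remove hn z i
  have hv := T0.V_remove hn z hz.sum_zero i
  set M := ∑ j, ‖z j‖ ^ 2 with hM
  have hc := hC n (fun j => z (i.succAbove j))
  rw [hv] at hc
  set q := ((n : ℝ) + 1) / n * ‖z i‖ ^ 2 with hq
  have hM9 : 9 / (8 * Real.pi) < M := hz.big
  have hM0 : 0 < M := lt_trans (by positivity) hM9
  have hq0 : 0 ≤ q := by positivity
  have hc1 : 3 / √(8 * Real.pi) ≤ √M := by
    apply Real.le_sqrt_of_sq_le
    rw [c_sq]; exact hM9.le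
  have h2 : 3 / √(8 * Real.pi) * √(M - q) ≤ √M * √(M - q) :=
    mul_le_mul_of_nonneg_right hc1 (Real.sqrt_nonneg _)
  have h3 : √M * √(M - q) ≤ M - q / 2 := by
    have ha : 0 ≤ √M := Real.sqrt_nonneg _
    have hb : 0 ≤ √(M - q) := Real.sqrt_nonneg _
    have hsa : √M ^ 2 = M := Real.sq_sqrt hM0.le
    have h : 0 ≤ M - q := by rw [← hv]; exact V_nonneg _
    have hsb : √(M - q) ^ 2 = M - q := Real.sq_sqrt h
    nlinarith [sq_nonneg (√M - √(M - q))]
  have hF := hz.F_eq
  have : q / 2 = ((n : ℝ) + 1) / (2 * n) * ‖z i‖ ^ 2 := by rw [hq]; field_simp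
  rw [← this]
  linarith

lemma D_eq (hn : 1 ≤ n) (z : Fin (n + 1) → Eu n) (hz : Extremal z) (i : Fin (n + 1)) (y : Eu n) :
    ∫ x in {x | 0 < Dl z i x}, inner ℝ x y ∂gam n = inner ℝ (z i) y := by
  rw [setIntegral_congr_set (T0.cell_ae n hn z hz i), T0.setIntegral_inner, ← hz.cell_eq i]

lemma mu_eq (hn : 1 ≤ n) (z : Fin (n + 1) → Eu n) (hz : Extremal z) (i : Fin (n + 1)) :
    (gam n).real {x | 0 < Dl z i x} = mu z i :=
  measureReal_congr (T0.cell_ae n hn z hz i)

/-- (C2) -/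
lemma C2 (hn : 1 ≤ n) (hC : Claim n) (z : Fin (n + 1) → Eu n) (hz : Extremal z)
    (i : Fin (n + 1)) : u z i ^ 2 ≤ 4 * Real.pi * mu z i ^ 2 := by
  have hn0 : (0 : ℝ) < n := by exact_mod_cast hn
  obtain ⟨y, hy0, hy1, hy2⟩ := T0.exists_dual n hn z hz i
  have h := T6.gain_le n (Dl z i) y (T0.Dl_continuous hn z i) (T0.Dl_concave hn z i)
    (T0.Dl_shift hn z i y hy1)
  rw [D_eq hn z hz, hy2, mu_eq hn z hz] at h
  have h1 := gain_ge hn hC z hz i
  have h2 : (n : ℝ) / (n + 1) * (((n : ℝ) + 1) / (2 * n) * ‖z i‖ ^ 2) ≤ mu z i ^ 2 :=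
    (mul_le_mul_of_nonneg_left h1 (by positivity)).trans h
  have h3 : (n : ℝ) / (n + 1) * (((n : ℝ) + 1) / (2 * n) * ‖z i‖ ^ 2) = ‖z i‖ ^ 2 / 2 := by
    field_simp
  rw [h3] at h2
  rw [u_sq]
  nlinarith [Real.pi_pos]

lemma C2_three (hC : Claim 3) (z : Fin (3 + 1) → Eu 3) (hz : Extremal z)
    (i : Fin (3 + 1)) : u z i ^ 2 ≤ 11 * Real.pi / 3 * mu z i ^ 2 := by
  have hn : 1 ≤ 3 := by norm_num
  obtain ⟨y, hy0, hy1, hy2⟩ := T0.exists_dual 3 hn z hz i
  have h := T6.gain_le_three (Dl z i) y (T0.Dl_continuous hn z i) (T0.Dl_concave hn z i)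
    (T0.Dl_hom hn z i) (T0.Dl_shift hn z i y hy1)
  rw [D_eq hn z hz, hy2, mu_eq hn z hz] at h
  have h1 := gain_ge hn hC z hz i
  push_cast at h h1
  rw [u_sq]
  nlinarith [Real.pi_pos]

/-- the cells are cones -/
lemma cell_cone {k : ℕ} (z : Fin k → Eu n) (i : Fin k) :
    ∀ x ∈ cell z i, ∀ t : ℝ, 0 < t → t • x ∈ cell z i := by
  intro x hx t ht j
  rw [real_inner_smul_left, real_inner_smul_left]
  exact mul_le_mul_of_nonneg_left (hx j) ht.le

/-- `‖z i‖` as an integral. -/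
lemma norm_eq (z : Fin (n + 1) → Eu n) (hz : Extremal z) (i : Fin (n + 1)) (h0 : z i ≠ 0) :
    ‖z i‖ = ∫ x in cell z i, inner ℝ x (‖z i‖⁻¹ • z i) ∂gam n := by
  rw [T0.setIntegral_inner, ← hz.cell_eq i, real_inner_smul_right, real_inner_self_eq_norm_sq]
  have : ‖z i‖ ≠ 0 := norm_ne_zero_iff.2 h0
  field_simp

lemma z_ne_zero (hn : 1 ≤ n) (z : Fin (n + 1) → Eu n) (hz : Extremal z) (i : Fin (n + 1)) :
    z i ≠ 0 := by
  intro h0
  have : Nontrivial (Fin (n + 1)) := Fin.nontrivial_iff_two_le.2 (by omega)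
  obtain ⟨j, hj⟩ := exists_ne i
  have := hz.neg i j hj.symm
  rw [h0, inner_zero_left] at this
  exact lt_irrefl _ this

lemma C1_half (hn : 1 ≤ n) (z : Fin (n + 1) → Eu n) (hz : Extremal z) (i : Fin (n + 1)) :
    u z i ≤ 1 - Real.pi * (1 / 2 - mu z i) ^ 2 := by
  have h0 := z_ne_zero hn z hz i
  have h := T5c.half_space_bound n (cell z i) (T0.measurableSet_cell z i) (‖z i‖⁻¹ • z i)
    (norm_smul_inv_norm (𝕜 := ℝ) h0)
  rw [← norm_eq z hz i h0] at h
  unfold u
  have h2 := mul_le_mul_of_nonneg_left h (Real.sqrt_nonneg (2 * Real.pi))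
  have h3 : √(2 * Real.pi) ≠ 0 := by positivity
  rw [← mul_assoc, mul_one_div, div_self h3, one_mul] at h2
  exact h2

lemma C1_cone (hn : 3 ≤ n) (z : Fin (n + 1) → Eu n) (hz : Extremal z) (i : Fin (n + 1))
    (hμ : mu z i ≤ 1 / 2) :
    u z i ≤ 1 - Real.pi * (∫ x, ‖x‖ ∂gam n) ^ 2 / (n - 1) * (1 / 2 - mu z i) ^ 2 := by
  have h0 := z_ne_zero (by omega) z hz i
  have h := T5a.cone_bound n hn (cell z i) (T0.measurableSet_cell z i) (cell_cone z i)
    (‖z i‖⁻¹ • z i) (norm_smul_inv_norm (𝕜 := ℝ) h0) hμ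
  rw [← norm_eq z hz i h0] at h
  unfold u
  have h2 := mul_le_mul_of_nonneg_left h (Real.sqrt_nonneg (2 * Real.pi))
  have h3 : √(2 * Real.pi) ≠ 0 := by positivity
  rw [← mul_assoc, mul_one_div, div_self h3, one_mul] at h2
  exact h2

lemma u_le_one (hn : 1 ≤ n) (z : Fin (n + 1) → Eu n) (hz : Extremal z) (i : Fin (n + 1)) :
    u z i ≤ 1 := by
  have := C1_half hn z hz i
  nlinarith [Real.pi_pos, sq_nonneg (1 / 2 - mu z i),
    mul_nonneg Real.pi_pos.le (sq_nonneg (1 / 2 - mu z i))]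

lemma C3 (hn : 2 ≤ n) (z : Fin (n + 1) → Eu n) (hz : Extremal z) :
    ∃ a b, a ≠ b ∧ ∀ i, ∑ j, u z j ^ 2 - u z a ^ 2 - u z b ^ 2 ≤
      ((n : ℝ) + 1) * n * u z i ^ 2 := by
  obtain ⟨a, b, hab, h⟩ := T8.c3_of n (fun Δ y h1 h2 h3 => T7.exists_boundary n Δ y h1 h2 h3) hn z hz
  refine ⟨a, b, hab, fun i => ?_⟩
  simp only [u_sq]
  rw [← Finset.mul_sum]
  have := mul_le_mul_of_nonneg_left (h i) (by positivity : (0 : ℝ) ≤ 2 * Real.pi)
  linarith

lemma sum_mu (hn : 1 ≤ n) (z : Fin (n + 1) → Eu n) (hz : Extremal z) :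
    ∑ i, mu z i = 1 := T0.sum_cell n hn z hz

/-- no maximiser has too large a value -/
theorem not_extremal (hn : 3 ≤ n) (hC : Claim n) (z : Fin (n + 1) → Eu n) (hz : Extremal z) :
    False := by
  have hn1 : 1 ≤ n := by omega
  have hn2 : 2 ≤ n := by omega
  suffices h : ∑ i, u z i ^ 2 ≤ 9 / 4 by
    simp only [u_sq] at h
    rw [← Finset.mul_sum] at h
    have h9 := hz.big
    have hpi := Real.pi_pos
    rw [div_lt_iff₀ (by positivity)] at h9
    nlinarith
  obtain ⟨n3, n4, n5, n6, n7⟩ := T5b.norm_integral_sq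
  have hpi := Real.pi_pos
  have hpi0 : Real.pi ≠ 0 := hpi.ne'
  rcases Nat.lt_or_ge n 8 with h8 | h8
  · have hC1 := C1_cone hn z hz
    have hC2 := C2 hn1 hC z hz
    have hC3 := C3 hn2 z hz
    have h0 := u_nonneg z
    have h1 := u_le_one hn1 z hz
    have hm := mu_nonneg z
    have hs := sum_mu hn1 z hz
    interval_cases n
    · refine T9a.opt4 (u z) (mu z) h0 h1 hm hs ?_ (C2_three hC z hz) ?_
      · intro i hi
        have := hC1 i hi
        rw [n3] at this
        convert this using 3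
        push_cast
        field_simp
        norm_num
      · convert hC3 using 7
        push_cast
        norm_num
    · refine T9b.opt5 (u z) (mu z) h0 h1 hm hs ?_ hC2 ?_
      · intro i hi
        have := hC1 i hi
        rw [n4] at this
        convert this using 3
        push_cast
        field_simp
        norm_num
      · convert hC3 using 7
        push_cast
        norm_num
    · refine T9b.opt6 (u z) (mu z) h0 h1 hm hs ?_ hC2 ?_
      · intro i hi
        have := hC1 i hi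
        rw [n5] at this
        convert this using 3
        push_cast
        field_simp
        norm_num
      · convert hC3 using 7
        push_cast
        norm_num
    · refine T9b.opt7 (u z) (mu z) h0 h1 hm hs ?_ hC2 ?_
      · intro i hi
        have := hC1 i hi
        rw [n6] at this
        convert this using 3
        push_cast
        field_simp
        norm_num
      · convert hC3 using 7
        push_cast
        norm_num
    · refine T9b.opt8 (u z) (mu z) h0 h1 hm hs ?_ hC2 ?_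
      · intro i hi
        have := hC1 i hi
        rw [n7] at this
        convert this using 3
        push_cast
        field_simp
        norm_num
      · convert hC3 using 7
        push_cast
        norm_num
  · refine T9b.opt9 (n + 1) (by omega) (u z) (mu z) (u_nonneg z) (u_le_one hn1 z hz)
      (mu_nonneg z) (sum_mu hn1 z hz) (fun i _ => C1_half hn1 z hz i) (C2 hn1 hC z hz) ?_
    convert C3 hn2 z hz using 7
    push_cast
    ring

theorem claim_all (k : ℕ) : Claim k := by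
  induction k with
  | zero => exact T1.claim_le_three 0 (by norm_num)
  | succ n ih =>
    rcases Nat.lt_or_ge n 3 with h | h
    · exact T1.claim_le_three (n + 1) (by omega)
    · refine T3.claim_of_dim n ?_
      by_contra hnot
      push Not at hnot
      obtain ⟨z, hz⟩ := T2.exists_extremal n (by omega) ih hnot
      exact not_extremal h ih z hz

universe u v

theorem final (E : Type u) [NormedAddCommGroup E] [InnerProductSpace ℝ E] [FiniteDimensional ℝ E]
    [MeasurableSpace E] [BorelSpace E]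
    (ι : Type v) [Fintype ι] (A : ι → Set E)
    (hA : ∀ i, MeasurableSet (A i))
    (hdisj : Pairwise fun i j => Disjoint (A i) (A j))
    (hcov : ⋃ i, A i = Set.univ) :
    ∑ i, ‖∫ x in A i, x ∂stdGaussian E‖ ^ 2 ≤ 9 / (8 * Real.pi) :=
  T4.final_of_claim claim_all E ι A hA hdisj hcov

end Crest.Agent.R215.T10
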